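import Mathlib
import Crest.Prelude.Def_DeckCochains

-- ▼ part R251/Sm82A
section

/-!
# Row 251: barycentric subdivision of list cochains with values in an abelian group (helper82)

Dual form: `B φ` is the coboundary of a cochain on lists, `E`/`Sd` the subdivision, `H`/`Hd` the
homotopy: `φ - Sd φ = Hd (B φ) + B (Hd φ)`.
-/

set_option autoImplicit false

namespace Crest.Agent.R251.Sm

noncomputable section

variable {T T' : Type*} {M M' : Type*} [AddCommGroup M] [AddCommGroup M']

/-- alternating sum of the values on the faces -/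
def B (φ : List T → M) : List T → M
  | [] => 0
  | v :: l => φ l - B (fun l' => φ (v :: l')) l

theorem B_sub (φ ψ : List T → M) (l : List T) :
    B (fun l' => φ l' - ψ l') l = B φ l - B ψ l := by
  induction l generalizing φ ψ with
  | nil => simp [B]
  | cons v l ih =>
    simp only [B]
    rw [ih]
    abel

theorem B_add (φ ψ : List T → M) (l : List T) :
    B (fun l' => φ l' + ψ l') l = B φ l + B ψ l := by
  induction l generalizing φ ψ with
  | nil => simp [B]
  | cons v l ih =>
    simp only [B]
    rw [ih]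
    abel

theorem B_zero (l : List T) : B (fun _ => (0 : M)) l = 0 := by
  induction l with
  | nil => simp [B]
  | cons v l ih => simp only [B, ih, sub_zero]

theorem B_hom (a : M →+ M') (φ : List T → M) (l : List T) :
    B (fun l' => a (φ l')) l = a (B φ l) := by
  induction l generalizing φ with
  | nil => simp [B]
  | cons v l ih => simp only [B]; rw [ih, map_sub]

theorem B_eq_sum (φ : List T → M) (l : List T) :
    B φ l = ∑ i : Fin l.length, ((-1 : ℤ) ^ (i : ℕ)) • φ (l.eraseIdx i) := by
  induction l generalizing φ with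
  | nil => simp [B]
  | cons v l ih =>
    simp only [B]
    rw [ih]
    change _ = ∑ i : Fin (l.length + 1), ((-1 : ℤ) ^ (i : ℕ)) • φ ((v :: l).eraseIdx i)
    rw [Fin.sum_univ_succ]
    simp only [Fin.val_zero, pow_zero, one_smul, List.eraseIdx_cons_zero, Fin.val_succ,
      List.eraseIdx_cons_succ, pow_succ, mul_neg, mul_one, neg_smul, Finset.sum_neg_distrib]
    abel

/-- faces of a list -/
inductive IsFace : List T → List T → Prop
  | head (v : T) (l : List T) : IsFace (v :: l) l
  | cons (v : T) (l l' : List T) (h : IsFace l l') : IsFace (v :: l) (v :: l')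

theorem IsFace.length {l l' : List T} (h : IsFace l l') : l.length = l'.length + 1 := by
  induction h with
  | head v l => rfl
  | cons v l l' h ih => simp [ih]

theorem IsFace.subset {l l' : List T} (h : IsFace l l') : ∀ x ∈ l', x ∈ l := by
  induction h with
  | head v l => intro x hx; exact List.mem_cons_of_mem _ hx
  | cons v l l' h ih =>
    intro x hx
    rcases List.mem_cons.1 hx with rfl | hx
    · exact List.mem_cons_self
    · exact List.mem_cons_of_mem _ (ih x hx)

theorem B_congr (φ ψ : List T → M) (l : List T) (h : ∀ l', IsFace l l' → φ l' = ψ l') :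
    B φ l = B ψ l := by
  induction l generalizing φ ψ with
  | nil => simp [B]
  | cons v l ih =>
    simp only [B]
    rw [h l (IsFace.head v l), ih _ _ fun l' hl' => h _ (IsFace.cons v l l' hl')]

theorem B_B (φ : List T → M) (l : List T) : B (B φ) l = 0 := by
  induction l generalizing φ with
  | nil => simp [B]
  | cons v l ih =>
    have : B (fun l' => B φ (v :: l')) l = B (fun l' => φ l' - B (fun l'' => φ (v :: l'')) l') l := by
      rfl
    show B φ l - B (fun l' => B φ (v :: l')) l = 0
    rw [this, B_sub, ih]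
    abel

theorem B_map (f : T → T') (φ : List T' → M) (l : List T) :
    B φ (l.map f) = B (fun l' => φ (l'.map f)) l := by
  induction l generalizing φ with
  | nil => simp [B]
  | cons v l ih =>
    simp only [List.map_cons, B]
    rw [ih]

variable (b : List T → T)

/-- evaluation on the barycentric subdivision (fuel version) -/
def Es : ℕ → (List T → M) → List T → M
  | 0, φ, l => φ l
  | n + 1, φ, l => B (Es n (fun l' => φ (b l :: l'))) l

/-- evaluation on the homotopy (fuel version) -/
def Hs : ℕ → (List T → M) → List T → M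
  | 0, _, _ => 0
  | n + 1, φ, l => φ (b l :: l) - B (Hs n (fun l' => φ (b l :: l'))) l

theorem E_sub (n : ℕ) (φ ψ : List T → M) (l : List T) :
    Es b n (fun l' => φ l' - ψ l') l = Es b n φ l - Es b n ψ l := by
  induction n generalizing φ ψ l with
  | zero => rfl
  | succ n ih =>
    show B (Es b n (fun l' => φ (b l :: l') - ψ (b l :: l'))) l = _
    have h : Es b n (fun l' => φ (b l :: l') - ψ (b l :: l'))
        = fun l'' => Es b n (fun l' => φ (b l :: l')) l'' - Es b n (fun l' => ψ (b l :: l')) l'' := by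
      funext l''
      exact ih _ _ _
    rw [h, B_sub]
    rfl

theorem H_sub (n : ℕ) (φ ψ : List T → M) (l : List T) :
    Hs b n (fun l' => φ l' - ψ l') l = Hs b n φ l - Hs b n ψ l := by
  induction n generalizing φ ψ l with
  | zero => simp [Hs]
  | succ n ih =>
    show φ (b l :: l) - ψ (b l :: l) - B (Hs b n (fun l' => φ (b l :: l') - ψ (b l :: l'))) l = _
    have h : Hs b n (fun l' => φ (b l :: l') - ψ (b l :: l'))
        = fun l'' => Hs b n (fun l' => φ (b l :: l')) l'' - Hs b n (fun l' => ψ (b l :: l')) l'' := by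
      funext l''
      exact ih _ _ _
    rw [h, B_sub]
    show _ = (φ (b l :: l) - B (Hs b n (fun l' => φ (b l :: l'))) l) -
      (ψ (b l :: l) - B (Hs b n (fun l' => ψ (b l :: l'))) l)
    abel

theorem E_hom (a : M →+ M') (n : ℕ) (φ : List T → M) (l : List T) :
    Es b n (fun l' => a (φ l')) l = a (Es b n φ l) := by
  induction n generalizing φ l with
  | zero => rfl
  | succ n ih =>
    show B (Es b n (fun l' => a (φ (b l :: l')))) l = a (B (Es b n (fun l' => φ (b l :: l'))) l)
    rw [← B_hom]
    congr 1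
    funext l'
    exact ih _ _

theorem H_hom (a : M →+ M') (n : ℕ) (φ : List T → M) (l : List T) :
    Hs b n (fun l' => a (φ l')) l = a (Hs b n φ l) := by
  induction n generalizing φ l with
  | zero => simp [Hs]
  | succ n ih =>
    show a (φ (b l :: l)) - B (Hs b n (fun l' => a (φ (b l :: l')))) l =
      a (φ (b l :: l) - B (Hs b n (fun l' => φ (b l :: l'))) l)
    rw [map_sub, ← B_hom]
    congr 2
    funext l'
    exact ih _ _

/-- the key identity -/
theorem E_B (n : ℕ) (φ : List T → M) (l : List T) (hl : l.length = n) :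
    Es b n (B φ) l = B (Es b (n - 1) φ) l := by
  induction n generalizing φ l with
  | zero =>
    have : l = [] := List.length_eq_zero_iff.1 hl
    subst this
    simp [Es, B]
  | succ n ih =>
    show B (Es b n (fun l' => B φ (b l :: l'))) l = B (Es b n φ) l
    have h : Es b n (fun l' => B φ (b l :: l'))
        = fun l'' => Es b n φ l'' - Es b n (B (fun l' => φ (b l :: l'))) l'' := by
      funext l''
      have := E_sub b n φ (B (fun l' => φ (b l :: l'))) l''
      rw [← this]
      rfl
    rw [h, B_sub]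
    have h2 : B (Es b n (B (fun l' => φ (b l :: l')))) l = 0 := by
      rw [B_congr _ (B (Es b (n - 1) (fun l' => φ (b l :: l')))) l, B_B]
      intro l' hl'
      apply ih
      have := hl'.length
      omega
    rw [h2, sub_zero]

/-- the homotopy identity -/
theorem H_B (n : ℕ) (φ : List T → M) (l : List T) (hl : l.length = n) :
    Hs b n (B φ) l + B (Hs b (n - 1) φ) l = φ l - Es b n φ l := by
  induction n generalizing φ l with
  | zero =>
    have : l = [] := List.length_eq_zero_iff.1 hl
    subst this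
    simp [Es, B, Hs]
  | succ n ih =>
    have e1 : Hs b (n + 1) (B φ) l = B φ (b l :: l) - B (Hs b n (fun l' => B φ (b l :: l'))) l := rfl
    have e2 : B φ (b l :: l) = φ l - B (fun l' => φ (b l :: l')) l := rfl
    have e3 : Hs b n (fun l' => B φ (b l :: l'))
        = fun l'' => Hs b n φ l'' - Hs b n (B (fun l' => φ (b l :: l'))) l'' := by
      funext l''
      have := H_sub b n φ (B (fun l' => φ (b l :: l'))) l''
      rw [← this]
      rfl
    have e4 : B (Hs b n (B (fun l' => φ (b l :: l')))) l =
        B (fun l' => φ (b l :: l')) l - B (Es b n (fun l' => φ (b l :: l'))) l := by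
      have e5 : B (Hs b n (B (fun l' => φ (b l :: l')))) l =
          B (fun l' => (φ (b l :: l') - Es b n (fun l' => φ (b l :: l')) l') -
            B (Hs b (n - 1) (fun l' => φ (b l :: l'))) l') l := by
        apply B_congr
        intro l' hl'
        have h := hl'.length
        have := ih (fun l' => φ (b l :: l')) l' (by omega)
        rw [← this]
        abel
      rw [e5, B_sub, B_B, sub_zero, B_sub]
    have e6 : Es b (n + 1) φ l = B (Es b n (fun l' => φ (b l :: l'))) l := rfl
    rw [e1, e2, e3, B_sub, e4, e6, Nat.add_sub_cancel]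
    abel

/-- evaluation on the barycentric subdivision -/
def Sd (φ : List T → M) (l : List T) : M := Es b l.length φ l

/-- evaluation on the homotopy -/
def Hd (φ : List T → M) (l : List T) : M := Hs b l.length φ l

theorem Sd_B (φ : List T → M) : Sd b (B φ) = B (Sd b φ) := by
  funext l
  unfold Sd
  rw [E_B b _ φ l rfl]
  apply B_congr
  intro l' hl'
  have := hl'.length
  congr 1
  omega

theorem Hd_B (φ : List T → M) (l : List T) :
    Hd b (B φ) l + B (Hd b φ) l = φ l - Sd b φ l := by
  unfold Sd Hd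
  rw [← H_B b _ φ l rfl]
  congr 1
  apply B_congr
  intro l' hl'
  have := hl'.length
  congr 1
  omega

theorem Sd_hom (a : M →+ M') (φ : List T → M) (l : List T) :
    Sd b (fun l' => a (φ l')) l = a (Sd b φ l) := E_hom b a _ _ _

theorem Hd_hom (a : M →+ M') (φ : List T → M) (l : List T) :
    Hd b (fun l' => a (φ l')) l = a (Hd b φ l) := H_hom b a _ _ _

/-- `l'` is a simplex of the subdivision of `l` (fuel version) -/
inductive InSd : ℕ → List T → List T → Prop
  | zero (l : List T) : InSd 0 l l
  | succ (n : ℕ) (l l1 l2 : List T) (h : IsFace l l1) (h2 : InSd n l1 l2) :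
      InSd (n + 1) l (b l :: l2)

theorem E_congr (n : ℕ) (φ ψ : List T → M) (l : List T)
    (h : ∀ l', InSd b n l l' → φ l' = ψ l') : Es b n φ l = Es b n ψ l := by
  induction n generalizing φ ψ l with
  | zero => exact h l (InSd.zero l)
  | succ n ih =>
    show B (Es b n (fun l' => φ (b l :: l'))) l = B (Es b n (fun l' => ψ (b l :: l'))) l
    apply B_congr
    intro l1 hl1
    apply ih
    intro l2 hl2
    exact h _ (InSd.succ n l l1 l2 hl1 hl2)

/-- a set of points closed under barycenters -/
def Closed (K : Set T) : Prop := ∀ l : List T, l ≠ [] → (∀ x ∈ l, x ∈ K) → b l ∈ K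

theorem H_congr (K : Set T) (hK : Closed b K) (n : ℕ) (φ ψ : List T → M) (l : List T)
    (hl : l.length = n) (hlK : ∀ x ∈ l, x ∈ K)
    (h : ∀ l' : List T, l'.length = n + 1 → (∀ x ∈ l', x ∈ K) → φ l' = ψ l') :
    Hs b n φ l = Hs b n ψ l := by
  induction n generalizing φ ψ l with
  | zero => rfl
  | succ n ih =>
    have hne : l ≠ [] := by rintro rfl; simp at hl
    have hb : b l ∈ K := hK l hne hlK
    have key : ∀ l' : List T, (∀ x ∈ l', x ∈ K) → ∀ x ∈ b l :: l', x ∈ K := by
      intro l' h' x hx
      rcases List.mem_cons.1 hx with rfl | hx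
      · exact hb
      · exact h' x hx
    show φ (b l :: l) - B (Hs b n (fun l' => φ (b l :: l'))) l =
      ψ (b l :: l) - B (Hs b n (fun l' => ψ (b l :: l'))) l
    rw [h (b l :: l) (by simp [hl]) (key l hlK)]
    congr 1
    apply B_congr
    intro l1 hl1
    have h1 := hl1.length
    apply ih _ _ l1 (by omega) (fun x hx => hlK x (hl1.subset x hx))
    intro l' hl' hK'
    exact h _ (by simp [hl']) (key l' hK')

/-- naturality for maps commuting with `b` on nonempty lists -/
theorem E_map (b' : List T' → T') (f : T → T') (hf : ∀ l : List T, l ≠ [] → f (b l) = b' (l.map f))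
    (n : ℕ) (φ : List T' → M) (l : List T) (hl : l.length = n) :
    Es b' n φ (l.map f) = Es b n (fun l' => φ (l'.map f)) l := by
  induction n generalizing φ l with
  | zero => rfl
  | succ n ih =>
    have hne : l ≠ [] := by rintro rfl; simp at hl
    show B (Es b' n (fun l' => φ (b' (l.map f) :: l'))) (l.map f) = _
    rw [B_map]
    show _ = B (Es b n (fun l' => φ (f (b l) :: l'.map f))) l
    apply B_congr
    intro l1 hl1
    have := hl1.length
    rw [ih _ _ (by omega), hf l hne]

theorem H_map (b' : List T' → T') (f : T → T') (hf : ∀ l : List T, l ≠ [] → f (b l) = b' (l.map f))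
    (n : ℕ) (φ : List T' → M) (l : List T) (hl : l.length = n) :
    Hs b' n φ (l.map f) = Hs b n (fun l' => φ (l'.map f)) l := by
  induction n generalizing φ l with
  | zero => rfl
  | succ n ih =>
    have hne : l ≠ [] := by rintro rfl; simp at hl
    show φ (b' (l.map f) :: l.map f) - B (Hs b' n (fun l' => φ (b' (l.map f) :: l'))) (l.map f) =
      φ (f (b l) :: l.map f) - B (Hs b n (fun l' => φ (f (b l) :: l'.map f))) l
    rw [B_map, ← hf l hne]
    congr 1
    apply B_congr
    intro l1 hl1
    have := hl1.length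
    rw [ih _ _ (by omega)]

theorem Sd_map (b' : List T' → T') (f : T → T')
    (hf : ∀ l : List T, l ≠ [] → f (b l) = b' (l.map f)) (φ : List T' → M) (l : List T) :
    Sd b' φ (l.map f) = Sd b (fun l' => φ (l'.map f)) l := by
  unfold Sd
  rw [List.length_map]
  exact E_map b b' f hf _ φ l rfl

theorem Hd_map (b' : List T' → T') (f : T → T')
    (hf : ∀ l : List T, l ≠ [] → f (b l) = b' (l.map f)) (φ : List T' → M) (l : List T) :
    Hd b' φ (l.map f) = Hd b (fun l' => φ (l'.map f)) l := by
  unfold Hd
  rw [List.length_map]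
  exact H_map b b' f hf _ φ l rfl

theorem InSd.length {n : ℕ} {l l' : List T} (h : InSd b n l l') (hl : l.length = n) :
    l'.length = n := by
  induction h with
  | zero l => exact hl
  | succ n l l1 l2 h1 h2 ih =>
    have := h1.length
    rw [List.length_cons, ih (by omega)]

section mesh

variable [PseudoMetricSpace T]

/-- all points are close to each other -/
def Sml (r : ℝ) (l : List T) : Prop := ∀ x ∈ l, ∀ y ∈ l, dist x y ≤ r

/-- properties of the barycenter map; `c` is the contraction factor for lists of length `≤ N` -/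
structure BaryProp (N : ℕ) (c : ℝ) (b : List T → T) : Prop where
  c_nonneg : 0 ≤ c
  conv : ∀ (l : List T) (p : T) (R : ℝ), l ≠ [] → (∀ v ∈ l, dist v p ≤ R) → dist (b l) p ≤ R
  small : ∀ (l : List T) (r : ℝ), l ≠ [] → l.length ≤ N → Sml r l → ∀ v ∈ l, dist (b l) v ≤ c * r

variable {b} {N : ℕ} {c : ℝ}

theorem InSd.dist_le (hb : BaryProp N c b) {n : ℕ} {l l' : List T} (h : InSd b n l l')
    (hl : l.length = n) (p : T) (R : ℝ) (hR : ∀ v ∈ l, dist v p ≤ R) : ∀ w ∈ l', dist w p ≤ R := by
  induction h with
  | zero l => exact hR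
  | succ n l l1 l2 h1 h2 ih =>
    intro w hw
    rcases List.mem_cons.1 hw with rfl | hw
    · exact hb.conv l p R (by rintro rfl; simp at hl) hR
    · have := h1.length
      exact ih (by omega) (fun v hv => hR v (h1.subset v hv)) w hw

theorem InSd.small (hb : BaryProp N c b) {n : ℕ} {l l' : List T} (h : InSd b n l l')
    (hl : l.length = n) (hn : n ≤ N) (r : ℝ) (hr : 0 ≤ r) (hs : Sml r l) : Sml (c * r) l' := by
  have hc := hb.c_nonneg
  induction h with
  | zero l =>
    intro x hx
    rw [List.length_eq_zero_iff.1 hl] at hx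
    simp at hx
  | succ n l l1 l2 h1 h2 ih =>
    have hlen := h1.length
    have hne : l ≠ [] := by rintro rfl; simp at hl
    have h3 : ∀ v ∈ l, dist v (b l) ≤ c * r := fun v hv => by
      rw [dist_comm]
      exact hb.small l r hne (by omega) hs v hv
    have h4 : ∀ w ∈ l2, dist w (b l) ≤ c * r :=
      h2.dist_le hb (by omega) (b l) _ fun v hv => h3 v (h1.subset v hv)
    have h5 : Sml (c * r) l2 := ih (by omega) (by omega)
      fun x hx y hy => hs x (h1.subset x hx) y (h1.subset y hy)
    intro x hx y hy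
    rcases List.mem_cons.1 hx with rfl | hx
    · rcases List.mem_cons.1 hy with rfl | hy
      · rw [dist_self]; positivity
      · rw [dist_comm]; exact h4 y hy
    · rcases List.mem_cons.1 hy with rfl | hy
      · exact h4 x hx
      · exact h5 x hx y hy

theorem iterate_Sd_congr (hb : BaryProp N c b) (m : ℕ) (φ ψ : List T → M) (l : List T)
    (hl : l.length ≤ N) (r : ℝ) (hr : 0 ≤ r) (hs : Sml r l)
    (h : ∀ l' : List T, l'.length = l.length → Sml (c ^ m * r) l' → φ l' = ψ l') :
    (Sd b)^[m] φ l = (Sd b)^[m] ψ l := by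
  have hc := hb.c_nonneg
  induction m generalizing φ ψ with
  | zero =>
    apply h l rfl
    simpa using hs
  | succ m ih =>
    rw [Function.iterate_succ_apply, Function.iterate_succ_apply]
    apply ih
    intro l1 hl1 hs1
    unfold Sd
    apply E_congr
    intro l2 hl2
    apply h
    · rw [hl2.length b rfl, hl1]
    · have := hl2.small hb rfl (by omega) _ (by positivity) hs1
      rw [← mul_assoc] at this
      rwa [pow_succ']

end mesh

end

end Crest.Agent.R251.Sm
end

-- ▼ part R251/Sm82B
section

/-!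
# Row 251: affine simplices and barycenters in standard simplices (helper82)
-/

set_option autoImplicit false

namespace Crest.Agent.R251.Sm

noncomputable section

/-- the standard simplex -/
abbrev Dn (n : ℕ) : Type := stdSimplex ℝ (Fin (n + 1))

/-- face inclusions -/
def face {n : ℕ} (i : Fin (n + 2)) : C(Dn n, Dn (n + 1)) :=
  ⟨stdSimplex.map i.succAbove, stdSimplex.continuous_map _⟩

open scoped Classical in
theorem face_apply {n : ℕ} (i : Fin (n + 2)) (s : Dn n) (j : Fin (n + 2)) :
    (face i s) j = ∑ k : Fin (n + 1), if i.succAbove k = j then s k else 0 := by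
  classical
  show (stdSimplex.map i.succAbove s) j = _
  rw [stdSimplex.map_coe, FunOnFinite.linearMap_apply_apply, Finset.sum_filter]

theorem continuous_coord {n : ℕ} (i : Fin (n + 1)) : Continuous fun s : Dn n => s i :=
  (continuous_apply i).comp continuous_subtype_val

/-- default vertex -/
def vd (m : ℕ) : Dn m := stdSimplex.vertex 0

variable {m : ℕ}

theorem aff_mem (n : ℕ) (l : List (Dn m)) (t : Dn n) :
    (fun i => ∑ j : Fin (n + 1), t j * (l.getD j (vd m)) i) ∈ stdSimplex ℝ (Fin (m + 1)) := by
  constructor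
  · intro i
    exact Finset.sum_nonneg fun j _ => mul_nonneg (stdSimplex.zero_le t j) (stdSimplex.zero_le _ i)
  · rw [Finset.sum_comm]
    simp only [← Finset.mul_sum, stdSimplex.sum_eq_one, mul_one]

/-- the affine simplex with vertices `l` -/
def aff (n : ℕ) (l : List (Dn m)) : C(Dn n, Dn m) where
  toFun t := ⟨fun i => ∑ j : Fin (n + 1), t j * (l.getD j (vd m)) i, aff_mem n l t⟩
  continuous_toFun := by
    refine Continuous.subtype_mk (continuous_pi fun i => ?_) _
    exact continuous_finsetSum _ fun j _ => (continuous_coord j).mul continuous_const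

theorem aff_apply (n : ℕ) (l : List (Dn m)) (t : Dn n) (i : Fin (m + 1)) :
    (aff n l t) i = ∑ j : Fin (n + 1), t j * (l.getD j (vd m)) i := rfl

theorem getD_map {α β : Type*} (f : α → β) (l : List α) (j : ℕ) (a : α) (b : β) (h : j < l.length) :
    (l.map f).getD j b = f (l.getD j a) := by
  rw [List.getD_eq_getElem _ _ (by simpa using h), List.getD_eq_getElem _ _ h, List.getElem_map]

/-- composition of affine simplices -/
theorem aff_map {k : ℕ} (n : ℕ) (l : List (Dn k)) (hl : l.length = n + 1) (L : List (Dn m)) :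
    aff n (l.map (aff k L)) = (aff k L).comp (aff n l) := by
  ext t i
  show (aff n (l.map (aff k L)) t) i = (aff k L (aff n l t)) i
  rw [aff_apply, aff_apply]
  have h1 : ∀ j : Fin (n + 1), ((l.map (aff k L)).getD j (vd m)) i
      = ∑ a : Fin (k + 1), (l.getD j (vd k)) a * (L.getD a (vd m)) i := by
    intro j
    rw [getD_map (aff k L) l j (vd k) (vd m) (by rw [hl]; exact j.2), aff_apply]
  simp only [h1, aff_apply, Finset.mul_sum, Finset.sum_mul]
  rw [Finset.sum_comm]
  refine Finset.sum_congr rfl fun a _ => Finset.sum_congr rfl fun j _ => ?_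
  ring

theorem aff_vertex (n : ℕ) (l : List (Dn m)) (j : Fin (n + 1)) :
    aff n l (stdSimplex.vertex j) = l.getD j (vd m) := by
  classical
  ext i
  rw [aff_apply]
  rw [Finset.sum_eq_single j]
  · simp [stdSimplex.vertex]
  · intro k _ hk
    have : (stdSimplex.vertex (S := ℝ) j : Dn n) k = 0 := by
      simp [stdSimplex.vertex, hk]
    rw [this, zero_mul]
  · simp

/-- the vertices of the standard simplex -/
def vs (n : ℕ) : List (Dn n) := List.ofFn fun j : Fin (n + 1) => stdSimplex.vertex j

@[simp] theorem length_vs (n : ℕ) : (vs n).length = n + 1 := by simp [vs]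

theorem getD_vs (n : ℕ) (j : Fin (n + 1)) (d : Dn n) : (vs n).getD j d = stdSimplex.vertex j := by
  rw [List.getD_eq_getElem _ _ (by rw [length_vs]; exact j.2)]
  unfold vs
  rw [List.getElem_ofFn]

theorem aff_vs (n : ℕ) : aff n (vs n) = ContinuousMap.id _ := by
  classical
  ext t i
  show (aff n (vs n) t) i = t i
  rw [aff_apply]
  rw [Finset.sum_eq_single i]
  · rw [getD_vs]; simp [stdSimplex.vertex]
  · intro k _ hk
    have : ((vs n).getD k (vd n)) i = 0 := by
      rw [getD_vs]
      simp [stdSimplex.vertex, hk.symm]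
    rw [this, mul_zero]
  · simp

theorem vs_map (n : ℕ) (l : List (Dn m)) (hl : l.length = n + 1) : (vs n).map (aff n l) = l := by
  apply List.ext_getElem
  · simp [hl]
  · intro i h1 h2
    have h3 : i < n + 1 := by simpa using h1
    rw [List.getElem_map]
    have : (vs n)[i]'(by simpa using h3) = stdSimplex.vertex (⟨i, h3⟩ : Fin (n + 1)) := by
      unfold vs
      rw [List.getElem_ofFn]
    rw [this, aff_vertex]
    exact List.getD_eq_getElem _ _ h2

theorem aff_erase (n : ℕ) (l : List (Dn m)) (hl : l.length = n + 2) (i : Fin (n + 2)) :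
    aff n (l.eraseIdx i) = (aff (n + 1) l).comp (face i) := by
  classical
  ext t k
  show (aff n (l.eraseIdx i) t) k = (aff (n + 1) l (face i t)) k
  rw [aff_apply, aff_apply]
  simp only [face_apply, Finset.sum_mul]
  rw [Finset.sum_comm]
  refine Finset.sum_congr rfl fun j _ => ?_
  rw [Finset.sum_eq_single (i.succAbove j)]
  · rw [if_pos rfl]
    congr 2
    have hj : (j : ℕ) < (l.eraseIdx i).length := by
      rw [List.length_eraseIdx_of_lt (by rw [hl]; exact i.2), hl]
      have := j.2
      omega
    have hj' : ((i.succAbove j : Fin (n + 2)) : ℕ) < l.length := by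
      rw [hl]; exact (i.succAbove j).2
    rw [List.getD_eq_getElem _ _ hj, List.getD_eq_getElem _ _ hj', List.getElem_eraseIdx]
    by_cases h : (j : ℕ) < (i : ℕ)
    · rw [dif_pos h]
      have : ((i.succAbove j : Fin (n + 2)) : ℕ) = j := by
        rw [Fin.succAbove_of_castSucc_lt _ _ (by simpa [Fin.lt_def] using h)]
        simp
      simp only [this]
    · rw [dif_neg h]
      have : ((i.succAbove j : Fin (n + 2)) : ℕ) = j + 1 := by
        rw [Fin.succAbove_of_le_castSucc _ _ (by simpa [Fin.le_def] using h)]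
        simp
      simp only [this]
  · intro b _ hb
    rw [if_neg (fun h => hb h.symm), zero_mul]
  · simp

open scoped Classical in
/-- the barycenter -/
def bary (l : List (Dn m)) : Dn m :=
  if hl : l ≠ [] then ⟨fun i => (l.map fun p : Dn m => p i).sum / l.length, by
    have hlen : (0 : ℝ) < l.length := by
      have := List.length_pos_iff.2 hl
      exact_mod_cast this
    constructor
    · intro i
      apply div_nonneg _ hlen.le
      apply List.sum_nonneg
      intro x hx
      obtain ⟨p, _, rfl⟩ := List.mem_map.1 hx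
      exact stdSimplex.zero_le p i
    · rw [← Finset.sum_div, div_eq_one_iff_eq hlen.ne']
      clear hlen hl
      induction l with
      | nil => simp
      | cons p l ih =>
        simp only [List.map_cons, List.sum_cons, Finset.sum_add_distrib, ih, List.length_cons]
        rw [stdSimplex.sum_eq_one]
        push_cast
        ring⟩
  else stdSimplex.vertex 0

theorem bary_apply (l : List (Dn m)) (hl : l ≠ []) (i : Fin (m + 1)) :
    bary l i = (l.map fun p : Dn m => p i).sum / l.length := by
  unfold bary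
  rw [dif_pos hl]
  rfl

theorem aff_bary (k : ℕ) (L : List (Dn m)) (l : List (Dn k)) (hl : l ≠ []) :
    aff k L (bary l) = bary (l.map (aff k L)) := by
  ext i
  rw [bary_apply _ (by simpa using hl), aff_apply]
  simp only [bary_apply l hl, List.map_map, List.length_map]
  have h : ∀ l : List (Dn k), (l.map ((fun p : Dn m => p i) ∘ (aff k L))).sum
      = ∑ j : Fin (k + 1), (l.map fun p : Dn k => p j).sum * (L.getD j (vd m)) i := by
    intro l
    induction l with
    | nil => simp
    | cons p l ih =>
      simp only [List.map_cons, List.sum_cons, ih, Function.comp_apply, aff_apply]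
      rw [← Finset.sum_add_distrib]
      refine Finset.sum_congr rfl fun j _ => ?_
      ring
  rw [h, Finset.sum_div]
  refine Finset.sum_congr rfl fun j _ => ?_
  ring

theorem dist_Dn_le {n : ℕ} (p q : Dn n) (R : ℝ) (hR : 0 ≤ R) :
    dist p q ≤ R ↔ ∀ i, |p i - q i| ≤ R := by
  rw [Subtype.dist_eq, dist_pi_le_iff hR]
  rfl

theorem dist_Dn_le_one {n : ℕ} (p q : Dn n) : dist p q ≤ 1 := by
  rw [dist_Dn_le _ _ _ zero_le_one]
  intro i
  have h1 := stdSimplex.zero_le p i
  have h2 := stdSimplex.zero_le q i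
  have h3 := stdSimplex.le_one p i
  have h4 := stdSimplex.le_one q i
  rw [abs_le]
  constructor <;> linarith

/-- balls are convex -/
theorem dist_aff_le (n : ℕ) (l : List (Dn m)) (hl : l.length = n + 1) (t : Dn n) (q : Dn m) (R : ℝ)
    (hR : 0 ≤ R) (h : ∀ p ∈ l, dist p q ≤ R) : dist (aff n l t) q ≤ R := by
  rw [dist_Dn_le _ _ _ hR]
  intro i
  rw [aff_apply]
  have h0 : q i = ∑ j : Fin (n + 1), t j * q i := by
    rw [← Finset.sum_mul, stdSimplex.sum_eq_one, one_mul]
  have h1 : (∑ j : Fin (n + 1), t j * (l.getD j (vd m)) i) - q i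
      = ∑ j : Fin (n + 1), t j * ((l.getD j (vd m)) i - q i) := by
    conv_lhs => rw [h0]
    rw [← Finset.sum_sub_distrib]
    refine Finset.sum_congr rfl fun j _ => ?_
    ring
  rw [h1]
  refine (Finset.abs_sum_le_sum_abs _ _).trans ?_
  have h2 : ∀ j : Fin (n + 1), |t j * ((l.getD j (vd m)) i - q i)| ≤ t j * R := by
    intro j
    rw [abs_mul, abs_of_nonneg (stdSimplex.zero_le t j)]
    refine mul_le_mul_of_nonneg_left ?_ (stdSimplex.zero_le t j)
    refine (dist_Dn_le _ _ _ hR).1 (h _ ?_) i
    have hj : (j : ℕ) < l.length := by rw [hl]; exact j.2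
    rw [List.getD_eq_getElem _ _ hj]
    exact List.getElem_mem _
  refine (Finset.sum_le_sum fun j _ => h2 j).trans ?_
  rw [← Finset.sum_mul, stdSimplex.sum_eq_one, one_mul]

theorem sum_sub_le (xs : List ℝ) (c R : ℝ) (h : ∀ x ∈ xs, |x - c| ≤ R) :
    |xs.sum - xs.length * c| ≤ xs.length * R := by
  induction xs with
  | nil => simp
  | cons x xs ih =>
    have h1 := ih fun y hy => h y (List.mem_cons_of_mem _ hy)
    have h2 := h x List.mem_cons_self
    rw [List.sum_cons, List.length_cons]
    push_cast
    have h3 : x + xs.sum - ((xs.length : ℝ) + 1) * c = (x - c) + (xs.sum - xs.length * c) := by ring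
    rw [h3]
    refine (abs_add_le _ _).trans ?_
    linarith

theorem baryProp (m N : ℕ) : BaryProp (N + 1) ((N : ℝ) / (N + 1)) (bary (m := m)) where
  c_nonneg := by positivity
  conv := by
    intro l p R hl hR
    have hR0 : 0 ≤ R := by
      obtain ⟨v, hv⟩ := List.exists_mem_of_ne_nil l hl
      exact dist_nonneg.trans (hR v hv)
    have hlen : (0 : ℝ) < l.length := by
      have := List.length_pos_iff.2 hl
      exact_mod_cast this
    rw [dist_Dn_le _ _ _ hR0]
    intro i
    rw [bary_apply l hl]
    have h1 := sum_sub_le (l.map fun p : Dn m => p i) (p i) R (by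
      intro x hx
      obtain ⟨v, hv, rfl⟩ := List.mem_map.1 hx
      exact (dist_Dn_le _ _ _ hR0).1 (hR v hv) i)
    rw [List.length_map] at h1
    have h2 : (l.map fun p : Dn m => p i).sum / l.length - p i
        = ((l.map fun p : Dn m => p i).sum - l.length * p i) / l.length := by
      field_simp
    rw [h2, abs_div, abs_of_pos hlen, div_le_iff₀ hlen]
    linarith
  small := by
    classical
    intro l r hl hlen4 hs v hv
    have hr : 0 ≤ r := dist_nonneg.trans (hs v hv v hv)
    have hlen : (0 : ℝ) < l.length := by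
      have := List.length_pos_iff.2 hl
      exact_mod_cast this
    rw [dist_Dn_le _ _ _ (by positivity)]
    intro i
    rw [bary_apply l hl]
    obtain ⟨s, t, rfl⟩ := List.append_of_mem hv
    have h0 : ((s ++ v :: t).map fun p : Dn m => p i).sum
        = v i + ((s ++ t).map fun p : Dn m => p i).sum := by
      simp only [List.map_append, List.map_cons, List.sum_append, List.sum_cons]
      ring
    have h1 := sum_sub_le ((s ++ t).map fun p : Dn m => p i) (v i) r (by
      intro x hx
      obtain ⟨w, hw, rfl⟩ := List.mem_map.1 hx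
      refine (dist_Dn_le _ _ _ hr).1 (hs w ?_ v hv) i
      rcases List.mem_append.1 hw with hw | hw
      · exact List.mem_append_left _ hw
      · exact List.mem_append_right _ (List.mem_cons_of_mem _ hw))
    have h3 : ((s ++ t).length : ℝ) = ((s ++ v :: t).length : ℝ) - 1 := by
      simp only [List.length_append, List.length_cons]
      push_cast
      ring
    rw [List.length_map, h3] at h1
    set l := s ++ v :: t
    have h2 : (l.map fun p : Dn m => p i).sum / l.length - v i
        = (((s ++ t).map fun p : Dn m => p i).sum - (l.length - 1) * v i) / l.length := by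
      rw [h0]
      field_simp
      ring
    have h4 : (l.length : ℝ) ≤ N + 1 := by exact_mod_cast hlen4
    rw [h2, abs_div, abs_of_pos hlen, div_le_iff₀ hlen]
    have h5 : ((l.length : ℝ) - 1) * r ≤ (N : ℝ) / (N + 1) * r * l.length := by
      have h6 : (l.length : ℝ) - 1 ≤ (N : ℝ) / (N + 1) * l.length := by
        rw [div_mul_eq_mul_div, le_div_iff₀ (by positivity)]
        nlinarith
      nlinarith
    linarith

theorem closed_ball_bary (p : Dn m) (R : ℝ) : Closed bary (Metric.closedBall p R) := by
  intro l hl h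
  exact (baryProp m 0).conv l p R hl h

theorem Sml_vs (n : ℕ) (l : List (Dn n)) : Sml 1 l := fun x _ y _ => dist_Dn_le_one x y

end

end Crest.Agent.R251.Sm
end

-- ▼ part R251/Sm82C

/-!
# Row 251: small simplices, cochain form (helper82)

`small_vanish`: a cocycle which vanishes on small simplices is the coboundary of a cochain which
vanishes on small simplices; everything is natural.
`extend_small`: a cochain which is a cocycle on small simplices extends to a cocycle.
-/

set_option autoImplicit false

namespace Crest.Agent.R251.Sm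

open CategoryTheory Simplicial Opposite
open Crest.GeometryTopology.DeckCochains

noncomputable section

variable {E E' : Type} [TopologicalSpace E] [TopologicalSpace E']
variable {M M' : Type*} [AddCommGroup M] [AddCommGroup M']

/-- the singular simplex given by a continuous map -/
def sx {n : ℕ} (σ : C(Dn n, E)) : SingSimplex E n :=
  (TopCat.toSSetObjEquiv (TopCat.of E) (op ⦋n⦌)).symm σ

/-- the continuous map of a singular simplex -/
def un {n : ℕ} (s : SingSimplex E n) : C(Dn n, E) :=
  TopCat.toSSetObjEquiv (TopCat.of E) (op ⦋n⦌) s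

@[simp] theorem sx_un {n : ℕ} (s : SingSimplex E n) : sx (un s) = s := Equiv.symm_apply_apply _ _
@[simp] theorem un_sx {n : ℕ} (σ : C(Dn n, E)) : un (sx σ) = σ := Equiv.apply_symm_apply _ _

theorem simplexFace_sx {n : ℕ} (σ : C(Dn (n + 1), E)) (i : Fin (n + 2)) :
    simplexFace i (sx σ) = sx (σ.comp (face i)) := rfl

theorem simplexFace_eq {n : ℕ} (s : SingSimplex E (n + 1)) (i : Fin (n + 2)) :
    simplexFace i s = sx ((un s).comp (face i)) := by
  conv_lhs => rw [← sx_un s]
  rfl

theorem un_face {n : ℕ} (s : SingSimplex E (n + 1)) (i : Fin (n + 2)) :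
    un (simplexFace i s) = (un s).comp (face i) := by
  rw [simplexFace_eq, un_sx]

/-- push forward of simplices -/
def psh {n : ℕ} (f : C(E, E')) (s : SingSimplex E n) : SingSimplex E' n := sx (f.comp (un s))

theorem psh_sx {n : ℕ} (f : C(E, E')) (σ : C(Dn n, E)) : psh f (sx σ) = sx (f.comp σ) := by
  unfold psh; rw [un_sx]

theorem un_psh {n : ℕ} (f : C(E, E')) (s : SingSimplex E n) : un (psh f s) = f.comp (un s) := by
  unfold psh; rw [un_sx]

theorem psh_face {n : ℕ} (f : C(E, E')) (s : SingSimplex E (n + 1)) (i : Fin (n + 2)) :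
    simplexFace i (psh f s) = psh f (simplexFace i s) := by
  rw [simplexFace_eq, un_psh, simplexFace_eq, psh_sx]
  rfl

theorem translate_eq {n : ℕ} (g : E ≃ₜ E) (s : SingSimplex E n) :
    simplexTranslate g s = psh (g : C(E, E)) s := by
  conv_lhs => rw [← sx_un s]
  rfl

theorem cobdry_psh {n : ℕ} (f : C(E, E')) (φ : SingSimplex E' n → M) (s : SingSimplex E (n + 1)) :
    cochainCobdry φ (psh f s) = cochainCobdry (fun t => φ (psh f t)) s := by
  unfold cochainCobdry
  simp only [psh_face]

theorem cobdry_sub {n : ℕ} (φ ψ : SingSimplex E n → M) :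
    cochainCobdry (fun s => φ s - ψ s) = fun s => cochainCobdry φ s - cochainCobdry ψ s := by
  funext s
  simp only [cochainCobdry, smul_sub, Finset.sum_sub_distrib]

theorem cobdry_add {n : ℕ} (φ ψ : SingSimplex E n → M) :
    cochainCobdry (fun s => φ s + ψ s) = fun s => cochainCobdry φ s + cochainCobdry ψ s := by
  funext s
  simp only [cochainCobdry, smul_add, Finset.sum_add_distrib]

theorem cobdry_zero {n : ℕ} : cochainCobdry (fun _ : SingSimplex E n => (0 : M)) = 0 := by
  funext s
  simp [cochainCobdry]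

theorem cobdry_hom {n : ℕ} (a : M →+ M') (φ : SingSimplex E n → M) (s : SingSimplex E (n + 1)) :
    cochainCobdry (fun t => a (φ t)) s = a (cochainCobdry φ s) := by
  simp only [cochainCobdry, map_sum, map_zsmul]

/-- the list cochain of a cochain along a simplex -/
def lc {n k : ℕ} (φ : SingSimplex E n → M) (s : SingSimplex E k) (l : List (Dn k)) : M :=
  if l.length = n + 1 then φ (sx ((un s).comp (aff n l))) else 0

theorem lc_vs {n : ℕ} (φ : SingSimplex E n → M) (s : SingSimplex E n) : lc φ s (vs n) = φ s := by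
  unfold lc
  rw [if_pos (length_vs n), aff_vs]
  exact congrArg φ (sx_un s)

theorem B_lc {n k : ℕ} (φ : SingSimplex E n → M) (s : SingSimplex E k) :
    B (lc φ s) = lc (cochainCobdry φ) s := by
  funext l
  by_cases hl : l.length = n + 2
  · have hR : lc (cochainCobdry φ) s l = cochainCobdry φ (sx ((un s).comp (aff (n + 1) l))) := by
      unfold lc; rw [if_pos hl]
    rw [hR, B_eq_sum]
    unfold cochainCobdry
    have key : ∀ i : Fin l.length, ((-1 : ℤ) ^ (i : ℕ)) • lc φ s (l.eraseIdx i) =
        ((-1 : ℤ) ^ ((Fin.cast hl i : Fin (n + 2)) : ℕ)) •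
          φ (simplexFace (Fin.cast hl i) (sx ((un s).comp (aff (n + 1) l)))) := by
      intro i
      have h1 : (l.eraseIdx i).length = n + 1 := by
        rw [List.length_eraseIdx_of_lt i.2, hl]; rfl
      have h2 := aff_erase n l hl (Fin.cast hl i)
      have h3 : ((Fin.cast hl i : Fin (n + 2)) : ℕ) = (i : ℕ) := rfl
      rw [h3] at h2
      unfold lc
      rw [if_pos h1, h2, h3, simplexFace_sx]
      rfl
    rw [Finset.sum_congr rfl fun i _ => key i]
    exact Equiv.sum_comp (finCongr hl) fun i : Fin (n + 2) => ((-1 : ℤ) ^ (i : ℕ)) •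
      φ (simplexFace i (sx ((un s).comp (aff (n + 1) l))))
  · have hR : lc (cochainCobdry φ) s l = 0 := by
      unfold lc; rw [if_neg hl]
    rw [hR]
    rw [B_congr _ (fun _ => 0) l, B_zero]
    intro l' hl'
    have := hl'.length
    unfold lc
    rw [if_neg (by omega)]

theorem lc_comp {n k m : ℕ} (φ : SingSimplex E n → M) (s : SingSimplex E m) (L : List (Dn m))
    (l : List (Dn k)) :
    lc φ (sx ((un s).comp (aff k L))) l = lc φ s (l.map (aff k L)) := by
  unfold lc
  rw [List.length_map]
  split_ifs with h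
  · rw [aff_map n l h L, un_sx]
    rfl
  · rfl

theorem E_zero {T : Type*} (b : List T → T) (n : ℕ) (l : List T) : Es b n (fun _ => (0 : M)) l = 0 := by
  induction n generalizing l with
  | zero => rfl
  | succ n ih =>
    show B (Es b n (fun _ => 0)) l = 0
    rw [show Es b n (fun _ => (0 : M)) = fun _ => 0 from funext ih]
    exact B_zero l

theorem H_zero {T : Type*} (b : List T → T) (n : ℕ) (l : List T) : Hs b n (fun _ => (0 : M)) l = 0 := by
  induction n generalizing l with
  | zero => rfl
  | succ n ih =>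
    show 0 - B (Hs b n (fun _ => 0)) l = 0
    rw [show Hs b n (fun _ => (0 : M)) = fun _ => 0 from funext ih, B_zero, sub_zero]

theorem Sd_zero {T : Type*} (b : List T → T) : Sd b (fun _ => (0 : M)) = fun _ => 0 :=
  funext fun l => E_zero b _ l

theorem Hd_zero {T : Type*} (b : List T → T) : Hd b (fun _ => (0 : M)) = fun _ => 0 :=
  funext fun l => H_zero b _ l

theorem iterate_Sd_zero {T : Type*} (b : List T → T) (j : ℕ) :
    (Sd b)^[j] (fun _ => (0 : M)) = fun _ => 0 := by
  induction j with
  | zero => rfl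
  | succ j ih => rw [Function.iterate_succ_apply, Sd_zero, ih]

/-- subdivision of cochains -/
def sd {n : ℕ} (φ : SingSimplex E n → M) : SingSimplex E n → M := fun s => Sd bary (lc φ s) (vs n)

/-- the homotopy on cochains -/
def hh {n : ℕ} (φ : SingSimplex E (n + 1) → M) : SingSimplex E n → M :=
  fun s => Hd bary (lc φ s) (vs n)

theorem lc_sd {n k : ℕ} (φ : SingSimplex E n → M) (s : SingSimplex E k) :
    lc (sd φ) s = Sd bary (lc φ s) := by
  funext l
  by_cases h : l.length = n + 1
  · have h1 : lc (sd φ) s l = sd φ (sx ((un s).comp (aff n l))) := by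
      unfold lc; rw [if_pos h]
    rw [h1]
    unfold sd
    have h2 : lc φ (sx ((un s).comp (aff n l))) = fun l' => lc φ s (l'.map (aff n l)) := by
      funext l'
      exact lc_comp φ s l l'
    rw [h2, ← Sd_map bary bary (aff n l) (fun l' hl' => aff_bary n l l' hl') (lc φ s) (vs n),
      vs_map n l h]
  · have h1 : lc (sd φ) s l = 0 := by
      unfold lc; rw [if_neg h]
    rw [h1]
    unfold Sd
    rw [E_congr bary l.length (lc φ s) (fun _ => 0) l, E_zero]
    intro l' hl'
    have := hl'.length bary rfl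
    unfold lc
    rw [if_neg (by omega)]

theorem lc_hh {n k : ℕ} (φ : SingSimplex E (n + 1) → M) (s : SingSimplex E k) :
    lc (hh φ) s = Hd bary (lc φ s) := by
  funext l
  by_cases h : l.length = n + 1
  · have h1 : lc (hh φ) s l = hh φ (sx ((un s).comp (aff n l))) := by
      unfold lc; rw [if_pos h]
    rw [h1]
    unfold hh
    have h2 : lc φ (sx ((un s).comp (aff n l))) = fun l' => lc φ s (l'.map (aff n l)) := by
      funext l'
      exact lc_comp φ s l l'
    rw [h2, ← Hd_map bary bary (aff n l) (fun l' hl' => aff_bary n l l' hl') (lc φ s) (vs n),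
      vs_map n l h]
  · have h1 : lc (hh φ) s l = 0 := by
      unfold lc; rw [if_neg h]
    rw [h1]
    unfold Hd
    rw [H_congr bary Set.univ (fun _ _ _ => trivial) l.length (lc φ s) (fun _ => 0) l rfl
      (fun _ _ => trivial), H_zero]
    intro l' hl' _
    unfold lc
    rw [if_neg (by omega)]

theorem lc_iterate_sd {n k : ℕ} (φ : SingSimplex E n → M) (s : SingSimplex E k) (j : ℕ) :
    lc (sd^[j] φ) s = (Sd bary)^[j] (lc φ s) := by
  induction j generalizing φ with
  | zero => rfl
  | succ j ih => rw [Function.iterate_succ_apply, Function.iterate_succ_apply, ih, lc_sd]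

theorem iterate_sd_apply {n : ℕ} (φ : SingSimplex E n → M) (s : SingSimplex E n) (j : ℕ) :
    (sd^[j] φ) s = (Sd bary)^[j] (lc φ s) (vs n) := by
  rw [← lc_iterate_sd, lc_vs]

/-- subdivision is a cochain map -/
theorem sd_cobdry {n : ℕ} (φ : SingSimplex E n → M) :
    sd (cochainCobdry φ) = cochainCobdry (sd φ) := by
  funext s
  show Sd bary (lc (cochainCobdry φ) s) (vs (n + 1)) = _
  rw [← B_lc, Sd_B, ← lc_sd, B_lc, lc_vs]

theorem iterate_sd_cobdry {n : ℕ} (φ : SingSimplex E n → M) (j : ℕ) :
    sd^[j] (cochainCobdry φ) = cochainCobdry (sd^[j] φ) := by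
  induction j generalizing φ with
  | zero => rfl
  | succ j ih => rw [Function.iterate_succ_apply, Function.iterate_succ_apply, sd_cobdry, ih]

/-- the homotopy formula -/
theorem sub_sd {n : ℕ} (φ : SingSimplex E (n + 1) → M) (s : SingSimplex E (n + 1)) :
    hh (cochainCobdry φ) s + cochainCobdry (hh φ) s = φ s - sd φ s := by
  have h := Hd_B bary (lc φ s) (vs (n + 1))
  rw [lc_vs] at h
  rw [← lc_hh, B_lc, B_lc, lc_vs] at h
  exact h

theorem lc_sub {n k : ℕ} (φ ψ : SingSimplex E n → M) (s : SingSimplex E k) :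
    lc (fun t => φ t - ψ t) s = fun l => lc φ s l - lc ψ s l := by
  funext l
  unfold lc
  split_ifs
  · rfl
  · rw [sub_zero]

theorem sd_sub {n : ℕ} (φ ψ : SingSimplex E n → M) :
    sd (fun t => φ t - ψ t) = fun t => sd φ t - sd ψ t := by
  funext s
  unfold sd
  rw [lc_sub]
  exact E_sub bary _ _ _ _

theorem iterate_sd_sub {n : ℕ} (φ ψ : SingSimplex E n → M) (j : ℕ) :
    sd^[j] (fun t => φ t - ψ t) = fun t => sd^[j] φ t - sd^[j] ψ t := by
  induction j generalizing φ ψ with
  | zero => rfl
  | succ j ih => simp only [Function.iterate_succ_apply, sd_sub, ih]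

theorem lc_zero {n k : ℕ} (s : SingSimplex E k) :
    lc (fun _ : SingSimplex E n => (0 : M)) s = fun _ => 0 := by
  funext l
  unfold lc
  split_ifs <;> rfl

theorem hh_zero {n : ℕ} : hh (fun _ : SingSimplex E (n + 1) => (0 : M)) = fun _ => 0 := by
  funext s
  unfold hh
  rw [lc_zero, Hd_zero]

/-! ### naturality -/

theorem lc_nat {n k : ℕ} (f : C(E, E')) (a : M →+ M') (φ : SingSimplex E n → M)
    (φ' : SingSimplex E' n → M') (h : ∀ s, φ' (psh f s) = a (φ s)) (s : SingSimplex E k) :
    lc φ' (psh f s) = fun l => a (lc φ s l) := by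
  funext l
  unfold lc
  split_ifs
  · rw [← h, psh_sx, un_psh]
    rfl
  · rw [map_zero]

theorem sd_nat {n : ℕ} (f : C(E, E')) (a : M →+ M') (φ : SingSimplex E n → M)
    (φ' : SingSimplex E' n → M') (h : ∀ s, φ' (psh f s) = a (φ s)) (s : SingSimplex E n) :
    sd φ' (psh f s) = a (sd φ s) := by
  unfold sd
  rw [lc_nat f a φ φ' h]
  exact Sd_hom bary a _ _

theorem hh_nat {n : ℕ} (f : C(E, E')) (a : M →+ M') (φ : SingSimplex E (n + 1) → M)
    (φ' : SingSimplex E' (n + 1) → M') (h : ∀ s, φ' (psh f s) = a (φ s)) (s : SingSimplex E n) :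
    hh φ' (psh f s) = a (hh φ s) := by
  unfold hh
  rw [lc_nat f a φ φ' h]
  exact Hd_hom bary a _ _

theorem iterate_sd_nat {n : ℕ} (f : C(E, E')) (a : M →+ M') (φ : SingSimplex E n → M)
    (φ' : SingSimplex E' n → M') (h : ∀ s, φ' (psh f s) = a (φ s)) (j : ℕ) (s : SingSimplex E n) :
    sd^[j] φ' (psh f s) = a (sd^[j] φ s) := by
  induction j generalizing φ φ' with
  | zero => exact h s
  | succ j ih =>
    rw [Function.iterate_succ_apply, Function.iterate_succ_apply]
    exact ih _ _ (fun t => sd_nat f a φ φ' h t)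

/-! ### smallness -/

/-- `s` has image in `A` -/
def InSet {n : ℕ} (A : Set E) (s : SingSimplex E n) : Prop := Set.range (un s) ⊆ A

/-- small simplices -/
def IsSmall {n : ℕ} (𝒰 : Set (Set E)) (s : SingSimplex E n) : Prop := ∃ U ∈ 𝒰, InSet U s

theorem InSet.face {n : ℕ} {A : Set E} {s : SingSimplex E (n + 1)} (h : InSet A s)
    (i : Fin (n + 2)) : InSet A (simplexFace i s) := by
  unfold InSet
  rw [un_face]
  rintro _ ⟨t, rfl⟩
  exact h ⟨_, rfl⟩

theorem IsSmall.face {n : ℕ} {𝒰 : Set (Set E)} {s : SingSimplex E (n + 1)} (h : IsSmall 𝒰 s)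
    (i : Fin (n + 2)) : IsSmall 𝒰 (simplexFace i s) := by
  obtain ⟨U, hU, hs⟩ := h
  exact ⟨U, hU, hs.face i⟩

theorem lc_eq_zero_of_inSet {n k : ℕ} (A : Set E) (φ : SingSimplex E n → M)
    (h : ∀ t, InSet A t → φ t = 0) (s : SingSimplex E k) (hs : InSet A s) :
    lc φ s = fun _ => 0 := by
  funext l
  unfold lc
  split_ifs
  · apply h
    unfold InSet
    rw [un_sx]
    rintro _ ⟨t, rfl⟩
    exact hs ⟨_, rfl⟩
  · rfl

theorem iterate_sd_hh_eq_zero {n : ℕ} (A : Set E) (φ : SingSimplex E (n + 1) → M)
    (h : ∀ t, InSet A t → φ t = 0) (s : SingSimplex E n) (hs : InSet A s) (j : ℕ) :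
    sd^[j] (hh φ) s = 0 := by
  rw [iterate_sd_apply, lc_hh, lc_eq_zero_of_inSet A φ h s hs, Hd_zero, iterate_Sd_zero]

/-- fine subdivisions -/
theorem eventually_sd {n : ℕ} (χ : SingSimplex E n → M) (s : SingSimplex E n) (ε : ℝ) (hε : 0 < ε)
    (h : ∀ l : List (Dn n), l.length = n + 1 → Sml ε l → lc χ s l = 0) :
    ∃ N : ℕ, ∀ j ≥ N, sd^[j] χ s = 0 := by
  have hc : ((n : ℝ)) / (n + 1) < 1 := by
    rw [div_lt_one (by positivity)]
    linarith
  have h1 : Filter.Tendsto (fun m : ℕ => (((n : ℝ)) / (n + 1)) ^ m) Filter.atTop (nhds 0) :=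
    tendsto_pow_atTop_nhds_zero_of_lt_one (by positivity) hc
  obtain ⟨N, hN⟩ := Filter.eventually_atTop.1 (h1.eventually (ge_mem_nhds hε))
  refine ⟨N, fun j hj => ?_⟩
  rw [iterate_sd_apply]
  rw [iterate_Sd_congr (baryProp n n) j (lc χ s) (fun _ => 0) (vs n) (by simp) 1 zero_le_one
    (Sml_vs n _), iterate_Sd_zero]
  intro l' hl' hs
  apply h l' (by rw [hl', length_vs])
  intro x hx y hy
  refine (hs x hx y hy).trans ?_
  rw [mul_one]
  exact hN j hj

/-- Lebesgue number -/
theorem exists_lebesgue {n : ℕ} (𝒰 : Set (Set E)) (hU : ∀ U ∈ 𝒰, IsOpen U) (hc : ∀ x, ∃ U ∈ 𝒰, x ∈ U)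
    (s : SingSimplex E n) :
    ∃ ε > 0, ∀ p : Dn n, ∃ U ∈ 𝒰, ∀ q : Dn n, dist q p ≤ ε → un s q ∈ U := by
  have hcomp : IsCompact (Set.univ : Set (Dn n)) := by
    have : CompactSpace (Dn n) := isCompact_iff_compactSpace.1 (isCompact_stdSimplex ℝ _)
    exact isCompact_univ
  obtain ⟨δ, hδ, h⟩ := lebesgue_number_lemma_of_metric_sUnion (s := (Set.univ : Set (Dn n)))
    (c := {V | ∃ U ∈ 𝒰, V = un s ⁻¹' U}) hcomp
    (by
      rintro _ ⟨U, hUU, rfl⟩
      exact (hU U hUU).preimage (un s).continuous)
    (by
      intro x _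
      obtain ⟨U, hUU, hx⟩ := hc (un s x)
      exact ⟨un s ⁻¹' U, ⟨U, hUU, rfl⟩, hx⟩)
  refine ⟨δ / 2, by positivity, fun p => ?_⟩
  obtain ⟨_, ⟨U, hUU, rfl⟩, hb⟩ := h p trivial
  refine ⟨U, hUU, fun q hq => hb ?_⟩
  rw [Metric.mem_ball]
  linarith

/-- vanishing of the cochain on small simplices, in terms of lists -/
theorem lc_small {n k : ℕ} (𝒰 : Set (Set E)) (φ : SingSimplex E n → M)
    (h0 : ∀ s, IsSmall 𝒰 s → φ s = 0) (s : SingSimplex E k) (ε : ℝ) (hε : 0 < ε)
    (hs : ∀ p : Dn k, ∃ U ∈ 𝒰, ∀ q : Dn k, dist q p ≤ ε → un s q ∈ U) (p : Dn k)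
    (l : List (Dn k)) (hl : ∀ x ∈ l, x ∈ Metric.closedBall p ε) : lc φ s l = 0 := by
  unfold lc
  split_ifs with h
  · apply h0
    obtain ⟨U, hU, hq⟩ := hs p
    refine ⟨U, hU, ?_⟩
    unfold InSet
    rw [un_sx]
    rintro _ ⟨t, rfl⟩
    exact hq _ (dist_aff_le n l h t p ε hε.le hl)
  · rfl

/-- the cochain `ψ = ∑ⱼ sdʲ (hh φ)` -/
def Psi {n : ℕ} (φ : SingSimplex E (n + 1) → M) : SingSimplex E n → M :=
  fun s => ∑ᶠ j : ℕ, sd^[j] (hh φ) s

theorem Psi_eq {n : ℕ} (φ : SingSimplex E (n + 1) → M) (s : SingSimplex E n) (N : ℕ)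
    (h : ∀ j ≥ N, sd^[j] (hh φ) s = 0) :
    Psi φ s = ∑ j ∈ Finset.range N, sd^[j] (hh φ) s := by
  unfold Psi
  apply finsum_eq_sum_of_support_subset
  intro j hj
  rw [Function.mem_support] at hj
  rw [Finset.coe_range, Set.mem_Iio]
  by_contra hc
  exact hj (h j (not_lt.1 hc))

/-- a cocycle which vanishes on small simplices is the coboundary of a cochain which vanishes on
small simplices.  The cochain `ψ` is natural: it inherits every equivariance of `φ`, and it vanishes
on the simplices of every set `A` on all of whose simplices `φ` vanishes. -/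
theorem small_vanish (𝒰 : Set (Set E)) (hU : ∀ U ∈ 𝒰, IsOpen U) (hc : ∀ x, ∃ U ∈ 𝒰, x ∈ U)
    {n : ℕ} (φ : SingSimplex E (n + 1) → M) (hφ : cochainCobdry φ = 0)
    (h0 : ∀ s, IsSmall 𝒰 s → φ s = 0) :
    ∃ ψ : SingSimplex E n → M, cochainCobdry ψ = φ ∧
      (∀ A : Set E, (∀ s, InSet A s → φ s = 0) → ∀ s, InSet A s → ψ s = 0) ∧
      (∀ s, IsSmall 𝒰 s → ψ s = 0) ∧
      (∀ (f : C(E, E)) (a : M →+ M), (∀ s, φ (psh f s) = a (φ s)) →
        ∀ s, ψ (psh f s) = a (ψ s)) := by
  have ev1 : ∀ s : SingSimplex E n, ∃ N : ℕ, ∀ j ≥ N, sd^[j] (hh φ) s = 0 := by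
    intro s
    obtain ⟨ε, hε, hs⟩ := exists_lebesgue 𝒰 hU hc s
    apply eventually_sd (hh φ) s ε hε
    intro l hl hsm
    rw [lc_hh]
    have hne : l ≠ [] := by rintro rfl; simp at hl
    obtain ⟨p, hp⟩ := List.exists_mem_of_ne_nil l hne
    have hK : ∀ x ∈ l, x ∈ Metric.closedBall p ε := fun x hx => hsm x hx p hp
    unfold Hd
    rw [H_congr bary (Metric.closedBall p ε) (closed_ball_bary p ε) l.length (lc φ s) (fun _ => 0) l
      rfl hK, H_zero]
    intro l' _ hl'
    exact lc_small 𝒰 φ h0 s ε hε hs p l' hl'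
  have ev2 : ∀ s : SingSimplex E (n + 1), ∃ N : ℕ, ∀ j ≥ N, sd^[j] φ s = 0 := by
    intro s
    obtain ⟨ε, hε, hs⟩ := exists_lebesgue 𝒰 hU hc s
    apply eventually_sd φ s ε hε
    intro l hl hsm
    have hne : l ≠ [] := by rintro rfl; simp at hl
    obtain ⟨p, hp⟩ := List.exists_mem_of_ne_nil l hne
    exact lc_small 𝒰 φ h0 s ε hε hs p l fun x hx => hsm x hx p hp
  have hA : ∀ A : Set E, (∀ s, InSet A s → φ s = 0) → ∀ s : SingSimplex E n, InSet A s →
      Psi φ s = 0 := by
    intro A hA s hs
    rw [Psi_eq φ s 0 fun j _ => iterate_sd_hh_eq_zero A φ hA s hs j]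
    simp
  refine ⟨Psi φ, ?_, hA, ?_, ?_⟩
  · funext s
    choose N1 hN1 using ev1
    obtain ⟨N2, hN2⟩ := ev2 s
    set N : ℕ := N2 + ∑ i : Fin (n + 2), N1 (simplexFace i s) with hN
    have h1 : ∀ i : Fin (n + 2), Psi φ (simplexFace i s)
        = ∑ j ∈ Finset.range N, sd^[j] (hh φ) (simplexFace i s) := by
      intro i
      apply Psi_eq
      intro j hj
      apply hN1
      have : N1 (simplexFace i s) ≤ ∑ i : Fin (n + 2), N1 (simplexFace i s) :=
        Finset.single_le_sum (f := fun i : Fin (n + 2) => N1 (simplexFace i s))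
          (fun _ _ => Nat.zero_le _) (Finset.mem_univ i)
      omega
    have h2 : cochainCobdry (Psi φ) s = ∑ j ∈ Finset.range N, cochainCobdry (sd^[j] (hh φ)) s := by
      unfold cochainCobdry
      simp only [h1, Finset.smul_sum]
      rw [Finset.sum_comm]
    have h3 : cochainCobdry (hh φ) = fun t => φ t - sd φ t := by
      funext t
      have := sub_sd φ t
      rw [hφ] at this
      have h4 : hh (0 : SingSimplex E (n + 1 + 1) → M) t = 0 := congrFun hh_zero t
      rw [h4, zero_add] at this
      exact this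
    have h5 : ∀ j, cochainCobdry (sd^[j] (hh φ)) s = sd^[j] φ s - sd^[j + 1] φ s := by
      intro j
      rw [← iterate_sd_cobdry, h3, iterate_sd_sub]
      rw [Function.iterate_succ_apply]
    rw [h2, Finset.sum_congr rfl fun j _ => h5 j, Finset.sum_range_sub']
    rw [hN2 N (by omega)]
    exact sub_zero _
  · rintro s ⟨U, hUU, hs⟩
    exact hA U (fun t ht => h0 t ⟨U, hUU, ht⟩) s hs
  · intro f a hf s
    obtain ⟨N1, h1⟩ := ev1 s
    have h2 : ∀ j, sd^[j] (hh φ) (psh f s) = a (sd^[j] (hh φ) s) := fun j =>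
      iterate_sd_nat f a _ _ (fun t => hh_nat f a φ φ hf t) j s
    rw [Psi_eq φ s N1 h1, Psi_eq φ (psh f s) N1 fun j hj => by rw [h2, h1 j hj, map_zero], map_sum]
    exact Finset.sum_congr rfl fun j _ => h2 j

/-- extension of a cochain which is a cocycle on small simplices -/
theorem extend_small (𝒰 : Set (Set E)) (hU : ∀ U ∈ 𝒰, IsOpen U) (hc : ∀ x, ∃ U ∈ 𝒰, x ∈ U)
    {n : ℕ} (φ₀ : SingSimplex E n → M)
    (h0 : ∀ s : SingSimplex E (n + 1), IsSmall 𝒰 s → cochainCobdry φ₀ s = 0) :
    ∃ φ : SingSimplex E n → M, cochainCobdry φ = 0 ∧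
      (∀ A : Set E, (∀ s : SingSimplex E (n + 1), InSet A s → cochainCobdry φ₀ s = 0) →
        ∀ s, InSet A s → φ s = φ₀ s) ∧
      (∀ s, IsSmall 𝒰 s → φ s = φ₀ s) ∧
      (∀ (f : C(E, E)) (a : M →+ M), (∀ s, φ₀ (psh f s) = a (φ₀ s)) →
        ∀ s, φ (psh f s) = a (φ s)) := by
  have hdd : cochainCobdry (cochainCobdry φ₀) = 0 := by
    funext s
    have h := B_B (lc φ₀ s) (vs (n + 1 + 1))
    rw [B_lc, B_lc, lc_vs] at h
    exact h
  obtain ⟨ψ, h1, h2, h3, h4⟩ := small_vanish 𝒰 hU hc (cochainCobdry φ₀) hdd h0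
  refine ⟨fun s => φ₀ s - ψ s, ?_, ?_, ?_, ?_⟩
  · rw [cobdry_sub, h1]
    funext s
    exact sub_self _
  · intro A hA s hs
    show φ₀ s - ψ s = φ₀ s
    rw [h2 A hA s hs, sub_zero]
  · intro s hs
    show φ₀ s - ψ s = φ₀ s
    rw [h3 s hs, sub_zero]
  · intro f a hf s
    show φ₀ (psh f s) - ψ (psh f s) = a (φ₀ s - ψ s)
    rw [hf, map_sub, h4 f a]
    intro t
    rw [cobdry_psh]
    rw [show (fun t => φ₀ (psh f t)) = fun t => a (φ₀ t) from funext hf]
    exact cobdry_hom a φ₀ t

theorem cobdry_cobdry {n : ℕ} (φ : SingSimplex E n → M) : cochainCobdry (cochainCobdry φ) = 0 := by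
  funext s
  have h := B_B (lc φ s) (vs (n + 1 + 1))
  rw [B_lc, B_lc, lc_vs] at h
  exact h

end

end Crest.Agent.R251.Sm
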