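import Crest.Agent.R251.Mod19
import Mathlib

-- ▼ part R251/Mod19b
section

/-!
# Row 251: the model, part 2: the quotient `XX f` of `Z4 f`, its CW structure and the covering `pp f`
-/

set_option autoImplicit false
set_option linter.unusedSectionVars false

open Set Metric Topology unitInterval
open Crest.Agent.R185.Att Crest.Agent.R185.Base
open Crest.Agent.R197 (OrbSep)

namespace Crest.Agent.R251.Mod

variable {G : Type} [Group G] {ι : Type} {gen : ι → G} {κ : Type} {wd : κ → List (ι × Bool)}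
  {hwd : ∀ j, val gen (wd j) = 1}

/-- equivariant homeomorphisms -/
def EHomeo (G : Type) [Group G] (X Y : Type) [TopologicalSpace X] [TopologicalSpace Y]
    [MulAction G X] [MulAction G Y] : Prop :=
  ∃ e : X ≃ₜ Y, ∀ (g : G) (x : X), e (g • x) = g • e x

variable [Finite ι] [Finite κ] (f : C(S 3, Z3 gen wd hwd))

/-- the last stage of the tower is all of the union -/
theorem jj4_surj (y : Un (FF f)) : ∃ z, jj (FF f) 4 z = y := by
  apply exists_jj
  by_contra h
  obtain ⟨n, g, c, x⟩ := y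
  exact (cel_ge f n (not_lt.1 h)).false c

theorem ehomeo_T4 : EHomeo G (Z4 f) (Un (FF f)) := by
  have h1 : EHomeo G (tower (FF f) 4).Z (Un (FF f)) := by
    refine ⟨(isClosedEmbedding_jj (FF f) 4).isEmbedding.toHomeomorphOfSurjective (jj4_surj f), ?_⟩
    intro g x
    exact jj_smul (FF f) 4 g x
  have key : ∀ T : GSp G, tower (FF f) 4 = T → EHomeo G T.Z (Un (FF f)) := by
    rintro T rfl
    exact h1
  exact key (T4 f) (tower_4 f)

/-- the equivariant homeomorphism of `Z4 f` with the union of the tower -/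
noncomputable def jE : Z4 f ≃ₜ Un (FF f) := (ehomeo_T4 f).choose

theorem jE_smul (g : G) (z : Z4 f) : jE f (g • z) = g • jE f z := (ehomeo_T4 f).choose_spec g z

/-- the complex -/
abbrev XX : Type := Qt (FF f)

/-- the covering map -/
noncomputable def pp (z : Z4 f) : XX f := prj (FF f) (jE f z)

theorem pp_smul (g : G) (z : Z4 f) : pp f (g • z) = pp f z := by
  unfold pp; rw [jE_smul, prj_smul]

theorem pp_eq {z z' : Z4 f} (h : pp f z = pp f z') : ∃ g : G, g • z' = z := by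
  obtain ⟨g, hg⟩ := prj_eq (FF f) h
  refine ⟨g, (jE f).injective ?_⟩
  rw [jE_smul, hg]



theorem z4_free (g : G) (z : Z4 f) (h : g • z = z) : g = 1 := by
  apply un_free (FF f) g (jE f z)
  rw [← jE_smul, h]

theorem z4_orbSep : OrbSep G (Z4 f) := by
  intro z z'
  obtain ⟨U, hU, V, hV, hUV⟩ := un_orbSep (FF f) (jE f z) (jE f z')
  refine ⟨jE f ⁻¹' U, (jE f).continuous.continuousAt.preimage_mem_nhds hU, jE f ⁻¹' V,
    (jE f).continuous.continuousAt.preimage_mem_nhds hV, ?_⟩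
  rintro g ⟨p, ⟨q, hq, rfl⟩, hp⟩
  apply (jE f).injective
  rw [jE_smul]
  refine hUV g ⟨jE f (g • q), ⟨jE f q, hq, (jE_smul f g q).symm⟩, hp⟩

instance : T2Space (Z4 f) := t2_of_orbSep (z4_orbSep f)

theorem pp_isQuotientCoveringMap : IsQuotientCoveringMap (pp f) G where
  toIsQuotientMap := (isQuotientMap_quotient_mk' (s := MulAction.orbitRel G (Un (FF f)))).comp
    (jE f).isQuotientMap
  toContinuousConstSMul := inferInstance
  apply_eq_iff_mem_orbit := by
    intro e₁ e₂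
    constructor
    · intro h
      obtain ⟨g, hg⟩ := pp_eq f h
      exact ⟨g, hg⟩
    · rintro ⟨g, rfl⟩
      exact pp_smul f g _
  disjoint e := by
    obtain ⟨U, hU, V, hV, h⟩ := z4_orbSep f e e
    refine ⟨U ∩ V, Filter.inter_mem hU hV, fun g hg => z4_free f g e (h g ?_)⟩
    obtain ⟨w, ⟨w', hw', rfl⟩, hw⟩ := hg
    exact ⟨_, ⟨w', hw'.1, rfl⟩, hw.2⟩


instance : T2Space (XX f) := Crest.Agent.R197.abs_t2 (un_orbSep (FF f))

/-- the CW structure on the quotient: finite, of dimension at most three -/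
theorem exists_cwX : ∃ _ : _root_.Topology.CWComplex (Set.univ : Set (XX f)),
    _root_.Topology.RelCWComplex.Finite (Set.univ : Set (XX f)) ∧
    ∀ m : ℕ, 3 < m → IsEmpty (_root_.Topology.RelCWComplex.cell (Set.univ : Set (XX f)) m) := by
  obtain ⟨_, C, hC⟩ := exists_cw (FF f)
  have hE : ∀ m : ℕ, 3 < m →
      IsEmpty (_root_.Topology.RelCWComplex.cell (Set.univ : Set (XX f)) m) := by
    intro m hm
    obtain ⟨e⟩ := hC m
    have := cel_ge f m hm
    exact e.isEmpty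
  refine ⟨C, ?_, hE⟩
  exact
    { eventually_isEmpty_cell := Filter.eventually_atTop.2 ⟨4, fun m hm => hE m hm⟩
      finite_cell := fun n => by
        obtain ⟨e⟩ := hC n
        exact Finite.of_equiv _ e.symm }


end Crest.Agent.R251.Mod
end

-- ▼ part R251/Alg449

/-! Row 251 (S0388): the algebra of the relator `r` (helper449).

`U = c^6`, `W = [x, z']`, `x = c^3`, `z' = t c⁻² t⁻¹`,
`r = W * (z' U z'⁻¹) * (t U t⁻¹) * (x t U⁻¹ t⁻¹ x⁻¹)`. -/

set_option autoImplicit false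

namespace Crest.Agent.R251.Alg

section words
variable {Q : Type*} [Group Q] (c t : Q)

def wx : Q := c ^ 3
def wz : Q := t * (c⁻¹ ^ 2) * t⁻¹
def wU : Q := c ^ 6
def wW : Q := wx c * wz c t * (wx c)⁻¹ * (wz c t)⁻¹
def wr : Q :=
  wW c t * (wz c t * wU c * (wz c t)⁻¹) * (t * wU c * t⁻¹) *
    (wx c * (t * (wU c)⁻¹ * t⁻¹) * (wx c)⁻¹)

theorem map_wx {P : Type*} [Group P] (f : Q →* P) : f (wx c) = wx (f c) := by simp [wx]
theorem map_wz {P : Type*} [Group P] (f : Q →* P) : f (wz c t) = wz (f c) (f t) := by simp [wz]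
theorem map_wU {P : Type*} [Group P] (f : Q →* P) : f (wU c) = wU (f c) := by simp [wU]
theorem map_wW {P : Type*} [Group P] (f : Q →* P) : f (wW c t) = wW (f c) (f t) := by
  simp [wW, map_wx, map_wz]
theorem map_wr {P : Type*} [Group P] (f : Q →* P) : f (wr c t) = wr (f c) (f t) := by
  simp [wr, map_wx, map_wz, map_wU, map_wW]

theorem wU_eq : wU c = wx c * wx c := by simp only [wU, wx]; group

theorem wz_cube : wz c t ^ 3 = (t * wU c * t⁻¹)⁻¹ := by
  simp only [wz, wU, pow_succ, pow_zero, one_mul]; group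

end words

/-- the final commutative computation -/
theorem comm_final {M : Type*} [AddCommGroup M] (u v y s : M)
    (E1 : (-s - y + v) + (-s - v + y) = u - s)
    (h2 : s = -u → u = -u ∧ v = -v ∧ y = -y)
    (E2 : s = -u → (u - v + y) + (-u - v + y) + (u - v + y) = v - y) : u = 0 := by
  have hs : s = -u := by linear_combination (norm := module) (-1 : ℤ) • E1
  obtain ⟨hu, hv, hy⟩ := h2 hs
  have h := E2 hs
  linear_combination (norm := module) (1 : ℤ) • h + (2 : ℤ) • hv - (2 : ℤ) • hy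

/-- The relation module generated by `U`, `W` is generated by `r`. -/
theorem pow6_eq_one {Q : Type*} [Group Q] (A : Subgroup Q) [A.Normal]
    (hA : ∀ a ∈ A, ∀ b ∈ A, a * b = b * a) (c t : Q)
    (hU : wU c ∈ A) (hW : wW c t ∈ A) (hr : wr c t = 1) : wU c = 1 := by
  -- the action on `A`
  set x := wx c with hx
  set z := wz c t with hz
  let κ : Q → Q → Q := fun g a => g * a * g⁻¹
  have κA : ∀ g a, a ∈ A → κ g a ∈ A := fun g a ha => Subgroup.Normal.conj_mem inferInstance a ha g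
  have κmul : ∀ g a b, κ g (a * b) = κ g a * κ g b := fun g a b => by simp only [κ]; group
  have κinv : ∀ g a, κ g a⁻¹ = (κ g a)⁻¹ := fun g a => by simp only [κ]; group
  have κκ : ∀ g h a, κ g (κ h a) = κ (g * h) a := fun g h a => by simp only [κ]; group
  have κtriv : ∀ a b, a ∈ A → b ∈ A → κ a b = b := fun a b ha hb => by
    simp only [κ]; rw [hA a ha b hb]; group
  set U := wU c with hUdef
  set W := wW c t with hWdef
  set V := κ t U with hV
  set XV := κ x V with hXV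
  set ZU := κ z U with hZU
  have hVA : V ∈ A := κA _ _ hU
  have hXVA : XV ∈ A := κA _ _ hVA
  have hZUA : ZU ∈ A := κA _ _ hU
  have hcU : κ c U = U := by simp only [κ, hUdef, wU]; group
  have hxU : κ x U = U := by simp only [κ, hUdef, wU, hx, wx]; group
  have hxx : x * x = U := (wU_eq c).symm
  have hWeq : W = x * z * x⁻¹ * z⁻¹ := rfl
  have hz3 : z ^ 3 = V⁻¹ := wz_cube c t
  -- `x z = W z x`
  have hxz : x * z = W * (z * x) := by rw [hWeq]; group
  have hcomm : ∀ a, a ∈ A → κ x (κ z a) = κ z (κ x a) := by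
    intro a ha
    rw [κκ, κκ, hxz, ← κκ W, κtriv W _ hW (κA _ _ ha)]
  have hxxa : ∀ a, a ∈ A → κ x (κ x a) = a := by
    intro a ha
    rw [κκ, hxx, κtriv _ _ hU ha]
  have hz3a : ∀ a, a ∈ A → κ z (κ z (κ z a)) = a := by
    intro a ha
    rw [κκ, κκ]
    have : z * z * z = V⁻¹ := by rw [← hz3]; simp [pow_succ]
    rw [this]
    exact κtriv _ _ (A.inv_mem hVA) ha
  have hzV : κ z V = V := by
    rw [hV, κκ]
    have : z * t = t * (c⁻¹ ^ 2) := by rw [hz, wz]; group
    rw [this, ← κκ]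
    congr 1
    simp only [κ, hUdef, wU]; group
  -- E1, E2
  have E1 : κ x W * W = U * ZU⁻¹ := by
    have : U * ZU⁻¹ = (x * x) * z * (x * x)⁻¹ * z⁻¹ := by
      rw [hZU, hxx]; simp only [κ]; group
    rw [this, hWeq]; simp only [κ]; group
  have E2 : W * κ z W * κ z (κ z W) = V * XV⁻¹ := by
    have : V * XV⁻¹ = x * z ^ 3 * x⁻¹ * (z ^ 3)⁻¹ := by
      rw [hz3, hXV]
      have h1 : κ x V = x * V * x⁻¹ := rfl
      rw [h1]
      have h2 : x * V⁻¹ * x⁻¹ = (x * V * x⁻¹)⁻¹ := by group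
      rw [h2, inv_inv]
      exact hA V hVA _ (A.inv_mem hXVA)
    rw [this, hWeq]; simp only [κ, pow_succ, pow_zero, one_mul]; group
  have Er : W * ZU * V * XV⁻¹ = 1 := by
    have : wr c t = W * ZU * V * XV⁻¹ := by
      rw [wr, hZU, hXV, hV]; simp only [κ]; rw [← hUdef, ← hx, ← hz, ← hWdef]; group
    rw [← this]; exact hr
  have hWv : W = ZU⁻¹ * V⁻¹ * XV := by
    have h1 : W * ZU * V = XV := by
      have := Er
      rwa [mul_inv_eq_one] at this
    have h2 : W = XV * V⁻¹ * ZU⁻¹ := by rw [← h1]; group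
    rw [h2, hA _ (A.mul_mem hXVA (A.inv_mem hVA)) _ (A.inv_mem hZUA),
      hA _ hXVA _ (A.inv_mem hVA)]
    group
  have hxZU : κ x ZU = ZU := by
    rw [hZU, hcomm _ hU, hxU]
  have hxXV : κ x XV = V := hxxa _ hVA
  have hzXV : κ z XV = XV := by
    rw [hXV, ← hcomm _ hVA, hzV]
  have hzZ : κ z (κ z ZU) = U := hz3a _ hU
  -- pass to the additive commutative group
  let AA : AddCommGroup (Additive A) := { (inferInstance : AddGroup (Additive A)) with
    add_comm := fun a b => Subtype.ext (hA a.toMul a.toMul.2 b.toMul b.toMul.2) }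
  let m : ∀ a : Q, a ∈ A → Additive A := fun a ha => Additive.ofMul ⟨a, ha⟩
  have key : m U hU = 0 := by
    apply comm_final (m U hU) (m V hVA) (m XV hXVA) (m ZU hZUA)
    · have h1 : κ x W = ZU⁻¹ * XV⁻¹ * V := by
        rw [hWv, κmul, κmul, κinv, κinv, hxZU, hxXV]
      rw [h1, hWv] at E1
      apply Subtype.ext
      have e : U * ZU⁻¹ = ZU⁻¹ * XV⁻¹ * V * (ZU⁻¹ * V⁻¹ * XV) := E1.symm
      show (ZU⁻¹ / XV * V) * (ZU⁻¹ / V * XV) = U / ZU
      rw [div_eq_mul_inv, div_eq_mul_inv, div_eq_mul_inv, e]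
    · intro hs
      have hs' : ZU = U⁻¹ := congrArg (fun w : Additive A => (w.toMul : Q)) hs
      have hu : U = U⁻¹ := by
        have h1 : κ z ZU = U := by rw [hs', κinv, ← hZU, hs', inv_inv]
        have h2 : κ z (κ z ZU) = U⁻¹ := by rw [h1, ← hZU, hs']
        rw [← h2, hzZ]
      have hv : V = V⁻¹ := by
        have : κ t U = κ t U⁻¹ := by rw [← hu]
        rw [κinv] at this; exact this
      have hy : XV = XV⁻¹ := by
        have : κ x V = κ x V⁻¹ := by rw [← hv]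
        rw [κinv] at this; exact this
      exact ⟨Subtype.ext hu, Subtype.ext hv, Subtype.ext hy⟩
    · intro hs
      have hs' : ZU = U⁻¹ := congrArg (fun w : Additive A => (w.toMul : Q)) hs
      have hW0 : W = U * V⁻¹ * XV := by rw [hWv, hs', inv_inv]
      have hW1 : κ z W = U⁻¹ * V⁻¹ * XV := by
        rw [hW0, κmul, κmul, κinv, hzV, hzXV, ← hZU, hs']
      have hW2 : κ z (κ z W) = U * V⁻¹ * XV := by
        rw [hW1, κmul, κmul, κinv, κinv, hzV, hzXV, ← hZU, hs', inv_inv]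
      rw [hW2, hW1, hW0] at E2
      apply Subtype.ext
      show (U / V * XV) * (U⁻¹ / V * XV) * (U / V * XV) = V / XV
      rw [div_eq_mul_inv, div_eq_mul_inv, div_eq_mul_inv, E2]
  exact congrArg (fun w : Additive A => (w.toMul : Q)) key

/-- normal-closure form of `pow6_eq_one`, in any group. -/
theorem wU_mem_general {F : Type*} [Group F] (c t : F) (R : Subgroup F) [R.Normal]
    (hU : wU c ∈ R) (hW : wW c t ∈ R) :
    wU c ∈ Subgroup.normalClosure {wr c t} ⊔ ⁅R, R⁆ := by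
  set S : Subgroup F := Subgroup.normalClosure {wr c t} ⊔ ⁅R, R⁆ with hS
  have : S.Normal := Subgroup.sup_normal _ _
  let π := QuotientGroup.mk' S
  have hπ : Function.Surjective π := QuotientGroup.mk'_surjective S
  have : (R.map π).Normal := Subgroup.Normal.map inferInstance π hπ
  have h := pow6_eq_one (R.map π) ?_ (π c) (π t) ?_ ?_ ?_
  · rw [← map_wU] at h
    exact (QuotientGroup.eq_one_iff _).1 h
  · rintro _ ⟨a, ha, rfl⟩ _ ⟨b, hb, rfl⟩
    have hab : a * b * a⁻¹ * b⁻¹ ∈ S :=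
      (le_sup_right : ⁅R, R⁆ ≤ S) (Subgroup.commutator_mem_commutator ha hb)
    have h1 : π (a * b * a⁻¹ * b⁻¹) = 1 := (QuotientGroup.eq_one_iff _).2 hab
    rw [map_mul, map_mul, map_mul, map_inv, map_inv, mul_inv_eq_one, mul_inv_eq_iff_eq_mul] at h1
    exact h1
  · rw [← map_wU]; exact ⟨_, hU, rfl⟩
  · rw [← map_wW]; exact ⟨_, hW, rfl⟩
  · rw [← map_wr]
    exact (QuotientGroup.eq_one_iff _).2
      ((le_sup_left : _ ≤ S) (Subgroup.subset_normalClosure rfl))

theorem wr_mem_general {F : Type*} [Group F] (c t : F) (R : Subgroup F) [R.Normal]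
    (hU : wU c ∈ R) (hW : wW c t ∈ R) : wr c t ∈ R := by
  unfold wr
  have n : ∀ g a : F, a ∈ R → g * a * g⁻¹ ∈ R := fun g a ha =>
    Subgroup.Normal.conj_mem inferInstance a ha g
  exact R.mul_mem (R.mul_mem (R.mul_mem hW (n _ _ hU)) (n _ _ hU))
    (n _ _ (n _ _ (R.inv_mem hU)))

/-! ### the free group and `G` -/

/-- generators: `c = of 0`, `t = of 1` -/
abbrev FF : Type := FreeGroup (Fin 2)
abbrev fc : FF := FreeGroup.of 0
abbrev ft : FF := FreeGroup.of 1

def rels : Set FF := {wU fc, wW fc ft}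

/-- `Rel = ker (F → G)` -/
def Rel : Subgroup FF := Subgroup.normalClosure rels

instance : Rel.Normal := Subgroup.normalClosure_normal

theorem wU_mem_Rel : wU fc ∈ Rel := Subgroup.subset_normalClosure (Or.inl rfl)
theorem wW_mem_Rel : wW fc ft ∈ Rel := Subgroup.subset_normalClosure (Or.inr rfl)
theorem wr_mem_Rel : wr fc ft ∈ Rel := wr_mem_general _ _ _ wU_mem_Rel wW_mem_Rel

/-- **(c)** `U ∈ ⟪r⟫ [Rel, Rel]` -/
theorem wU_mem : wU fc ∈ Subgroup.normalClosure {wr fc ft} ⊔ ⁅Rel, Rel⁆ :=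
  wU_mem_general _ _ _ wU_mem_Rel wW_mem_Rel

/-- explicit form -/
theorem exists_wU_eq : ∃ ρ ∈ Subgroup.normalClosure {wr fc ft}, ∃ k ∈ ⁅Rel, Rel⁆,
    wU fc = ρ * k := by
  have h := wU_mem
  rw [Subgroup.mem_sup_of_normal_left] at h
  obtain ⟨ρ, hρ, k, hk, e⟩ := h
  exact ⟨ρ, hρ, k, hk, e.symm⟩

theorem wW_mem_nc_rU : wW fc ft ∈ Subgroup.normalClosure ({wr fc ft, wU fc} : Set FF) := by
  set N := Subgroup.normalClosure ({wr fc ft, wU fc} : Set FF)
  have hr : wr fc ft ∈ N := Subgroup.subset_normalClosure (Or.inl rfl)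
  have hU : wU fc ∈ N := Subgroup.subset_normalClosure (Or.inr rfl)
  have n : ∀ g a : FF, a ∈ N → g * a * g⁻¹ ∈ N := fun g a ha =>
    Subgroup.Normal.conj_mem Subgroup.normalClosure_normal a ha g
  have e : wW fc ft = wr fc ft * ((wz fc ft * wU fc * (wz fc ft)⁻¹) * (ft * wU fc * ft⁻¹) *
    (wx fc * (ft * (wU fc)⁻¹ * ft⁻¹) * (wx fc)⁻¹))⁻¹ := by
    unfold wr; group
  rw [e]
  exact N.mul_mem hr (N.inv_mem (N.mul_mem (N.mul_mem (n _ _ hU) (n _ _ hU))
    (n _ _ (n _ _ (N.inv_mem hU)))))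

/-- `⟪r, U⟫ = Rel` -/
theorem nc_rU_eq : Subgroup.normalClosure ({wr fc ft, wU fc} : Set FF) = Rel := by
  apply le_antisymm
  · apply Subgroup.normalClosure_le_normal
    rintro g (rfl | rfl)
    · exact wr_mem_Rel
    · exact wU_mem_Rel
  · apply Subgroup.normalClosure_le_normal
    rintro g (rfl | rfl)
    · exact Subgroup.subset_normalClosure (Or.inr rfl)
    · exact wW_mem_nc_rU

/-- the group `G = ⟨c, t | U, W⟩` -/
abbrev GG : Type := PresentedGroup rels

def gc : GG := PresentedGroup.of 0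
def gt : GG := PresentedGroup.of 1

/-- homomorphisms out of `G` -/
def lift {H : Type*} [Group H] (a b : H) (hU : wU a = 1) (hW : wW a b = 1) : GG →* H :=
  PresentedGroup.toGroup (f := ![a, b]) (by
    rintro g (rfl | rfl)
    · rw [map_wU]; simpa using hU
    · rw [map_wW]; simpa using hW)

@[simp] theorem lift_gc {H : Type*} [Group H] (a b : H) (hU : wU a = 1) (hW : wW a b = 1) :
    lift a b hU hW gc = a := by
  simp [lift, gc]

@[simp] theorem lift_gt {H : Type*} [Group H] (a b : H) (hU : wU a = 1) (hW : wW a b = 1) :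
    lift a b hU hW gt = b := by
  simp [lift, gt]

theorem gc_pow6 : gc ^ 6 = 1 := by
  have h : (PresentedGroup.mk rels) (wU fc) = 1 :=
    PresentedGroup.mk_eq_one_iff.2 wU_mem_Rel
  rw [map_wU] at h
  exact h

/-- projection to `ℤ` killing `c` -/
def toZ : GG →* Multiplicative ℤ :=
  lift 1 (Multiplicative.ofAdd 1) (by simp [wU]) (by simp [wW, wx, wz])

instance infinite_GG : Infinite GG := by
  apply Infinite.of_surjective toZ
  intro n
  refine ⟨gt ^ (Multiplicative.toAdd n), ?_⟩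
  rw [map_zpow, toZ, lift_gt]
  exact (ofAdd_zsmul _ _).symm.trans (by simp)

section character
variable {K : Type*} [Field K]

/-- the character `μ(c) = ζ`, `μ(t) = 1` -/
def mu (ζ : Kˣ) (hζ : ζ ^ 6 = 1) : GG →* Kˣ :=
  lift ζ 1 (by simpa [wU] using hζ) (by
    simp only [wW, wx, wz]
    rw [mul_inv_eq_one, mul_inv_eq_iff_eq_mul, one_mul, inv_one, mul_one, mul_comm])

@[simp] theorem mu_gc (ζ : Kˣ) (hζ : ζ ^ 6 = 1) : mu ζ hζ gc = ζ := lift_gc _ _ _ _
@[simp] theorem mu_gt (ζ : Kˣ) (hζ : ζ ^ 6 = 1) : mu ζ hζ gt = 1 := lift_gt _ _ _ _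

/-! ### derivations -/

/-- derivations of a free group twisted by a character, with prescribed values -/
theorem exists_deriv {α : Type*} (μ : FreeGroup α →* Kˣ) (v : α → K) :
    ∃ D : FreeGroup α → K, (∀ a b, D (a * b) = D a + (μ a : K) * D b) ∧
      ∀ i, D (FreeGroup.of i) = v i := by
  let aff : Kˣ → K → Equiv.Perm K := fun u w =>
    { toFun := fun y => (u : K) * y + w
      invFun := fun y => (u⁻¹ : Kˣ) * (y - w)
      left_inv := fun y => by simp
      right_inv := fun y => by simp }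
  let Φ : FreeGroup α →* Equiv.Perm K := FreeGroup.lift fun i => aff (μ (FreeGroup.of i)) (v i)
  have hΦ : ∀ g y, Φ g y = (μ g : K) * y + Φ g 0 := by
    intro g
    induction g using FreeGroup.induction_on with
    | C1 => intro y; simp
    | of i => intro y; simp [Φ, aff]
    | inv_of i ih =>
      intro y
      have h : ∀ y, (Φ (FreeGroup.of i)⁻¹) y = ((μ (FreeGroup.of i))⁻¹ : Kˣ) * (y - v i) := by
        intro y
        rw [map_inv]
        show (Φ (FreeGroup.of i)).symm y = _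
        rw [Equiv.symm_apply_eq]
        simp [Φ, aff]
      change (Φ (FreeGroup.of i)⁻¹) y = _ + (Φ (FreeGroup.of i)⁻¹) 0
      rw [h, h, map_inv]
      ring
    | mul a b iha ihb =>
      intro y
      rw [map_mul, map_mul, Equiv.Perm.mul_apply, Equiv.Perm.mul_apply, iha, ihb y, iha (Φ b 0)]
      push_cast
      ring
  refine ⟨fun g => Φ g 0, fun a b => ?_, fun i => ?_⟩
  · show Φ (a * b) 0 = Φ a 0 + (μ a : K) * Φ b 0
    rw [map_mul, Equiv.Perm.mul_apply, hΦ a (Φ b 0)]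
    ring
  · simp [Φ, aff]

section der
variable {F : Type*} [Group F] (μ : F →* Kˣ) (D : F → K)
  (hD : ∀ a b, D (a * b) = D a + (μ a : K) * D b)
include hD

theorem der_one : D 1 = 0 := by
  have h := hD 1 1
  simp at h
  exact h

theorem der_inv (a : F) : D a⁻¹ = -((μ a)⁻¹ : Kˣ) * D a := by
  have h := hD a a⁻¹
  rw [mul_inv_cancel, der_one μ D hD] at h
  have h2 : (μ a : K) * D a⁻¹ = - D a := by linear_combination -h
  have h3 : D a⁻¹ = ((μ a)⁻¹ : Kˣ) * ((μ a : K) * D a⁻¹) := by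
    rw [← mul_assoc]; simp
  rw [h3, h2]; ring

theorem der_pow_zero (a : F) (ha : D a = 0) (n : ℕ) : D (a ^ n) = 0 := by
  induction n with
  | zero => simpa using der_one μ D hD
  | succ n ih => rw [pow_succ, hD, ih, ha]; ring

theorem der_conj (a b : F) (hb : μ b = 1) : D (a * b * a⁻¹) = (μ a : K) * D b := by
  rw [hD, hD, der_inv μ D hD, map_mul, hb, mul_one]
  have : (μ a : K) * (((μ a)⁻¹ : Kˣ) : K) = 1 := by simp
  linear_combination (-(D a)) * this

variable {μ D} in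
/-- value of a derivation with `D c = 0`, `D t = 1` on `W` and `r`. -/
theorem der_wr (c t : F) (ζ : Kˣ) (hζ : ζ ^ 6 = 1) (hc : μ c = ζ) (ht : μ t = 1)
    (hDc : D c = 0) (hDt : D t = 1) :
    D (wU c) = 0 ∧
    D (wW c t) = ((ζ : K) ^ 3 - 1) * (1 - ((ζ⁻¹ : Kˣ) : K) ^ 2) ∧
    D (wr c t) = ((ζ : K) ^ 3 - 1) * (1 - ((ζ⁻¹ : Kˣ) : K) ^ 2) := by
  have hU : D (wU c) = 0 := der_pow_zero μ D hD c hDc 6
  have hx : D (wx c) = 0 := der_pow_zero μ D hD c hDc 3
  have hμx : μ (wx c) = ζ ^ 3 := by rw [wx, map_pow, hc]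
  have hμU : μ (wU c) = 1 := by rw [wU, map_pow, hc, hζ]
  have hμz : μ (wz c t) = ζ⁻¹ ^ 2 := by
    rw [wz, map_mul, map_mul, map_inv, ht, map_pow, map_inv, hc]; simp
  have hci : D c⁻¹ = 0 := by rw [der_inv μ D hD, hDc]; ring
  have hz : D (wz c t) = 1 - ((ζ⁻¹ : Kˣ) : K) ^ 2 := by
    rw [wz, hD, hD, der_pow_zero μ D hD _ hci, der_inv μ D hD, hDt, map_mul, map_pow, map_inv, hc, ht]
    push_cast
    simp
    ring
  have hunit : (ζ : K) * ((ζ⁻¹ : Kˣ) : K) = 1 := by simp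
  have hW : D (wW c t) = ((ζ : K) ^ 3 - 1) * (1 - ((ζ⁻¹ : Kˣ) : K) ^ 2) := by
    rw [wW, hD, hD, hD, der_inv μ D hD (wx c), der_inv μ D hD (wz c t), hx, hz,
      map_mul μ (wx c * wz c t), map_mul μ (wx c) (wz c t), map_inv μ (wx c), hμx, hμz]
    have e1 : (((ζ ^ 3 * ζ⁻¹ ^ 2 * (ζ ^ 3)⁻¹ : Kˣ)) : K) * (((ζ⁻¹ ^ 2)⁻¹ : Kˣ) : K) = 1 := by
      rw [← Units.val_mul]
      have : ζ ^ 3 * ζ⁻¹ ^ 2 * (ζ ^ 3)⁻¹ * (ζ⁻¹ ^ 2)⁻¹ = 1 := by
        rw [mul_comm (ζ ^ 3) (ζ⁻¹ ^ 2)]; group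
      rw [this]; rfl
    have e2 : ((ζ ^ 3 : Kˣ) : K) = (ζ : K) ^ 3 := by push_cast; rfl
    rw [e2]
    linear_combination (-(1 - ((ζ⁻¹ : Kˣ) : K) ^ 2)) * e1
  refine ⟨hU, hW, ?_⟩
  have hUi : D (wU c)⁻¹ = 0 := by rw [der_inv μ D hD, hU]; ring
  have hμUi : μ (wU c)⁻¹ = 1 := by rw [map_inv, hμU, inv_one]
  have h1 : D (wz c t * wU c * (wz c t)⁻¹) = 0 := by rw [der_conj μ D hD _ _ hμU, hU]; ring
  have h2 : D (t * wU c * t⁻¹) = 0 := by rw [der_conj μ D hD _ _ hμU, hU]; ring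
  have h3 : D (t * (wU c)⁻¹ * t⁻¹) = 0 := by rw [der_conj μ D hD _ _ hμUi, hUi]; ring
  have h4 : D (wx c * (t * (wU c)⁻¹ * t⁻¹) * (wx c)⁻¹) = 0 := by
    rw [der_conj μ D hD _ _ (by rw [map_mul, map_mul, map_inv, map_inv, hμU]; simp), h3]; ring
  rw [wr, hD, hD, hD, h1, h2, h4, hW]; ring

end der

/-- the character on the free group -/
def muF (ζ : Kˣ) (hζ : ζ ^ 6 = 1) : FF →* Kˣ := (mu ζ hζ).comp (PresentedGroup.mk rels)

@[simp] theorem muF_c (ζ : Kˣ) (hζ : ζ ^ 6 = 1) : muF ζ hζ fc = ζ := mu_gc ζ hζ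
@[simp] theorem muF_t (ζ : Kˣ) (hζ : ζ ^ 6 = 1) : muF ζ hζ ft = 1 := mu_gt ζ hζ

/-- Fox vector of `r` is non zero at `μ`: there is a derivation with `D r` arbitrary and `D U = 0`. -/
theorem exists_deriv_wr (ζ : Kˣ) (hζ : ζ ^ 6 = 1) (h3 : ζ ^ 3 ≠ 1) (h2 : ζ ^ 2 ≠ 1) (a : K) :
    ∃ D : FF → K, (∀ g h, D (g * h) = D g + (muF ζ hζ g : K) * D h) ∧
      D (wU fc) = 0 ∧ D (wr fc ft) = a := by
  obtain ⟨D, hD, hv⟩ := exists_deriv (muF ζ hζ) ![(0 : K), 1]
  obtain ⟨hU, -, hr⟩ := der_wr hD fc ft ζ hζ (muF_c ζ hζ) (muF_t ζ hζ)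
    (by simpa using hv 0) (by simpa using hv 1)
  have hne : ((ζ : K) ^ 3 - 1) * (1 - ((ζ⁻¹ : Kˣ) : K) ^ 2) ≠ 0 := by
    apply mul_ne_zero
    · rw [sub_ne_zero]
      intro h
      apply h3
      apply Units.ext
      push_cast
      exact h
    · rw [sub_ne_zero]
      intro h
      apply h2
      have : ζ⁻¹ ^ 2 = 1 := by
        apply Units.ext
        push_cast
        push_cast at h
        exact h.symm
      rw [inv_pow, inv_eq_one] at this
      exact this
  set b := ((ζ : K) ^ 3 - 1) * (1 - ((ζ⁻¹ : Kˣ) : K) ^ 2) with hb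
  refine ⟨fun g => a / b * D g, fun g h => ?_, ?_, ?_⟩
  · show a / b * D (g * h) = _
    rw [hD]; ring
  · show a / b * D _ = 0
    rw [hU]; ring
  · show a / b * D _ = a
    rw [hr]; field_simp

end character

/-- a primitive sixth root of unity in `ℂ` -/
theorem exists_zeta : ∃ ζ : ℂˣ, ζ ^ 6 = 1 ∧ ζ ^ 3 ≠ 1 ∧ ζ ^ 2 ≠ 1 ∧ ζ ≠ 1 := by
  have h := Complex.isPrimitiveRoot_exp 6 (by norm_num)
  have hu := h.isUnit (by norm_num)
  refine ⟨hu.unit, ?_, ?_, ?_, ?_⟩
  · apply Units.ext; push_cast; exact h.pow_eq_one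
  · intro hh
    have := congrArg (Units.val) hh
    push_cast at this
    exact h.pow_ne_one_of_pos_of_lt (by norm_num) (by norm_num) this
  · intro hh
    have := congrArg (Units.val) hh
    push_cast at this
    exact h.pow_ne_one_of_pos_of_lt (by norm_num) (by norm_num) this
  · intro hh
    have := congrArg (Units.val) hh
    push_cast at this
    apply h.pow_ne_one_of_pos_of_lt (l := 1) (by norm_num) (by norm_num)
    rw [pow_one]; exact this

end Crest.Agent.R251.Alg
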