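import Mathlib

-- ▼ part R251/Ar348A
section

/-! Row 251 / S0388, block AR (helper348), part A: affine simplices of the plane, the area of a
square, elementary identities. -/

set_option autoImplicit false

namespace Crest.Agent.R251.Ar

noncomputable section

/-- the standard simplex -/
abbrev Dn (n : ℕ) : Type := stdSimplex ℝ (Fin (n + 1))

/-- face inclusions -/
def face (n : ℕ) (i : Fin (n + 2)) : C(Dn n, Dn (n + 1)) :=
  ⟨stdSimplex.map i.succAbove, stdSimplex.continuous_map _⟩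

variable {E E' Z : Type} [TopologicalSpace E] [TopologicalSpace E'] [TopologicalSpace Z]
variable {M : Type} [AddCommGroup M]

/-- coboundary of raw cochains -/
def del {n : ℕ} (φ : C(Dn n, E) → M) : C(Dn (n + 1), E) → M :=
  fun σ => ∑ i : Fin (n + 2), ((-1 : ℤ) ^ (i : ℕ)) • φ (σ.comp (face n i))

/-- the plane -/
abbrev Pl : Type := ℝ × ℝ

/-- affine simplex with given vertices -/
def aff {n : ℕ} (v : Fin (n + 1) → Pl) : C(Dn n, Pl) :=
  ⟨fun t => ∑ j, (t : Fin (n + 1) → ℝ) j • v j, continuous_finsetSum _ fun j _ =>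
    ((continuous_apply j).comp continuous_subtype_val).smul continuous_const⟩

theorem aff_apply {n : ℕ} (v : Fin (n + 1) → Pl) (t : Dn n) :
    aff v t = ∑ j, (t : Fin (n + 1) → ℝ) j • v j := rfl

theorem face_apply {n : ℕ} (i : Fin (n + 2)) (t : Dn n) (j : Fin (n + 2)) :
    (face n i t : Fin (n + 2) → ℝ) j =
      ∑ k : Fin (n + 1), if i.succAbove k = j then (t : Fin (n + 1) → ℝ) k else 0 := by
  show (stdSimplex.map i.succAbove t : Fin (n + 2) → ℝ) j = _
  rw [stdSimplex.map_coe]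
  rw [FunOnFinite.linearMap_apply_apply]
  rw [Finset.sum_filter]

theorem aff_face {n : ℕ} (v : Fin (n + 2) → Pl) (i : Fin (n + 2)) :
    (aff v).comp (face n i) = aff (fun k => v (i.succAbove k)) := by
  ext1 t
  show aff v (face n i t) = _
  rw [aff_apply, aff_apply]
  simp only [face_apply, Finset.sum_smul, ite_smul, zero_smul]
  rw [Finset.sum_comm]
  simp

/-- `u` is a 2-cocycle vanishing on the simplices in the image of `i`. -/
def Adm (i : C(Z, E)) (u : C(Dn 2, E) → M) : Prop :=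
  del u = 0 ∧ ∀ s : C(Dn 2, E), (∀ t, s t ∈ Set.range i) → u s = 0

/-- value of `u` on the affine triangle `p q r` of the plane map `h` -/
def U (u : C(Dn 2, E) → M) (h : C(Pl, E)) (p q r : Pl) : M := u (h.comp (aff ![p, q, r]))

theorem U_cocycle {u : C(Dn 2, E) → M} (hu : del u = 0) (h : C(Pl, E)) (p q r s : Pl) :
    U u h q r s - U u h p r s + U u h p q s - U u h p q r = 0 := by
  have h1 : del u (h.comp (aff ![p, q, r, s])) = 0 := by rw [hu]; rfl
  rw [del, Fin.sum_univ_four] at h1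
  have e : ∀ i : Fin 4, (h.comp (aff ![p, q, r, s])).comp (face 2 i) =
      h.comp (aff fun k => (![p, q, r, s] : Fin 4 → Pl) (i.succAbove k)) := fun i => by
    rw [ContinuousMap.comp_assoc, aff_face]
  simp only [e] at h1
  have e0 : (fun k => (![p, q, r, s] : Fin 4 → Pl) ((0 : Fin 4).succAbove k)) = ![q, r, s] := by
    funext k; fin_cases k <;> rfl
  have e1 : (fun k => (![p, q, r, s] : Fin 4 → Pl) ((1 : Fin 4).succAbove k)) = ![p, r, s] := by
    funext k; fin_cases k <;> rfl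
  have e2 : (fun k => (![p, q, r, s] : Fin 4 → Pl) ((2 : Fin 4).succAbove k)) = ![p, q, s] := by
    funext k; fin_cases k <;> rfl
  have e3 : (fun k => (![p, q, r, s] : Fin 4 → Pl) ((3 : Fin 4).succAbove k)) = ![p, q, r] := by
    funext k; fin_cases k <;> rfl
  rw [e0, e1, e2, e3] at h1
  unfold U
  rw [← h1]
  simp
  abel

/-- a triangle is contained in every convex set containing its vertices -/
theorem aff_mem {n : ℕ} {v : Fin (n + 1) → Pl} {s : Set Pl} (hs : Convex ℝ s) (hv : ∀ j, v j ∈ s)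
    (t : Dn n) : aff v t ∈ s :=
  hs.sum_mem (fun j _ => t.2.1 j) t.2.2 fun j _ => hv j

/-- a triangle mapped into the image of `i` -/
theorem U_eq_zero {i : C(Z, E)} {u : C(Dn 2, E) → M} (hu : Adm i u) (h : C(Pl, E)) {p q r : Pl}
    {s : Set Pl} (hs : Convex ℝ s) (hp : p ∈ s) (hq : q ∈ s) (hr : r ∈ s)
    (hi : ∀ x ∈ s, h x ∈ Set.range i) : U u h p q r = 0 := by
  refine hu.2 _ fun t => hi _ (aff_mem hs (fun j => ?_) t)
  fin_cases j
  · exact hp
  · exact hq
  · exact hr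

/-- axis-parallel affine coordinates -/
def Lx (a b c d : ℝ) (x : Pl) : Pl := (a * x.1 + b, c * x.2 + d)

theorem Lx_aff (a b c d : ℝ) {n : ℕ} (v : Fin (n + 1) → Pl) (t : Dn n) :
    Lx a b c d (aff v t) = aff (fun j => Lx a b c d (v j)) t := by
  have h1 : (∑ i, t i) = 1 := t.2.2
  rw [aff_apply, aff_apply]
  have h3 : b = ∑ j, t j * b := by rw [← Finset.sum_mul, h1, one_mul]
  have h4 : d = ∑ j, t j * d := by rw [← Finset.sum_mul, h1, one_mul]
  refine Prod.ext ?_ ?_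
  · simp only [Lx, Prod.fst_sum, Prod.smul_fst, smul_eq_mul, mul_add, Finset.sum_add_distrib,
      Finset.mul_sum]
    rw [← h3]
    congr 1
    exact Finset.sum_congr rfl fun j _ => by ring
  · simp only [Lx, Prod.snd_sum, Prod.smul_snd, smul_eq_mul, mul_add, Finset.sum_add_distrib,
      Finset.mul_sum]
    rw [← h4]
    congr 1
    exact Finset.sum_congr rfl fun j _ => by ring

omit [AddCommGroup M] in
/-- change of coordinates -/
theorem U_congr (u : C(Dn 2, E) → M) {h h' : C(Pl, E)} (a b c d : ℝ) {p q r : Pl}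
    {s : Set Pl} (hs : Convex ℝ s) (hp : p ∈ s) (hq : q ∈ s) (hr : r ∈ s)
    (hi : ∀ x ∈ s, h x = h' (Lx a b c d x)) :
    U u h p q r = U u h' (Lx a b c d p) (Lx a b c d q) (Lx a b c d r) := by
  unfold U
  congr 1
  ext1 t
  show h (aff _ t) = h' (aff _ t)
  rw [hi _ (aff_mem hs (fun j => ?_) t), Lx_aff]
  · have e : (fun j => Lx a b c d ((![p, q, r] : Fin 3 → Pl) j)) =
        ![Lx a b c d p, Lx a b c d q, Lx a b c d r] := by
      funext j
      fin_cases j <;> rfl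
    rw [e]
  · fin_cases j
    · exact hp
    · exact hq
    · exact hr

/-- the area of the rectangle with corners `p = (a, c)`, `q = (b, c)`, `r = (a, d)`, `s = (b, d)` -/
def arP (u : C(Dn 2, E) → M) (h : C(Pl, E)) (p q r s : Pl) : M := U u h p q s - U u h p r s

/-- the area of the unit square -/
def ar (u : C(Dn 2, E) → M) (h : C(Pl, E)) : M :=
  arP u h (0, 0) (1, 0) (0, 1) (1, 1)

/-- cutting a quadrilateral `p q / r s` by the segment `m m'`, `m` on `p q`, `m'` on `r s` -/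
theorem arP_hsplit {u : C(Dn 2, E) → M} (hu : del u = 0) (h : C(Pl, E)) (p m q r m' s : Pl)
    (h1 : U u h p m q = 0) (h2 : U u h r m' s = 0) :
    arP u h p q r s = arP u h p m r m' + arP u h m q m' s := by
  have a := U_cocycle hu h p m q s
  have b := U_cocycle hu h p m m' s
  have c := U_cocycle hu h p r m' s
  rw [h1] at a
  rw [h2] at c
  unfold arP
  have a' : U u h p q s = U u h m q s + U u h p m s := by
    rw [← sub_eq_zero, ← neg_eq_zero, ← a]; abel
  have b' : U u h p m s = U u h p m m' + U u h p m' s - U u h m m' s := by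
    rw [← sub_eq_zero, ← b]; abel
  have c' : U u h p r s = U u h p r m' + U u h p m' s := by
    rw [← sub_eq_zero, ← c]; abel
  rw [a', b', c']
  abel

/-- cutting by a segment `m m'`, `m` on `p r`, `m'` on `q s` -/
theorem arP_vsplit {u : C(Dn 2, E) → M} (hu : del u = 0) (h : C(Pl, E)) (p q m m' r s : Pl)
    (h1 : U u h p m r = 0) (h2 : U u h q m' s = 0) :
    arP u h p q r s = arP u h p q m m' + arP u h m m' r s := by
  have a := U_cocycle hu h p q m' s
  have b := U_cocycle hu h p m m' s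
  have c := U_cocycle hu h p m r s
  rw [h2] at a
  rw [h1] at c
  unfold arP
  have a' : U u h p q s = U u h p q m' + U u h p m' s := by
    rw [← sub_eq_zero, ← a]; abel
  have b' : U u h p m s = U u h p m m' + U u h p m' s - U u h m m' s := by
    rw [← sub_eq_zero, ← b]; abel
  have c' : U u h p r s = U u h m r s + U u h p m s := by
    rw [← sub_eq_zero, ← neg_eq_zero, ← c]; abel
  rw [a', c', b']
  abel

/-- a degenerate value -/
theorem U_ppq {u : C(Dn 2, E) → M} (hu : del u = 0) (h : C(Pl, E)) (p q : Pl)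
    (h1 : U u h p p p = 0) : U u h p p q = 0 := by
  have a := U_cocycle hu h p p p q
  rw [h1] at a
  rw [← a]; abel

theorem U_pqq {u : C(Dn 2, E) → M} (hu : del u = 0) (h : C(Pl, E)) (p q : Pl)
    (h1 : U u h q q q = 0) : U u h p q q = 0 := by
  have a := U_cocycle hu h p q q q
  rw [h1] at a
  rw [← neg_eq_zero, ← a]; abel

/-- reversing the orientation -/
theorem arP_symm {u : C(Dn 2, E) → M} (hu : del u = 0) (h : C(Pl, E)) (p q r s : Pl)
    (hp : U u h p p p = 0) (hr : U u h r r r = 0) (hpq : U u h p q p = 0) (hrs : U u h r s r = 0) :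
    arP u h q p s r = - arP u h p q r s := by
  have a := U_cocycle hu h q p r s
  have b := U_cocycle hu h p q p s
  have c := U_cocycle hu h q r s r
  have hps := U_ppq hu h p s hp
  have hqr := U_pqq hu h q r hr
  rw [hps, hpq] at b
  rw [hrs, hqr] at c
  have a' : U u h q p r = U u h p r s - U u h q r s + U u h q p s := by
    rw [← sub_eq_zero, ← neg_eq_zero, ← a]; abel
  have b' : U u h q p s = - U u h p q s := by
    rw [← sub_eq_zero, ← b]; abel
  have c' : U u h q s r = - U u h q r s := by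
    rw [← sub_eq_zero, ← neg_eq_zero, ← c]; abel
  unfold arP
  rw [a', b', c']
  abel

end

end Crest.Agent.R251.Ar
end

-- ▼ part R251/Ar348B

/-! Row 251 / S0388, block AR (helper348), part B: null-homotopies of loops as maps of the square,
their areas; commutators have null-homotopies of area zero. -/

set_option autoImplicit false

open Set

namespace Crest.Agent.R251.Ar

noncomputable section

variable {E E' Z : Type} [TopologicalSpace E] [TopologicalSpace E'] [TopologicalSpace Z]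
variable {M : Type} [AddCommGroup M]

/-- `h` restricted to the unit square is a null-homotopy (in `E`) of the loop `γ` of `Z` -/
structure Null (i : C(Z, E)) {z : Z} (γ : Path z z) (h : C(Pl, E)) : Prop where
  bot : ∀ s : unitInterval, h ((s : ℝ), 0) = i (γ s)
  left : ∀ t : unitInterval, h (0, (t : ℝ)) = i z
  right : ∀ t : unitInterval, h (1, (t : ℝ)) = i z
  top : ∀ s : unitInterval, h ((s : ℝ), 1) = i z

/-- a rectangle -/
def Rc (a b c d : ℝ) : Set Pl := Icc a b ×ˢ Icc c d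

theorem convex_Rc (a b c d : ℝ) : Convex ℝ (Rc a b c d) := (convex_Icc a b).prod (convex_Icc c d)

theorem mem_Rc {a b c d : ℝ} {x : Pl} : x ∈ Rc a b c d ↔ (a ≤ x.1 ∧ x.1 ≤ b) ∧ (c ≤ x.2 ∧ x.2 ≤ d) :=
  Iff.rfl

variable {i : C(Z, E)} {z : Z}

theorem ar_eq_zero {u : C(Dn 2, E) → M} (hu : Adm i u) {h : C(Pl, E)}
    (hi : ∀ x ∈ Rc 0 1 0 1, h x ∈ range i) : ar u h = 0 := by
  unfold ar arP
  rw [U_eq_zero hu h (convex_Rc 0 1 0 1) (by norm_num [mem_Rc]) (by norm_num [mem_Rc])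
    (by norm_num [mem_Rc]) hi, U_eq_zero hu h (convex_Rc 0 1 0 1) (by norm_num [mem_Rc])
    (by norm_num [mem_Rc]) (by norm_num [mem_Rc]) hi, sub_zero]

/-- (N1) -/
theorem null_refl (i : C(Z, E)) (z : Z) : ∃ h, Null i (Path.refl z) h ∧
    ∀ (M : Type) [AddCommGroup M] (u : C(Dn 2, E) → M), Adm i u → ar u h = 0 := by
  refine ⟨ContinuousMap.const _ (i z), ⟨fun _ => rfl, fun _ => rfl, fun _ => rfl, fun _ => rfl⟩, ?_⟩
  intro M _ u hu
  exact ar_eq_zero hu fun x _ => ⟨z, rfl⟩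

/-- clamp -/
def cl (x : ℝ) : ℝ := max 0 (min 1 x)

theorem continuous_cl : Continuous cl := by unfold cl; fun_prop

theorem cl_mem (x : ℝ) : cl x ∈ Icc (0 : ℝ) 1 := ⟨le_max_left _ _, max_le zero_le_one (min_le_left _ _)⟩

theorem cl_of_mem {x : ℝ} (h0 : 0 ≤ x) (h1 : x ≤ 1) : cl x = x := by
  unfold cl; rw [min_eq_right h1, max_eq_right h0]

/-- (N2) -/
theorem null_trans {γ₁ γ₂ : Path z z} {h₁ h₂ : C(Pl, E)} (H₁ : Null i γ₁ h₁) (H₂ : Null i γ₂ h₂) :
    ∃ h, Null i (γ₁.trans γ₂) h ∧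
      ∀ (M : Type) [AddCommGroup M] (u : C(Dn 2, E) → M), Adm i u → ar u h = ar u h₁ + ar u h₂ := by
  have r1 : ∀ t : ℝ, h₁ (1, cl t) = i z := fun t => H₁.right ⟨cl t, cl_mem t⟩
  have l2 : ∀ t : ℝ, h₂ (0, cl t) = i z := fun t => H₂.left ⟨cl t, cl_mem t⟩
  have hc : Continuous fun x : Pl => if x.1 ≤ 1 / 2 then h₁ (2 * x.1, cl x.2)
      else h₂ (2 * x.1 - 1, cl x.2) := by
    refine Continuous.if_le ?_ ?_ continuous_fst continuous_const ?_
    · exact h₁.continuous.comp ((continuous_const.mul continuous_fst).prodMk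
        (continuous_cl.comp continuous_snd))
    · exact h₂.continuous.comp (((continuous_const.mul continuous_fst).sub continuous_const).prodMk
        (continuous_cl.comp continuous_snd))
    · intro x hx
      rw [hx]
      norm_num
      rw [r1, l2]
  let h : C(Pl, E) := ⟨_, hc⟩
  have hl : ∀ x : Pl, x.1 ≤ 1 / 2 → h x = h₁ (2 * x.1, cl x.2) := fun x hx => if_pos hx
  have hr : ∀ x : Pl, 1 / 2 ≤ x.1 → h x = h₂ (2 * x.1 - 1, cl x.2) := fun x hx => by
    rcases hx.lt_or_eq with hx | hx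
    · exact if_neg (not_le.2 hx)
    · rw [hl x hx.ge, ← hx]
      norm_num
      rw [r1, l2]
  refine ⟨h, ⟨?_, ?_, ?_, ?_⟩, ?_⟩
  · intro s
    rw [Path.trans_apply]
    split_ifs with hs
    · rw [hl _ hs]
      show h₁ (2 * (s : ℝ), cl 0) = _
      rw [cl_of_mem le_rfl zero_le_one]
      exact H₁.bot ⟨2 * (s : ℝ), _⟩
    · rw [hr _ (not_le.1 hs).le]
      show h₂ (2 * (s : ℝ) - 1, cl 0) = _
      rw [cl_of_mem le_rfl zero_le_one]
      exact H₂.bot ⟨2 * (s : ℝ) - 1, _⟩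
  · intro t
    rw [hl _ (by norm_num)]
    norm_num
    exact H₁.left ⟨cl t, cl_mem t⟩
  · intro t
    rw [hr _ (by norm_num)]
    norm_num
    exact H₂.right ⟨cl t, cl_mem t⟩
  · intro s
    rcases le_total (s : ℝ) (1 / 2) with hs | hs
    · rw [hl _ hs]
      show h₁ (2 * (s : ℝ), cl 1) = _
      rw [cl_of_mem zero_le_one le_rfl]
      exact H₁.top ⟨2 * (s : ℝ), ⟨by have := s.2.1; positivity, by linarith⟩⟩
    · rw [hr _ hs]
      show h₂ (2 * (s : ℝ) - 1, cl 1) = _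
      rw [cl_of_mem zero_le_one le_rfl]
      exact H₂.top ⟨2 * (s : ℝ) - 1, ⟨by linarith, by have := s.2.2; linarith⟩⟩
  · intro M _ u hu
    have hb : ∀ x ∈ Rc 0 1 0 0, h x ∈ range i := by
      rintro ⟨a, b⟩ ⟨⟨ha0, ha1⟩, ⟨hb0, hb1⟩⟩
      obtain rfl : b = 0 := le_antisymm hb1 hb0
      rcases le_total a (1 / 2) with hs | hs
      · rw [hl _ hs]
        show h₁ (2 * a, cl 0) ∈ _
        rw [cl_of_mem le_rfl zero_le_one]
        exact ⟨_, (H₁.bot ⟨2 * a, ⟨by change 0 ≤ a at ha0; linarith, by change a ≤ 1/2 at hs; linarith⟩⟩).symm⟩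
      · rw [hr _ hs]
        show h₂ (2 * a - 1, cl 0) ∈ _
        rw [cl_of_mem le_rfl zero_le_one]
        exact ⟨_, (H₂.bot ⟨2 * a - 1, ⟨by change 1/2 ≤ a at hs; linarith,
          by change a ≤ 1 at ha1; linarith⟩⟩).symm⟩
    have ht : ∀ x ∈ Rc 0 1 1 1, h x ∈ range i := by
      rintro ⟨a, b⟩ ⟨⟨ha0, ha1⟩, ⟨hb0, hb1⟩⟩
      obtain rfl : b = 1 := le_antisymm hb1 hb0
      rcases le_total a (1 / 2) with hs | hs
      · rw [hl _ hs]
        show h₁ (2 * a, cl 1) ∈ _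
        rw [cl_of_mem zero_le_one le_rfl]
        exact ⟨_, (H₁.top ⟨2 * a, ⟨by change 0 ≤ a at ha0; linarith, by change a ≤ 1/2 at hs; linarith⟩⟩).symm⟩
      · rw [hr _ hs]
        show h₂ (2 * a - 1, cl 1) ∈ _
        rw [cl_of_mem zero_le_one le_rfl]
        exact ⟨_, (H₂.top ⟨2 * a - 1, ⟨by change 1/2 ≤ a at hs; linarith,
          by change a ≤ 1 at ha1; linarith⟩⟩).symm⟩
    have e := arP_hsplit hu.1 h (0, 0) (1 / 2, 0) (1, 0) (0, 1) (1 / 2, 1) (1, 1)
      (U_eq_zero hu h (convex_Rc 0 1 0 0) (by norm_num [mem_Rc]) (by norm_num [mem_Rc])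
        (by norm_num [mem_Rc]) hb)
      (U_eq_zero hu h (convex_Rc 0 1 1 1) (by norm_num [mem_Rc]) (by norm_num [mem_Rc])
        (by norm_num [mem_Rc]) ht)
    rw [ar, e]
    have hL : ∀ x ∈ Rc 0 (1 / 2) 0 1, h x = h₁ (Lx 2 0 1 0 x) := by
      rintro ⟨a, b⟩ ⟨⟨ha0, ha1⟩, ⟨hb0, hb1⟩⟩
      rw [hl _ ha1]
      show h₁ (2 * a, cl b) = h₁ (2 * a + 0, 1 * b + 0)
      rw [cl_of_mem hb0 hb1]
      norm_num
    have hR : ∀ x ∈ Rc (1 / 2) 1 0 1, h x = h₂ (Lx 2 (-1) 1 0 x) := by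
      rintro ⟨a, b⟩ ⟨⟨ha0, ha1⟩, ⟨hb0, hb1⟩⟩
      rw [hr _ ha0]
      show h₂ (2 * a - 1, cl b) = h₂ (2 * a + (-1), 1 * b + 0)
      rw [cl_of_mem hb0 hb1]
      norm_num
      rfl
    unfold ar arP
    congr 1
    · rw [U_congr u 2 0 1 0 (convex_Rc 0 (1 / 2) 0 1) (by norm_num [mem_Rc]) (by norm_num [mem_Rc])
        (by norm_num [mem_Rc]) hL, U_congr u 2 0 1 0 (convex_Rc 0 (1 / 2) 0 1)
        (by norm_num [mem_Rc]) (by norm_num [mem_Rc]) (by norm_num [mem_Rc]) hL]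
      norm_num [Lx]
    · rw [U_congr u 2 (-1) 1 0 (convex_Rc (1 / 2) 1 0 1) (by norm_num [mem_Rc])
        (by norm_num [mem_Rc]) (by norm_num [mem_Rc]) hR, U_congr u 2 (-1) 1 0
        (convex_Rc (1 / 2) 1 0 1) (by norm_num [mem_Rc]) (by norm_num [mem_Rc])
        (by norm_num [mem_Rc]) hR]
      norm_num [Lx]

/-- (N3) -/
theorem null_symm {γ : Path z z} {h₁ : C(Pl, E)} (H : Null i γ h₁) :
    ∃ h, Null i γ.symm h ∧
      ∀ (M : Type) [AddCommGroup M] (u : C(Dn 2, E) → M), Adm i u → ar u h = - ar u h₁ := by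
  refine ⟨⟨fun x => h₁ (1 - x.1, x.2), by fun_prop⟩, ⟨?_, ?_, ?_, ?_⟩, ?_⟩
  · intro s
    exact H.bot (unitInterval.symm s)
  · intro t
    show h₁ (1 - 0, (t : ℝ)) = _
    rw [sub_zero]
    exact H.right t
  · intro t
    show h₁ (1 - 1, (t : ℝ)) = _
    rw [sub_self]
    exact H.left t
  · intro s
    exact H.top (unitInterval.symm s)
  · intro M _ u hu
    have hL : ∀ x ∈ (univ : Set Pl), (⟨fun x => h₁ (1 - x.1, x.2), by fun_prop⟩ : C(Pl, E)) x =
        h₁ (Lx (-1) 1 1 0 x) := by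
      rintro ⟨a, b⟩ -
      show h₁ (1 - a, b) = h₁ (-1 * a + 1, 1 * b + 0)
      congr 1
      refine Prod.ext ?_ ?_
      · ring
      · ring
    have hb : ∀ x ∈ Rc 0 1 0 0, h₁ x ∈ range i := by
      rintro ⟨a, b⟩ ⟨⟨ha0, ha1⟩, ⟨hb0, hb1⟩⟩
      obtain rfl : b = 0 := le_antisymm hb1 hb0
      exact ⟨_, (H.bot ⟨a, ha0, ha1⟩).symm⟩
    have ht : ∀ x ∈ Rc 0 1 1 1, h₁ x ∈ range i := by
      rintro ⟨a, b⟩ ⟨⟨ha0, ha1⟩, ⟨hb0, hb1⟩⟩
      obtain rfl : b = 1 := le_antisymm hb1 hb0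
      exact ⟨_, (H.top ⟨a, ha0, ha1⟩).symm⟩
    have e := arP_symm hu.1 h₁ (0, 0) (1, 0) (0, 1) (1, 1)
      (U_eq_zero hu h₁ (convex_Rc 0 1 0 0) (by norm_num [mem_Rc]) (by norm_num [mem_Rc])
        (by norm_num [mem_Rc]) hb)
      (U_eq_zero hu h₁ (convex_Rc 0 1 1 1) (by norm_num [mem_Rc]) (by norm_num [mem_Rc])
        (by norm_num [mem_Rc]) ht)
      (U_eq_zero hu h₁ (convex_Rc 0 1 0 0) (by norm_num [mem_Rc]) (by norm_num [mem_Rc])
        (by norm_num [mem_Rc]) hb)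
      (U_eq_zero hu h₁ (convex_Rc 0 1 1 1) (by norm_num [mem_Rc]) (by norm_num [mem_Rc])
        (by norm_num [mem_Rc]) ht)
    unfold ar
    rw [← e]
    unfold arP
    rw [U_congr u (-1) 1 1 0 convex_univ (mem_univ _) (mem_univ _) (mem_univ _) hL,
      U_congr u (-1) 1 1 0 convex_univ (mem_univ _) (mem_univ _) (mem_univ _) hL]
    norm_num [Lx]

/-- (N4) -/
theorem null_homotopic {γ γ' : Path z z} {h₁ : C(Pl, E)} (H : Null i γ h₁) (K : γ'.Homotopy γ) :
    ∃ h, Null i γ' h ∧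
      ∀ (M : Type) [AddCommGroup M] (u : C(Dn 2, E) → M), Adm i u → ar u h = ar u h₁ := by
  let pr : ℝ → unitInterval := projIcc 0 1 zero_le_one
  have hpr : Continuous pr := continuous_projIcc
  have prcl : ∀ x : ℝ, ((pr x : unitInterval) : ℝ) = cl x := fun x => by
    show ((projIcc (0 : ℝ) 1 zero_le_one x : unitInterval) : ℝ) = _
    rw [coe_projIcc]
    rfl
  have b1 : ∀ x : ℝ, h₁ (cl x, 0) = i (γ (pr x)) := fun x => by
    rw [← prcl]; exact H.bot (pr x)
  have hc : Continuous fun x : Pl => if x.2 ≤ 1 / 2 then i (K (pr (2 * x.2), pr x.1))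
      else h₁ (cl x.1, 2 * x.2 - 1) := by
    refine Continuous.if_le ?_ ?_ continuous_snd continuous_const ?_
    · exact i.continuous.comp (K.continuous.comp ((hpr.comp (continuous_const.mul continuous_snd)).prodMk
        (hpr.comp continuous_fst)))
    · exact h₁.continuous.comp ((continuous_cl.comp continuous_fst).prodMk
        ((continuous_const.mul continuous_snd).sub continuous_const))
    · intro x hx
      rw [hx]
      norm_num
      have : pr 1 = 1 := projIcc_right _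
      rw [b1, this, K.apply_one]
      rfl
  let h : C(Pl, E) := ⟨_, hc⟩
  have hl : ∀ x : Pl, x.2 ≤ 1 / 2 → h x = i (K (pr (2 * x.2), pr x.1)) := fun x hx => if_pos hx
  have hr : ∀ x : Pl, 1 / 2 ≤ x.2 → h x = h₁ (cl x.1, 2 * x.2 - 1) := fun x hx => by
    rcases hx.lt_or_eq with hx | hx
    · exact if_neg (not_le.2 hx)
    · rw [hl x hx.ge, ← hx]
      norm_num
      have : pr 1 = 1 := projIcc_right _
      rw [b1, this, K.apply_one]
      rfl
  refine ⟨h, ⟨?_, ?_, ?_, ?_⟩, ?_⟩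
  · intro s
    rw [hl _ (by norm_num)]
    show i (K (pr (2 * 0), pr (s : ℝ))) = _
    have e1 : pr (2 * 0) = 0 := by rw [mul_zero]; exact projIcc_left _
    have e2 : pr (s : ℝ) = s := projIcc_val _ s
    rw [e1, e2, K.apply_zero]
    rfl
  · intro t
    rcases le_total (t : ℝ) (1 / 2) with hs | hs
    · rw [hl _ hs]
      show i (K (pr (2 * t), pr 0)) = _
      rw [show pr 0 = 0 from projIcc_left _, K.source]
    · rw [hr _ hs]
      show h₁ (cl 0, 2 * (t : ℝ) - 1) = _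
      rw [cl_of_mem le_rfl zero_le_one]
      exact H.left ⟨2 * (t : ℝ) - 1, ⟨by linarith, by have := t.2.2; linarith⟩⟩
  · intro t
    rcases le_total (t : ℝ) (1 / 2) with hs | hs
    · rw [hl _ hs]
      show i (K (pr (2 * t), pr 1)) = _
      rw [show pr 1 = 1 from projIcc_right _, K.target]
    · rw [hr _ hs]
      show h₁ (cl 1, 2 * (t : ℝ) - 1) = _
      rw [cl_of_mem zero_le_one le_rfl]
      exact H.right ⟨2 * (t : ℝ) - 1, ⟨by linarith, by have := t.2.2; linarith⟩⟩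
  · intro s
    rw [hr _ (by norm_num)]
    show h₁ (cl s, 2 * 1 - 1) = _
    norm_num
    exact H.top ⟨cl s, cl_mem s⟩
  · intro M _ u hu
    have hlo : ∀ x ∈ Rc 0 1 0 (1 / 2), h x ∈ range i := by
      rintro ⟨a, b⟩ ⟨⟨ha0, ha1⟩, ⟨hb0, hb1⟩⟩
      rw [hl _ hb1]
      exact ⟨_, rfl⟩
    have hle : ∀ x ∈ Rc 0 0 0 1, h x ∈ range i := by
      rintro ⟨a, b⟩ ⟨⟨ha0, ha1⟩, ⟨hb0, hb1⟩⟩
      obtain rfl : a = 0 := le_antisymm ha1 ha0
      rcases le_total b (1 / 2) with hs | hs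
      · rw [hl _ hs]
        exact ⟨_, rfl⟩
      · rw [hr _ hs]
        show h₁ (cl 0, 2 * b - 1) ∈ _
        rw [cl_of_mem le_rfl zero_le_one]
        exact ⟨_, (H.left ⟨2 * b - 1, ⟨by change 1/2 ≤ b at hs; linarith,
          by change b ≤ 1 at hb1; linarith⟩⟩).symm⟩
    have hri : ∀ x ∈ Rc 1 1 0 1, h x ∈ range i := by
      rintro ⟨a, b⟩ ⟨⟨ha0, ha1⟩, ⟨hb0, hb1⟩⟩
      obtain rfl : a = 1 := le_antisymm ha1 ha0
      rcases le_total b (1 / 2) with hs | hs
      · rw [hl _ hs]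
        exact ⟨_, rfl⟩
      · rw [hr _ hs]
        show h₁ (cl 1, 2 * b - 1) ∈ _
        rw [cl_of_mem zero_le_one le_rfl]
        exact ⟨_, (H.right ⟨2 * b - 1, ⟨by change 1/2 ≤ b at hs; linarith,
          by change b ≤ 1 at hb1; linarith⟩⟩).symm⟩
    have e := arP_vsplit hu.1 h (0, 0) (1, 0) (0, 1 / 2) (1, 1 / 2) (0, 1) (1, 1)
      (U_eq_zero hu h (convex_Rc 0 0 0 1) (by norm_num [mem_Rc]) (by norm_num [mem_Rc])
        (by norm_num [mem_Rc]) hle)
      (U_eq_zero hu h (convex_Rc 1 1 0 1) (by norm_num [mem_Rc]) (by norm_num [mem_Rc])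
        (by norm_num [mem_Rc]) hri)
    rw [ar, e]
    have hR : ∀ x ∈ Rc 0 1 (1 / 2) 1, h x = h₁ (Lx 1 0 2 (-1) x) := by
      rintro ⟨a, b⟩ ⟨⟨ha0, ha1⟩, ⟨hb0, hb1⟩⟩
      rw [hr _ hb0]
      show h₁ (cl a, 2 * b - 1) = h₁ (1 * a + 0, 2 * b + (-1))
      rw [cl_of_mem ha0 ha1]
      norm_num
      rfl
    have z0 : arP u h (0, 0) (1, 0) (0, 1 / 2) (1, 1 / 2) = 0 := by
      unfold arP
      rw [U_eq_zero hu h (convex_Rc 0 1 0 (1 / 2)) (by norm_num [mem_Rc]) (by norm_num [mem_Rc])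
        (by norm_num [mem_Rc]) hlo, U_eq_zero hu h (convex_Rc 0 1 0 (1 / 2))
        (by norm_num [mem_Rc]) (by norm_num [mem_Rc]) (by norm_num [mem_Rc]) hlo, sub_zero]
    rw [z0, zero_add]
    unfold ar arP
    rw [U_congr u 1 0 2 (-1) (convex_Rc 0 1 (1 / 2) 1) (by norm_num [mem_Rc])
        (by norm_num [mem_Rc]) (by norm_num [mem_Rc]) hR, U_congr u 1 0 2 (-1)
        (convex_Rc 0 1 (1 / 2) 1) (by norm_num [mem_Rc]) (by norm_num [mem_Rc])
        (by norm_num [mem_Rc]) hR]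
    norm_num [Lx]

/-- there is a null-homotopy with area zero for all admissible cocycles -/
def NZ (i : C(Z, E)) {z : Z} (γ : Path z z) : Prop :=
  ∃ h, Null i γ h ∧ ∀ (M : Type) [AddCommGroup M] (u : C(Dn 2, E) → M), Adm i u → ar u h = 0

theorem NZ.refl (i : C(Z, E)) (z : Z) : NZ i (Path.refl z) := null_refl i z

theorem NZ.trans {γ₁ γ₂ : Path z z} (h₁ : NZ i γ₁) (h₂ : NZ i γ₂) : NZ i (γ₁.trans γ₂) := by
  obtain ⟨a, Ha, ha⟩ := h₁
  obtain ⟨b, Hb, hb⟩ := h₂
  obtain ⟨c, Hc, hc⟩ := null_trans Ha Hb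
  refine ⟨c, Hc, fun M _ u hu => ?_⟩
  rw [hc M u hu, ha M u hu, hb M u hu, add_zero]

theorem NZ.symm {γ : Path z z} (h₁ : NZ i γ) : NZ i γ.symm := by
  obtain ⟨a, Ha, ha⟩ := h₁
  obtain ⟨c, Hc, hc⟩ := null_symm Ha
  refine ⟨c, Hc, fun M _ u hu => ?_⟩
  rw [hc M u hu, ha M u hu, neg_zero]

theorem NZ.congr {γ γ' : Path z z} (h : NZ i γ) (hγ : γ'.Homotopic γ) : NZ i γ' := by
  obtain ⟨a, Ha, ha⟩ := h
  obtain ⟨K⟩ := hγ
  obtain ⟨c, Hc, hc⟩ := null_homotopic Ha K
  refine ⟨c, Hc, fun M _ u hu => ?_⟩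
  rw [hc M u hu, ha M u hu]

/-- (N5) commutators of null-homotopic loops have null-homotopies of area zero -/
theorem NZ.comm {γ₁ γ₂ : Path z z} (h₁ : ∃ h, Null i γ₁ h) (h₂ : ∃ h, Null i γ₂ h) :
    NZ i (γ₂.symm.trans (γ₁.symm.trans (γ₂.trans γ₁))) := by
  obtain ⟨a, Ha⟩ := h₁
  obtain ⟨b, Hb⟩ := h₂
  obtain ⟨a', Ha', ha'⟩ := null_symm Ha
  obtain ⟨b', Hb', hb'⟩ := null_symm Hb
  obtain ⟨c, Hc, hc⟩ := null_trans Hb Ha
  obtain ⟨d, Hd, hd⟩ := null_trans Ha' Hc
  obtain ⟨e, He, he⟩ := null_trans Hb' Hd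
  refine ⟨e, He, fun M _ u hu => ?_⟩
  rw [he M u hu, hd M u hu, hc M u hu, ha' M u hu, hb' M u hu]
  abel

/-- the classes of loops with a null-homotopy of area zero -/
def NZsub (i : C(Z, E)) (z : Z) : Subgroup (FundamentalGroup Z z) where
  carrier := {x | ∃ γ : Path z z, (Path.Homotopic.Quotient.mk γ : FundamentalGroup Z z) = x ∧ NZ i γ}
  one_mem' := ⟨Path.refl z, rfl, NZ.refl i z⟩
  mul_mem' := by
    rintro _ _ ⟨γ, rfl, h⟩ ⟨γ', rfl, h'⟩
    exact ⟨γ'.trans γ, rfl, h'.trans h⟩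
  inv_mem' := by
    rintro _ ⟨γ, rfl, h⟩
    exact ⟨γ.symm, rfl, h.symm⟩

theorem commutator_le (hE : ∀ γ : Path z z, ∃ h, Null i γ h) :
    commutator (FundamentalGroup Z z) ≤ NZsub i z := by
  rw [commutator_def, Subgroup.commutator_le]
  intro x _ y _
  induction x using Quotient.inductionOn with | _ γ₁ =>
  induction y using Quotient.inductionOn with | _ γ₂ =>
  exact ⟨γ₂.symm.trans (γ₁.symm.trans (γ₂.trans γ₁)), rfl, NZ.comm (hE γ₁) (hE γ₂)⟩

/-- (N6) -/
theorem nz_of_mem_commutator (hE : ∀ γ : Path z z, ∃ h, Null i γ h) (γ : Path z z)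
    (hγ : (Path.Homotopic.Quotient.mk γ : FundamentalGroup Z z) ∈ commutator (FundamentalGroup Z z)) :
    NZ i γ := by
  obtain ⟨γ', h1, h2⟩ := commutator_le hE hγ
  exact h2.congr (Path.Homotopic.Quotient.eq.1 h1.symm)

end

end Crest.Agent.R251.Ar
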