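import Crest.Agent.R251.Pr963

/-!
Row 251, block PC: path calculus of singular 1- and 2-cochains.

* `Cvx Z`: spaces with affine simplices (`I`, products, convex sets); `lin f a` is the singular
  simplex `f ∘ [a 0, ..., a n]` of `E` for `f : C(Z, E)`; its faces are `lin f (a ∘ succAbove i)`.
* `ps γ`: the singular 1-simplex of a path.
* a 1-cochain `ψ` whose coboundary vanishes on the triangles in `U` is an additive, homotopy
  invariant function on the paths in `U`.
* Stokes for the square.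
-/

set_option autoImplicit false

open CategoryTheory Simplicial Opposite
open Crest.GeometryTopology.DeckCochains
open Crest.Agent.R251.Pr (Dl sx us face sx_surj face_sx us_sx sx_us push pull)
open scoped unitInterval

namespace Crest.Agent.R251.PC

noncomputable section

/-- spaces in which affine simplices are defined -/
class Cvx (Z : Type) [TopologicalSpace Z] where
  aff : ∀ {n : ℕ}, (Fin (n + 1) → Z) → C(Dl n, Z)
  aff_face : ∀ {n : ℕ} (a : Fin (n + 2) → Z) (i : Fin (n + 2)),
    (aff a).comp (face n i) = aff (a ∘ i.succAbove)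
  aff_vertex : ∀ {n : ℕ} (a : Fin (n + 1) → Z) (i : Fin (n + 1)), aff a (stdSimplex.vertex i) = a i
  aff_const : ∀ {n : ℕ} (z : Z) (s : Dl n), aff (fun _ => z) s = z

export Cvx (aff aff_face aff_vertex aff_const)

theorem sum_face {V : Type*} [AddCommMonoid V] [Module ℝ V] {n : ℕ} (a : Fin (n + 2) → V)
    (i : Fin (n + 2)) (s : Dl n) :
    ∑ j, (face n i s) j • a j = ∑ k, s k • a (i.succAbove k) := by
  have h : ∀ j, (face n i s) j = ∑ k : Fin (n + 1), if i.succAbove k = j then s k else 0 := by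
    intro j
    show (stdSimplex.map i.succAbove s) j = _
    show (stdSimplex.map i.succAbove s : Fin (n + 2) → ℝ) j = _
    rw [stdSimplex.map_coe]
    simp [FunOnFinite.linearMap_apply_apply, Finset.sum_filter]
  simp_rw [h, Finset.sum_smul]
  rw [Finset.sum_comm]
  refine Finset.sum_congr rfl fun k _ => ?_
  rw [Finset.sum_eq_single (i.succAbove k)]
  · simp
  · intro j _ hj
    rw [if_neg (Ne.symm hj), zero_smul]
  · simp

/-! ### instances -/

/-- affine functions on the simplex with values in the unit interval -/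
def affI {n : ℕ} (a : Fin (n + 1) → I) : C(Dl n, I) where
  toFun s := ⟨∑ i, s i * (a i : ℝ), by
    constructor
    · exact Finset.sum_nonneg fun i _ => mul_nonneg (s.2.1 i) (a i).2.1
    · calc ∑ i, s i * (a i : ℝ) ≤ ∑ i, s i * 1 :=
            Finset.sum_le_sum fun i _ => mul_le_mul_of_nonneg_left (a i).2.2 (s.2.1 i)
        _ = 1 := by simp⟩
  continuous_toFun := by
    refine Continuous.subtype_mk (continuous_finsetSum _ fun i _ => ?_) _
    exact ((continuous_apply i).comp continuous_subtype_val).mul continuous_const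

theorem sum_vertex {V : Type*} [AddCommMonoid V] [Module ℝ V] {n : ℕ} (a : Fin (n + 1) → V)
    (i : Fin (n + 1)) : ∑ j, (stdSimplex.vertex (S := ℝ) i : Dl n) j • a j = a i := by
  rw [Finset.sum_eq_single i]
  · simp
  · intro j _ hj
    have : (stdSimplex.vertex (S := ℝ) i : Dl n) j = 0 := by
      show ((stdSimplex.vertex (S := ℝ) i : Dl n) : Fin (n + 1) → ℝ) j = 0
      simp [hj]
    rw [this, zero_smul]
  · simp

instance : Cvx I where
  aff a := affI a
  aff_face a i := by
    ext s
    exact sum_face (V := ℝ) (fun j => (a j : ℝ)) i s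
  aff_vertex a i := by
    apply Subtype.ext
    exact sum_vertex (V := ℝ) (fun j => (a j : ℝ)) i
  aff_const z s := by
    apply Subtype.ext
    show ∑ i, s i * (z : ℝ) = z
    rw [← Finset.sum_mul]
    have : ∑ i, s i = 1 := s.2.2
    rw [this, one_mul]

theorem affI_apply {n : ℕ} (a : Fin (n + 1) → I) (s : Dl n) :
    (aff a s : ℝ) = ∑ i, s i * (a i : ℝ) := rfl

instance {Z Z' : Type} [TopologicalSpace Z] [TopologicalSpace Z'] [Cvx Z] [Cvx Z'] :
    Cvx (Z × Z') where
  aff a := (aff fun i => (a i).1).prodMk (aff fun i => (a i).2)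
  aff_face a i := by
    have h1 := aff_face (fun i => (a i).1) i
    have h2 := aff_face (fun i => (a i).2) i
    ext s
    · exact congrArg (fun f => f s) h1
    · exact congrArg (fun f => f s) h2
  aff_vertex a i := Prod.ext (aff_vertex _ i) (aff_vertex _ i)
  aff_const z s := Prod.ext (aff_const _ s) (aff_const _ s)

theorem aff_fst {Z Z' : Type} [TopologicalSpace Z] [TopologicalSpace Z'] [Cvx Z] [Cvx Z']
    {n : ℕ} (a : Fin (n + 1) → Z × Z') (s : Dl n) : (aff a s).1 = aff (fun i => (a i).1) s := rfl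

theorem aff_snd {Z Z' : Type} [TopologicalSpace Z] [TopologicalSpace Z'] [Cvx Z] [Cvx Z']
    {n : ℕ} (a : Fin (n + 1) → Z × Z') (s : Dl n) : (aff a s).2 = aff (fun i => (a i).2) s := rfl

/-- convex subsets of real topological vector spaces -/
@[instance_reducible]
def cvxOf {V : Type} [AddCommGroup V] [Module ℝ V] [TopologicalSpace V] [ContinuousAdd V]
    [ContinuousSMul ℝ V] {K : Set V} (hK : Convex ℝ K) : Cvx K where
  aff {n} a := ⟨fun s => ⟨∑ i, s i • (a i : V),
      hK.sum_mem (fun i _ => s.2.1 i) s.2.2 (fun i _ => (a i).2)⟩, by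
      refine Continuous.subtype_mk (continuous_finsetSum _ fun i _ => ?_) _
      exact ((continuous_apply i).comp continuous_subtype_val).smul continuous_const⟩
  aff_face a i := by
    ext s
    exact sum_face (V := V) (fun j => (a j : V)) i s
  aff_vertex a i := by
    apply Subtype.ext
    exact sum_vertex (V := V) (fun j => (a j : V)) i
  aff_const z s := by
    apply Subtype.ext
    show ∑ i, s i • (z : V) = z
    rw [← Finset.sum_smul]
    have : ∑ i, s i = 1 := s.2.2
    rw [this, one_smul]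

/-! ### affine singular simplices -/

variable {Z E F : Type} [TopologicalSpace Z] [TopologicalSpace E] [TopologicalSpace F] [Cvx Z]

/-- the singular simplex `f ∘ [a 0, ..., a n]` -/
def lin (f : C(Z, E)) {n : ℕ} (a : Fin (n + 1) → Z) : SingSimplex E n := sx (f.comp (aff a))

theorem face_lin (f : C(Z, E)) {n : ℕ} (a : Fin (n + 2) → Z) (i : Fin (n + 2)) :
    simplexFace i (lin f a) = lin f (a ∘ i.succAbove) := by
  unfold lin
  rw [← aff_face a i]
  exact face_sx _ i


theorem us_lin (f : C(Z, E)) {n : ℕ} (a : Fin (n + 1) → Z) : us (lin f a) = f.comp (aff a) :=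
  us_sx _



variable {M : Type*} [AddCommGroup M]

/-- coboundary of a 1-cochain -/
theorem cobdry1 (ψ : SingSimplex E 1 → M) (τ : C(Dl 2, E)) :
    cochainCobdry ψ (sx τ) = ψ (sx (τ.comp (face 1 0))) - ψ (sx (τ.comp (face 1 1))) +
      ψ (sx (τ.comp (face 1 2))) := by
  refine (Fin.sum_univ_three _).trans ?_
  simp only [face_sx]
  simp [sub_eq_add_neg]

theorem cobdry1_lin (ψ : SingSimplex E 1 → M) (f : C(Z, E)) (a b c : Z) :
    cochainCobdry ψ (lin f ![a, b, c]) = ψ (lin f ![b, c]) - ψ (lin f ![a, c]) +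
      ψ (lin f ![a, b]) := by
  have h0 : (![a, b, c] ∘ Fin.succAbove (0 : Fin 3)) = ![b, c] := by
    ext i; fin_cases i <;> rfl
  have h1 : (![a, b, c] ∘ Fin.succAbove (1 : Fin 3)) = ![a, c] := by
    ext i; fin_cases i <;> rfl
  have h2 : (![a, b, c] ∘ Fin.succAbove (2 : Fin 3)) = ![a, b] := by
    ext i; fin_cases i <;> rfl
  refine (Fin.sum_univ_three _).trans ?_
  simp only [face_lin]
  erw [h0, h1, h2]
  simp [sub_eq_add_neg]

theorem cobdry2_lin (u : SingSimplex E 2 → M) (f : C(Z, E)) (a b c d : Z) :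
    cochainCobdry u (lin f ![a, b, c, d]) = u (lin f ![b, c, d]) - u (lin f ![a, c, d]) +
      u (lin f ![a, b, d]) - u (lin f ![a, b, c]) := by
  have h0 : (![a, b, c, d] ∘ Fin.succAbove (0 : Fin 4)) = ![b, c, d] := by
    ext i; fin_cases i <;> rfl
  have h1 : (![a, b, c, d] ∘ Fin.succAbove (1 : Fin 4)) = ![a, c, d] := by
    ext i; fin_cases i <;> rfl
  have h2 : (![a, b, c, d] ∘ Fin.succAbove (2 : Fin 4)) = ![a, b, d] := by
    ext i; fin_cases i <;> rfl
  have h3 : (![a, b, c, d] ∘ Fin.succAbove (3 : Fin 4)) = ![a, b, c] := by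
    ext i; fin_cases i <;> rfl
  refine (Fin.sum_univ_four _).trans ?_
  simp only [face_lin]
  erw [h0, h1, h2, h3]
  simp [sub_eq_add_neg, pow_succ]

/-! ### paths -/

/-- the singular 1-simplex of a path -/
def ps (γ : C(I, E)) : SingSimplex E 1 := lin γ ![0, 1]

/-- the parameter of the 1-simplex -/
theorem aff01_apply (s : Dl 1) : (aff ![(0 : I), 1] s : ℝ) = s 1 := by
  rw [affI_apply, Fin.sum_univ_two]
  simp

/-- the point of the 1-simplex with parameter `t` -/
def pt (t : I) : Dl 1 := ⟨![1 - t, t], by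
  constructor
  · intro i
    fin_cases i
    · simpa using t.2.2
    · simpa using t.2.1
  · simp⟩

theorem continuous_pt : Continuous pt := by
  refine Continuous.subtype_mk (continuous_pi fun i => ?_) _
  fin_cases i
  · exact continuous_const.sub continuous_subtype_val
  · exact continuous_subtype_val




theorem pt_aff01 (s : Dl 1) : pt (aff ![(0 : I), 1] s) = s := by
  apply Subtype.ext
  funext i
  have h : s 0 + s 1 = 1 := by
    have := s.2.2
    rwa [Fin.sum_univ_two] at this
  fin_cases i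
  · show 1 - ((aff ![(0 : I), 1] s : I) : ℝ) = s 0
    rw [aff01_apply]
    linarith
  · show ((aff ![(0 : I), 1] s : I) : ℝ) = s 1
    rw [aff01_apply]

/-- the segment from `a` to `b` -/
def seg (a b : Z) : C(I, Z) := (aff ![a, b]).comp ⟨pt, continuous_pt⟩

theorem seg_apply_I (a b t : I) : (seg a b t : ℝ) = (1 - t) * a + t * b := by
  show (aff ![a, b] (pt t) : ℝ) = _
  rw [affI_apply, Fin.sum_univ_two]
  rfl

theorem seg_fst {Z' : Type} [TopologicalSpace Z'] [Cvx Z'] (a b : Z × Z') (t : I) :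
    (seg a b t).1 = seg a.1 b.1 t := by
  show aff (fun i => (![a, b] i).1) (pt t) = aff ![a.1, b.1] (pt t)
  congr 2
  ext i
  fin_cases i <;> rfl

theorem seg_snd {Z' : Type} [TopologicalSpace Z'] [Cvx Z'] (a b : Z × Z') (t : I) :
    (seg a b t).2 = seg a.2 b.2 t := by
  show aff (fun i => (![a, b] i).2) (pt t) = aff ![a.2, b.2] (pt t)
  congr 2
  ext i
  fin_cases i <;> rfl

theorem lin_eq_ps (f : C(Z, E)) (a b : Z) : lin f ![a, b] = ps (f.comp (seg a b)) := by
  unfold ps lin
  congr 1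
  ext s
  show f (aff ![a, b] s) = f (aff ![a, b] (pt (aff ![0, 1] s)))
  rw [pt_aff01]

theorem ps_surj (x : SingSimplex E 1) : ∃ γ : C(I, E), ps γ = x := by
  obtain ⟨τ, rfl⟩ := sx_surj x
  refine ⟨τ.comp ⟨pt, continuous_pt⟩, ?_⟩
  unfold ps lin
  congr 1
  ext s
  show τ (pt (aff ![0, 1] s)) = τ s
  rw [pt_aff01]


theorem push_ps (γ : C(I, E)) (g : C(E, F)) : push g (ps γ) = ps (g.comp γ) := rfl


/-! ### 1-cochains closed on the triangles of a set -/

/-- `ψ` is closed on the triangles in `U` -/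
def ClosedOn (ψ : SingSimplex E 1 → M) (U : Set E) : Prop :=
  ∀ τ : C(Dl 2, E), (∀ s, τ s ∈ U) → cochainCobdry ψ (sx τ) = 0


theorem ClosedOn.mono {ψ : SingSimplex E 1 → M} {U V : Set E} (h : ClosedOn ψ U) (hVU : V ⊆ U) :
    ClosedOn ψ V := fun τ hτ => h τ fun s => hVU (hτ s)

theorem closedOn_univ {ψ : SingSimplex E 1 → M} (h : cochainCobdry ψ = 0) :
    ClosedOn ψ Set.univ := fun _ _ => congrFun h _


section closed

variable {ψ : SingSimplex E 1 → M} {U : Set E}

/-- additivity along a triangle in `U` -/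
theorem ClosedOn.tri (hψ : ClosedOn ψ U) (f : C(Z, E)) (a b c : Z)
    (h : ∀ s, f (aff ![a, b, c] s) ∈ U) :
    ψ (lin f ![a, c]) = ψ (lin f ![a, b]) + ψ (lin f ![b, c]) := by
  have h1 : cochainCobdry ψ (lin f ![a, b, c]) = 0 := hψ _ h
  rw [cobdry1_lin] at h1
  have h2 : ψ (lin f ![a, c]) = ψ (lin f ![b, c]) + ψ (lin f ![a, b]) - 
      (ψ (lin f ![b, c]) - ψ (lin f ![a, c]) + ψ (lin f ![a, b])) := by abel
  rw [h2, h1, sub_zero, add_comm]

theorem ClosedOn.tri' (hψ : ClosedOn ψ U) (f : C(Z, E)) (h : ∀ z, f z ∈ U) (a b c : Z) :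
    ψ (lin f ![a, c]) = ψ (lin f ![a, b]) + ψ (lin f ![b, c]) := hψ.tri f a b c fun _ => h _

theorem lin_self (f : C(Z, E)) (a : Z) :
    lin f ![a, a] = ps (ContinuousMap.const I (f a)) := by
  rw [lin_eq_ps]
  congr 1
  ext t
  show f (aff ![a, a] (pt t)) = f a
  have h : (![a, a] : Fin 2 → Z) = fun _ => a := by
    ext i; fin_cases i <;> rfl
  rw [h, aff_const]

theorem ClosedOn.const (hψ : ClosedOn ψ U) {x : E} (hx : x ∈ U) :
    ψ (ps (ContinuousMap.const I x)) = 0 := by
  have h := hψ.tri' (ContinuousMap.const I x) (fun _ => hx) (0 : I) 0 0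
  rw [lin_self] at h
  simpa using h

theorem ClosedOn.refl (hψ : ClosedOn ψ U) {x : E} (hx : x ∈ U) :
    ψ (ps (Path.refl x : C(I, E))) = 0 := hψ.const hx

theorem ClosedOn.self (hψ : ClosedOn ψ U) (f : C(Z, E)) (a : Z) (h : f a ∈ U) :
    ψ (lin f ![a, a]) = 0 := by
  rw [lin_self]
  exact hψ.const h

theorem ClosedOn.swap (hψ : ClosedOn ψ U) (f : C(Z, E)) (a b : Z)
    (h : ∀ s, f (aff ![a, b, a] s) ∈ U) : ψ (lin f ![b, a]) = - ψ (lin f ![a, b]) := by
  have h0 : f a ∈ U := by
    have h1 := h (stdSimplex.vertex 0)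
    rw [aff_vertex] at h1
    exact h1
  have h1 := hψ.tri f a b a h
  rw [hψ.self f a h0] at h1
  exact eq_neg_of_add_eq_zero_right h1.symm

/-- the half of a path -/
def half : I := ⟨1 / 2, by norm_num, by norm_num⟩

theorem trans_comp_left {x y z : E} (γ : Path x y) (γ' : Path y z) :
    ((γ.trans γ' : Path x z) : C(I, E)).comp (seg 0 half) = (γ : C(I, E)) := by
  ext t
  show (γ.trans γ') (seg 0 half t) = γ t
  have h1 : ((seg (0 : I) half t : I) : ℝ) = t / 2 := by
    rw [seg_apply_I]
    simp [half]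
    ring
  rw [Path.trans_apply]
  have h2 : ((seg (0 : I) half t : I) : ℝ) ≤ 1 / 2 := by
    rw [h1]
    have := t.2.2
    linarith
  rw [dif_pos h2]
  congr 1
  apply Subtype.ext
  show 2 * ((seg (0 : I) half t : I) : ℝ) = t
  rw [h1]
  ring

theorem trans_comp_right {x y z : E} (γ : Path x y) (γ' : Path y z) :
    ((γ.trans γ' : Path x z) : C(I, E)).comp (seg half 1) = (γ' : C(I, E)) := by
  ext t
  show (γ.trans γ') (seg half 1 t) = γ' t
  have h1 : ((seg half (1 : I) t : I) : ℝ) = (1 + t) / 2 := by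
    rw [seg_apply_I]
    simp [half]
    ring
  rw [Path.trans_apply]
  by_cases h2 : ((seg half (1 : I) t : I) : ℝ) ≤ 1 / 2
  · rw [dif_pos h2]
    have h3 : (t : ℝ) = 0 := by
      rw [h1] at h2
      have := t.2.1
      linarith
    have h4 : t = 0 := Subtype.ext h3
    subst h4
    rw [γ'.source]
    have h5 : (⟨2 * ((seg half (1 : I) 0 : I) : ℝ), (unitInterval.mul_pos_mem_iff zero_lt_two).2
        ⟨(seg half (1 : I) 0).2.1, h2⟩⟩ : I) = 1 := by
      apply Subtype.ext
      show 2 * ((seg half (1 : I) 0 : I) : ℝ) = 1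
      rw [h1]
      simp
    rw [h5, γ.target]
  · rw [dif_neg h2]
    congr 1
    apply Subtype.ext
    show 2 * ((seg half (1 : I) t : I) : ℝ) - 1 = t
    rw [h1]
    ring


theorem ClosedOn.trans (hψ : ClosedOn ψ U) {x y z : E} (γ : Path x y) (γ' : Path y z)
    (h : ∀ t, γ t ∈ U) (h' : ∀ t, γ' t ∈ U) :
    ψ (ps (γ.trans γ' : C(I, E))) = ψ (ps (γ : C(I, E))) + ψ (ps (γ' : C(I, E))) := by
  have h1 : ∀ t, (γ.trans γ') t ∈ U := by
    intro t
    rw [Path.trans_apply]
    split_ifs
    · exact h _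
    · exact h' _
  have h2 := hψ.tri' (Z := I) ((γ.trans γ' : Path x z) : C(I, E)) h1 0 half 1
  rw [lin_eq_ps _ 0 half, lin_eq_ps _ half 1, trans_comp_left, trans_comp_right] at h2
  exact h2

theorem ClosedOn.symm (hψ : ClosedOn ψ U) {x y : E} (γ : Path x y) (h : ∀ t, γ t ∈ U) :
    ψ (ps (γ.symm : C(I, E))) = - ψ (ps (γ : C(I, E))) := by
  have h1 := hψ.swap (Z := I) (γ : C(I, E)) 0 1 (fun s => h _)
  rw [lin_eq_ps _ 1 0] at h1
  have h2 : (γ : C(I, E)).comp (seg 1 0) = (γ.symm : C(I, E)) := by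
    ext t
    show γ (seg 1 0 t) = γ (unitInterval.symm t)
    congr 1
    apply Subtype.ext
    rw [seg_apply_I]
    simp
  rw [h2] at h1
  exact h1

/-! ### the square -/

/-- side of a square `{s} × I` -/
def vert (f : C(I × I, E)) (s : I) : C(I, E) := ⟨fun t => f (s, t), by fun_prop⟩

/-- side of a square `I × {t}` -/
def horz (f : C(I × I, E)) (t : I) : C(I, E) := ⟨fun s => f (s, t), by fun_prop⟩

theorem seg_self_I (a t : I) : seg a a t = a := by
  apply Subtype.ext
  rw [seg_apply_I]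
  ring

theorem seg01_I (t : I) : seg (0 : I) 1 t = t := by
  apply Subtype.ext
  rw [seg_apply_I]
  simp

theorem lin_vert (f : C(I × I, E)) (s : I) : lin f ![(s, 0), (s, 1)] = ps (vert f s) := by
  rw [lin_eq_ps]
  congr 1
  ext t
  show f (seg (s, 0) (s, 1) t) = f (s, t)
  congr 1
  refine Prod.ext ?_ ?_
  · rw [seg_fst]
    exact seg_self_I _ _
  · rw [seg_snd]
    exact seg01_I _

theorem lin_horz (f : C(I × I, E)) (t : I) : lin f ![(0, t), (1, t)] = ps (horz f t) := by
  rw [lin_eq_ps]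
  congr 1
  ext s
  show f (seg (0, t) (1, t) s) = f (s, t)
  congr 1
  refine Prod.ext ?_ ?_
  · rw [seg_fst]
    exact seg01_I _
  · rw [seg_snd]
    exact seg_self_I _ _

/-- STOKES FOR THE SQUARE -/
theorem stokes (ψ : SingSimplex E 1 → M) (f : C(I × I, E)) :
    cochainCobdry ψ (lin f ![((0 : I), (0 : I)), (0, 1), (1, 1)]) -
        cochainCobdry ψ (lin f ![((0 : I), (0 : I)), (1, 0), (1, 1)]) =
      ψ (ps (vert f 0)) + ψ (ps (horz f 1)) - ψ (ps (vert f 1)) - ψ (ps (horz f 0)) := by
  rw [cobdry1_lin, cobdry1_lin, lin_vert, lin_vert, lin_horz, lin_horz]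
  abel

theorem ClosedOn.square (hψ : ClosedOn ψ U) (f : C(I × I, E)) (h : ∀ z, f z ∈ U) :
    ψ (ps (vert f 0)) + ψ (ps (horz f 1)) = ψ (ps (vert f 1)) + ψ (ps (horz f 0)) := by
  have h1 := stokes ψ f
  have h2 : cochainCobdry ψ (lin f ![((0 : I), (0 : I)), (0, 1), (1, 1)]) = 0 :=
    hψ _ fun s => h _
  have h3 : cochainCobdry ψ (lin f ![((0 : I), (0 : I)), (1, 0), (1, 1)]) = 0 :=
    hψ _ fun s => h _
  rw [h2, h3, sub_zero] at h1
  have h4 : ψ (ps (vert f 0)) + ψ (ps (horz f 1)) = (ψ (ps (vert f 0)) + ψ (ps (horz f 1)) -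
      ψ (ps (vert f 1)) - ψ (ps (horz f 0))) + (ψ (ps (vert f 1)) + ψ (ps (horz f 0))) := by abel
  rw [h4, ← h1, zero_add]

/-- homotopy invariance -/
theorem ClosedOn.homotopy (hψ : ClosedOn ψ U) {x y : E} {γ γ' : Path x y} (F : γ.Homotopy γ')
    (h : ∀ z, F z ∈ U) : ψ (ps (γ : C(I, E))) = ψ (ps (γ' : C(I, E))) := by
  have h1 := hψ.square (F.toContinuousMap) h
  have e0 : vert F.toContinuousMap 0 = (γ : C(I, E)) := by
    ext t
    exact F.apply_zero t
  have e1 : vert F.toContinuousMap 1 = (γ' : C(I, E)) := by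
    ext t
    exact F.apply_one t
  have e2 : horz F.toContinuousMap 0 = ContinuousMap.const I x := by
    ext t
    exact F.source t
  have e3 : horz F.toContinuousMap 1 = ContinuousMap.const I y := by
    ext t
    exact F.target t
  have hx : x ∈ U := by
    have := h (0, 0)
    rwa [F.source] at this
  have hy : y ∈ U := by
    have := h (0, 1)
    rwa [F.target] at this
  rw [e0, e1, e2, e3, hψ.const hx, hψ.const hy, add_zero, add_zero] at h1
  exact h1

/-- homotopy invariance for paths of the subspace -/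
theorem ClosedOn.homotopic (hψ : ClosedOn ψ U) {x y : U} {γ γ' : Path x y}
    (h : γ.Homotopic γ') :
    ψ (ps (γ.map continuous_subtype_val : C(I, E))) =
      ψ (ps (γ'.map continuous_subtype_val : C(I, E))) := by
  obtain ⟨F⟩ := h
  exact hψ.homotopy (F.map ⟨Subtype.val, continuous_subtype_val⟩) fun z => (F z).2


end closed

/-! ### areas: a 2-cochain on the affine triangles of a square -/

/-- the tetrahedron relation for a 2-cocycle -/
theorem cocycle_tet {u : SingSimplex E 2 → M} (hu : cochainCobdry u = 0) (f : C(Z, E))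
    (a b c d : Z) :
    u (lin f ![b, c, d]) - u (lin f ![a, c, d]) + u (lin f ![a, b, d]) - u (lin f ![a, b, c]) = 0 := by
  rw [← cobdry2_lin, hu]
  rfl


/-! ### equivariance -/

section equivariant

variable {G : Type} [Group G] [MulAction G E] [ContinuousConstSMul G E]
  [DistribMulAction G M]

/-- the translate of a path -/
def smulC (g : G) (γ : C(I, E)) : C(I, E) := ((Homeomorph.smul g : E ≃ₜ E) : C(E, E)).comp γ




end equivariant


end

end Crest.Agent.R251.PC
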