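import Crest.Agent.R251.Ar348B
import Crest.Agent.R251.PC752
import Crest.Agent.R185.Base3
import Crest.Agent.R185.BldDefs

/-! Row 251 / S0388, block AR (helper348), part C: discs. -/

set_option autoImplicit false
set_option linter.unusedSectionVars false

open Set Metric
open Crest.GeometryTopology.DeckCochains
open Crest.Agent.R251.Pr (Dl sx us sx_surj face_sx us_sx sx_us push pull cobdry_pull)
open Crest.Agent.R251.PC (lin ps stokes vert horz ClosedOn Cvx)
open Crest.Agent.R185.Att (D S sd rad tl)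
open Crest.Agent.R185.Base (cr continuous_cr cr_inj cr_surj)

local notation "I" => unitInterval

namespace Crest.Agent.R251.Ar

noncomputable section

variable {E Z : Type} [TopologicalSpace E] [TopologicalSpace Z]
variable {M : Type} [AddCommGroup M]

/-- the area of a square: lower minus upper triangle -/
def area (u : SingSimplex E 2 → M) (f : C(I × I, E)) : M :=
  u (lin f ![((0 : I), (0 : I)), (1, 0), (1, 1)]) - u (lin f ![((0 : I), (0 : I)), (0, 1), (1, 1)])

/-- `u` is a 2-cocycle vanishing on the simplices in the image of `i` -/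
def AdmS (i : C(Z, E)) (u : SingSimplex E 2 → M) : Prop :=
  cochainCobdry u = 0 ∧ ∀ s : C(Dl 2, E), (∀ t, s t ∈ range i) → u (sx s) = 0

theorem AdmS.adm {i : C(Z, E)} {u : SingSimplex E 2 → M} (hu : AdmS i u) :
    Adm i (fun s : C(Dn 2, E) => u (sx s)) := by
  refine ⟨?_, hu.2⟩
  funext s
  exact congrFun hu.1 (sx s)

/-- inclusion of the square in the plane -/
def inc2 : C(I × I, Pl) := ⟨fun x => ((x.1 : ℝ), (x.2 : ℝ)), by fun_prop⟩

theorem inc2_aff (p q r : I × I) : inc2.comp (PC.aff ![p, q, r]) = aff ![inc2 p, inc2 q, inc2 r] := by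
  ext1 t
  show inc2 (PC.aff ![p, q, r] t) = aff ![inc2 p, inc2 q, inc2 r] t
  rw [aff_apply]
  refine Prod.ext ?_ ?_
  · show ((PC.aff (fun i => (![p, q, r] i).1) t : I) : ℝ) = _
    rw [PC.affI_apply, Prod.fst_sum, Fin.sum_univ_three, Fin.sum_univ_three]
    rfl
  · show ((PC.aff (fun i => (![p, q, r] i).2) t : I) : ℝ) = _
    rw [PC.affI_apply, Prod.snd_sum, Fin.sum_univ_three, Fin.sum_univ_three]
    rfl

theorem ar_eq_area (u : SingSimplex E 2 → M) (h : C(Pl, E)) :
    ar (fun s : C(Dn 2, E) => u (sx s)) h = area u (h.comp inc2) := by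
  unfold ar arP U area lin
  have h1 := inc2_aff (0, 0) (1, 0) (1, 1)
  have h2 := inc2_aff (0, 0) (0, 1) (1, 1)
  have e00 : inc2 ((0 : I), (0 : I)) = (0, 0) := rfl
  have e10 : inc2 ((1 : I), (0 : I)) = (1, 0) := rfl
  have e01 : inc2 ((0 : I), (1 : I)) = (0, 1) := rfl
  have e11 : inc2 ((1 : I), (1 : I)) = (1, 1) := rfl
  rw [e00, e10, e11] at h1
  rw [e00, e01, e11] at h2
  rw [ContinuousMap.comp_assoc, ContinuousMap.comp_assoc, h1, h2]

/-! ### null squares in simply connected spaces -/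





/-! ### the disc -/

/-- the boundary curve of the disc `D 2`, as a map of the interval -/
def cp : C(I, D 2) := ⟨fun t => sd 2 (cr t), by
  exact (sd 2).continuous.comp (continuous_cr.comp continuous_subtype_val)⟩

/-- polar coordinates: `(t, s) ↦ (1 - s) • cr t` -/
def kap : C(I × I, D 2) := ⟨fun x => ⟨(1 - (x.2 : ℝ)) • (cr x.1 : Fin 2 → ℝ), by
    rw [mem_closedBall_zero_iff, norm_smul, (cr x.1).norm_eq, mul_one, Real.norm_eq_abs, abs_le]
    have := x.2.2.1
    have := x.2.2.2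
    constructor <;> linarith⟩, by
  refine Continuous.subtype_mk ?_ _
  exact (continuous_const.sub (continuous_subtype_val.comp continuous_snd)).smul
    (continuous_subtype_val.comp (continuous_cr.comp (continuous_subtype_val.comp continuous_fst)))⟩

theorem kap_coe (x : I × I) : (kap x : Fin 2 → ℝ) = (1 - (x.2 : ℝ)) • (cr x.1 : Fin 2 → ℝ) := rfl

theorem norm_kap (x : I × I) : ‖(kap x : Fin 2 → ℝ)‖ = 1 - (x.2 : ℝ) := by
  rw [kap_coe, norm_smul, (cr x.1).norm_eq, mul_one, Real.norm_eq_abs, abs_of_nonneg]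
  have := x.2.2.2
  linarith

theorem kap_surj : Function.Surjective kap := by
  intro y
  by_cases hy : (y : Fin 2 → ℝ) = 0
  · refine ⟨(0, 1), Subtype.ext ?_⟩
    rw [kap_coe, hy]
    simp
  · obtain ⟨t, ht⟩ := cr_surj (rad (y : Fin 2 → ℝ) hy)
    have hn := y.norm_le
    refine ⟨(t, ⟨1 - ‖(y : Fin 2 → ℝ)‖, by linarith, by have := norm_nonneg (y : Fin 2 → ℝ); linarith⟩),
      Subtype.ext ?_⟩
    rw [kap_coe, ht]
    show (1 - (1 - ‖(y : Fin 2 → ℝ)‖)) • _ = _
    rw [sub_sub_cancel]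
    exact (R185.Att.rad_spec (y : Fin 2 → ℝ) hy).symm

theorem isQuotientMap_kap : Topology.IsQuotientMap kap :=
  kap.continuous.isClosedMap.isQuotientMap kap.continuous kap_surj

theorem cr_one : cr (1 : ℝ) = cr 0 := (Crest.Agent.R185.Base.cpath).target

/-- the disc of a null square -/
theorem exists_disc {i : C(Z, E)} {z : Z} {γ : Path z z} {h : C(Pl, E)} (H : Null i γ h) :
    ∃ g : C(D 2, E), ∀ x : I × I, g (kap x) = h (inc2 x) := by
  have hh : ∀ a b : I × I, kap a = kap b → (h.comp inc2) a = (h.comp inc2) b := by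
    intro a b hab
    have h1 : (a.2 : ℝ) = b.2 := by
      have := norm_kap a
      rw [hab, norm_kap b] at this
      linarith
    have h2 : a.2 = b.2 := Subtype.ext h1
    by_cases h3 : (a.2 : ℝ) = 1
    · have h4 : a.2 = 1 := Subtype.ext h3
      show h (inc2 a) = h (inc2 b)
      have ea : inc2 a = ((a.1 : ℝ), 1) := Prod.ext rfl h3
      have eb : inc2 b = ((b.1 : ℝ), 1) := Prod.ext rfl (h1.symm.trans h3)
      rw [ea, eb, H.top, H.top]
    · have h4 : (1 - (a.2 : ℝ)) ≠ 0 := sub_ne_zero.2 (Ne.symm h3)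
      have h5 : (cr a.1 : Fin 2 → ℝ) = cr b.1 := by
        have h6 := congrArg (fun y : D 2 => (y : Fin 2 → ℝ)) hab
        simp only [kap_coe] at h6
        rw [← h1] at h6
        exact smul_right_injective _ h4 h6
      obtain ⟨a1, a2⟩ := a
      obtain ⟨b1, b2⟩ := b
      change a2 = b2 at h2
      subst h2
      show h ((a1 : ℝ), (a2 : ℝ)) = h ((b1 : ℝ), (a2 : ℝ))
      rcases cr_inj (Subtype.ext h5 : cr a1 = cr b1) with h7 | ⟨h7, h8⟩ | ⟨h7, h8⟩
      · rw [h7]
      · rw [h7, h8]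
        exact (H.left a2).trans (H.right a2).symm
      · rw [h7, h8]
        exact (H.right a2).trans (H.left a2).symm
  refine ⟨isQuotientMap_kap.lift (h.comp inc2) hh, fun x => ?_⟩
  exact congrArg (fun k : C(I × I, E) => k x) (isQuotientMap_kap.lift_comp (h.comp inc2) hh)

theorem kap_bot (t : I) : kap (t, 0) = cp t := by
  apply Subtype.ext
  rw [kap_coe]
  show (1 - (0 : ℝ)) • _ = _
  rw [sub_zero, one_smul]
  rfl

theorem horz_kap_zero : horz kap 0 = cp := by
  ext1 t
  exact kap_bot t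

theorem horz_kap_one : horz kap 1 = ContinuousMap.const I (kap (0, 1)) := by
  ext1 t
  apply Subtype.ext
  show (kap (t, 1) : Fin 2 → ℝ) = kap (0, 1)
  rw [kap_coe, kap_coe]
  show (1 - (1 : ℝ)) • _ = (1 - (1 : ℝ)) • _
  rw [sub_self, zero_smul, zero_smul]

theorem vert_kap : vert kap 0 = vert kap 1 := by
  ext1 t
  apply Subtype.ext
  show (kap (0, t) : Fin 2 → ℝ) = kap (1, t)
  rw [kap_coe, kap_coe]
  show _ • (cr (0 : ℝ) : Fin 2 → ℝ) = _ • (cr (1 : ℝ) : Fin 2 → ℝ)
  rw [cr_one]


/-- `β` integrates `g^* u`; then the value on the boundary curve is the area of the polar square -/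
theorem per_kap {u : SingSimplex E 2 → M} {g : C(D 2, E)} {β : SingSimplex (D 2) 1 → M}
    (hβ : cochainCobdry β = pull g u)
    (h0 : u (sx (ContinuousMap.const (Dl 2) (g (kap (0, 1))))) = 0) :
    β (ps cp) = area u (g.comp kap) := by
  have h1 := stokes β kap
  rw [horz_kap_zero, horz_kap_one, vert_kap, hβ] at h1
  have h2 : β (ps (ContinuousMap.const I (kap (0, 1)))) = 0 := by
    have h3 : cochainCobdry β (sx (ContinuousMap.const (Dl 2) (kap (0, 1)))) = 0 := by
      rw [hβ]
      exact h0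
    rw [PC.cobdry1] at h3
    have h4 : ∀ j, (ContinuousMap.const (Dl 2) (kap (0, 1))).comp (Pr.face 1 j) =
        (ContinuousMap.const I (kap (0, 1))).comp (PC.aff ![(0 : I), 1]) := fun j => rfl
    rw [h4, h4, h4] at h3
    have h5 : β (sx ((ContinuousMap.const I (kap (0, 1))).comp (PC.aff ![(0 : I), 1]))) = 0 := by
      rw [← h3]; abel
    exact h5
  have e1 : area u (g.comp kap) = pull g u (lin kap ![((0 : I), (0 : I)), (1, 0), (1, 1)]) -
      pull g u (lin kap ![((0 : I), (0 : I)), (0, 1), (1, 1)]) := rfl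
  rw [e1, ← neg_sub, h1, h2]
  abel

/-- **the disc with period zero** -/
theorem exists_disc_zero {i : C(Z, E)} {z : Z} {γ : Path z z} (hγ : NZ i γ) :
    ∃ g : C(D 2, E), (∀ t : I, g (sd 2 (cr t)) = i (γ t)) ∧
      ∀ (M : Type) [AddCommGroup M] (u : SingSimplex E 2 → M), AdmS i u →
        ∀ β : SingSimplex (D 2) 1 → M, cochainCobdry β = pull g u → β (ps cp) = 0 := by
  obtain ⟨h, H, hz⟩ := hγ
  obtain ⟨g, hg⟩ := exists_disc H
  refine ⟨g, fun t => ?_, fun M _ u hu β hβ => ?_⟩
  · have h1 := hg (t, 0)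
    rw [kap_bot] at h1
    exact h1.trans (H.bot t)
  · have h1 : g.comp kap = h.comp inc2 := by
      ext1 x
      exact hg x
    have h2 : g (kap (0, 1)) = i z := (hg (0, 1)).trans (H.top 0)
    rw [per_kap hβ (hu.2 _ fun _ => ⟨z, h2.symm⟩), h1, ← ar_eq_area]
    exact hz M _ hu.adm

end

end Crest.Agent.R251.Ar
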