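import Crest.Agent.R251.Mod19
import Crest.Agent.R197.EdgePath

/-!
# Row 251: the edge path theorem for the graph `GAtt G φ` over a discrete `G`-space

`Z` discrete, `φ : ι → C(S 1, Z)`.  `GAtt G φ` is a `TwoCx` without 2-cells, so that the edge path
theorem of row 197 applies.
-/

set_option autoImplicit false

open Set Metric Topology
open scoped unitInterval
open Crest.Agent.R185.Att Crest.Agent.R197

namespace Crest.Agent.R251.Cay

/-- the end points of the segment -/
def sm : S 1 := ⟨fun _ => -1, by rw [mem_sphere_zero_iff_norm, pi_norm_const]; simp⟩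
def sp : S 1 := ⟨fun _ => 1, by rw [mem_sphere_zero_iff_norm, pi_norm_const]; simp⟩

@[simp] theorem sm_coe (i : Fin 1) : (sm : Fin 1 → ℝ) i = -1 := rfl
@[simp] theorem sp_coe (i : Fin 1) : (sp : Fin 1 → ℝ) i = 1 := rfl

/-- the parameter of the segment -/
noncomputable def dI : C(I, D 1) :=
  ⟨fun t => ⟨fun _ => 2 * (t : ℝ) - 1, by
    rw [mem_closedBall_zero_iff, pi_norm_const, Real.norm_eq_abs, abs_le]
    exact ⟨by linarith [t.2.1], by linarith [t.2.2]⟩⟩, by fun_prop⟩

@[simp] theorem dI_coe (t : I) (i : Fin 1) : (dI t : Fin 1 → ℝ) i = 2 * (t : ℝ) - 1 := rfl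

theorem dI_zero : dI 0 = sd 1 sm := by
  apply Subtype.ext; funext i; simp

theorem dI_one : dI 1 = sd 1 sp := by
  apply Subtype.ext; funext i; simp; norm_num

theorem dI_lt {t : I} (ht : t ∈ Iint) : ‖(dI t : Fin 1 → ℝ)‖ < 1 := by
  have h0 : (0 : ℝ) < t := ht.1
  have h1 : (t : ℝ) < 1 := ht.2
  have : ((dI t : D 1) : Fin 1 → ℝ) = fun _ => 2 * (t : ℝ) - 1 := rfl
  rw [this, pi_norm_const, Real.norm_eq_abs, abs_lt]
  exact ⟨by linarith, by linarith⟩

/-- the interior point -/
noncomputable def bI (t : I) (ht : t ∈ Iint) : B 1 := ⟨fun _ => 2 * (t : ℝ) - 1,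
  mem_ball_zero_iff.2 (dI_lt ht)⟩

theorem dI_bI {t : I} (ht : t ∈ Iint) : dI t = bd 1 (bI t ht) := Subtype.ext rfl

theorem bI_inj {t t' : I} {ht : t ∈ Iint} {ht' : t' ∈ Iint} (h : bI t ht = bI t' ht') : t = t' := by
  have := congrArg (fun x : B 1 => (x : Fin 1 → ℝ) 0) h
  simp only [bI] at this
  apply Subtype.ext; linarith

theorem exists_bI (x : B 1) : ∃ t, ∃ ht : t ∈ Iint, bI t ht = x := by
  have hx := x.norm_lt
  have h0 : |(x : Fin 1 → ℝ) 0| < 1 := lt_of_le_of_lt (by
    simpa using norm_le_pi_norm (x : Fin 1 → ℝ) 0) hx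
  rw [abs_lt] at h0
  refine ⟨⟨((x : Fin 1 → ℝ) 0 + 1) / 2, by constructor <;> linarith⟩, ⟨?_, ?_⟩, ?_⟩
  · change (0 : ℝ) < _; linarith
  · change _ < (1 : ℝ); linarith
  · apply Subtype.ext; funext i
    have : i = 0 := Subsingleton.elim _ _
    subst this
    simp only [bI]
    ring

theorem S1_cases (x : S 1) : x = sm ∨ x = sp := by
  have hx := x.norm_eq
  have h0 : |(x : Fin 1 → ℝ) 0| = 1 := by
    refine le_antisymm ((norm_le_pi_norm (x : Fin 1 → ℝ) 0).trans_eq hx) ?_
    refine hx.symm.trans_le ((pi_norm_le_iff_of_nonneg (abs_nonneg _)).2 fun i => ?_)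
    rw [Subsingleton.elim i 0, Real.norm_eq_abs]
  rcases (abs_eq (by norm_num : (0 : ℝ) ≤ 1)).1 h0 with h | h
  · right; apply Subtype.ext; funext i; rw [Subsingleton.elim i 0, h]; rfl
  · left; apply Subtype.ext; funext i; rw [Subsingleton.elim i 0, h]; rfl

theorem dI_surj (x : D 1) : ∃ t, dI t = x := by
  induction x using D.cases' with
  | hB x =>
    obtain ⟨t, ht, rfl⟩ := exists_bI x
    exact ⟨t, dI_bI ht⟩
  | hS x =>
    rcases S1_cases x with rfl | rfl
    · exact ⟨0, dI_zero⟩
    · exact ⟨1, dI_one⟩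

section gen

variable {G : Type} [Group G] {Z : Type} [TopologicalSpace Z] [MulAction G Z]
  {ι : Type} (φ : ι → C(S 1, Z))

/-- the edge as a map from the unit interval -/
noncomputable def eI (g : G) (i : ι) : C(I, GAtt G φ) :=
  ⟨fun t => chr φ g i (dI t), (continuous_chr g i).comp dI.continuous⟩

theorem eI_apply (g : G) (i : ι) (t : I) : eI φ g i t = chr φ g i (dI t) := rfl

theorem eI_zero (g : G) (i : ι) : eI φ g i 0 = inZ φ (g • φ i sm) := by
  rw [eI_apply, dI_zero, chr_sd]

theorem eI_one (g : G) (i : ι) : eI φ g i 1 = inZ φ (g • φ i sp) := by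
  rw [eI_apply, dI_one, chr_sd]

theorem eI_int (g : G) (i : ι) {t : I} (ht : t ∈ Iint) : eI φ g i t = inB φ g i (bI t ht) := by
  rw [eI_apply, dI_bI ht, chr_bd]

variable [DiscreteTopology Z]

theorem isClosed_of_eI {A : Set (GAtt G φ)} (h : ∀ p : G × ι, IsClosed (eI φ p.1 p.2 ⁻¹' A)) :
    IsClosed A := by
  rw [isClosed_iff]
  refine ⟨isClosed_discrete _, fun g c => ?_⟩
  have : chr φ g c ⁻¹' A = dI '' (eI φ g c ⁻¹' A) := by
    ext x
    constructor
    · intro hx
      obtain ⟨t, rfl⟩ := dI_surj x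
      exact ⟨t, hx, rfl⟩
    · rintro ⟨t, ht, rfl⟩
      exact ht
  rw [this]
  exact ((h (g, c)).isCompact.image dI.continuous).isClosed

/-- the graph as a `TwoCx` -/
noncomputable def cx : TwoCx (GAtt G φ) where
  O := Z
  E := G × ι
  J := Empty
  v := inZ φ
  e p := eI φ p.1 p.2
  f j := j.elim
  src p := p.1 • φ p.2 sm
  tgt p := p.1 • φ p.2 sp
  e_zero p := eI_zero φ p.1 p.2
  e_one p := eI_one φ p.1 p.2
  v_inj := inZ_injective
  e_inj := by
    rintro ⟨g, i⟩ ⟨g', i'⟩ s s' hs hs' h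
    simp only [eI_int φ _ _ hs, eI_int φ _ _ hs', inB_inj] at h
    obtain ⟨rfl, rfl, h⟩ := h
    exact ⟨rfl, bI_inj h⟩
  e_ne_v := by
    rintro ⟨g, i⟩ s o hs h
    rw [eI_int φ _ _ hs] at h
    exact inB_ne_inZ h
  f_inj j := j.elim
  f_ne_v j := j.elim
  f_ne_e j := j.elim
  f_bd j := j.elim
  cover x := by
    induction x using GAtt.cases' with
    | hZ z => exact Or.inl ⟨z, rfl⟩
    | hB g c x =>
      obtain ⟨t, ht, rfl⟩ := exists_bI x
      exact Or.inr (Or.inl ⟨(g, c), t, ht, (eI_int φ g c ht).symm⟩)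
  closed2 A h _ := isClosed_of_eI φ h
  closed1 A _ h := isClosed_of_eI φ h

theorem mem_X1 (y : GAtt G φ) : y ∈ (cx (G := G) φ).X1 := by
  rcases (cx (G := G) φ).cover y with h | ⟨i, s, -, h⟩ | ⟨j, -⟩
  · exact Or.inl h
  · exact Or.inr ⟨i, s, h⟩
  · exact j.elim

/-- the identity, with values in the 1-skeleton -/
def toX1 : C(GAtt G φ, (cx (G := G) φ).X1) :=
  ⟨fun y => ⟨y, mem_X1 φ y⟩, Continuous.subtype_mk continuous_id _⟩

end gen

/-! ### auxiliary lemmas on path classes -/

/-- composing with an explicit path respects the identification of classes -/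
theorem trans_aux {Y : Type*} [TopologicalSpace Y] {a b c a' b' c' : Y} (p : Path a b) (q : Path b c)
    (p' : Path a' b') (q' : Path b' c') (ha : a = a') (hb : b = b') (hc : c = c')
    (hp : ∀ t, p t = p' t) (hq : q.Homotopic (q'.cast hb hc)) :
    (p.trans q).Homotopic ((p'.trans q').cast ha hc) := by
  subst ha hb hc
  have : p = p' := Path.ext (funext hp)
  subst this
  exact (Path.Homotopic.refl p).hcomp hq

theorem map_trans_aux {X Y : Type*} [TopologicalSpace X] [TopologicalSpace Y] (f : C(X, Y))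
    {a b c : X} (p : Path a b) (q : Path b c) {a' b' c' : Y} (p' : Path a' b') (q' : Path b' c')
    (ha : f a = a') (hb : f b = b') (hc : f c = c') (hp : ∀ t, f (p t) = p' t)
    (hq : (Path.Homotopic.Quotient.mk q).map f = Path.Homotopic.Quotient.mk (q'.cast hb hc)) :
    ((Path.Homotopic.Quotient.mk p).trans (Path.Homotopic.Quotient.mk q)).map f =
      Path.Homotopic.Quotient.mk ((p'.trans q').cast ha hc) := by
  have h1 : ((p.map f.continuous).trans (q.map f.continuous)).Homotopic
      ((p'.trans q').cast ha hc) :=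
    trans_aux _ _ _ _ ha hb hc hp (Path.Homotopic.Quotient.exact hq)
  rw [← Path.Homotopic.Quotient.mk_trans, ← Path.Homotopic.Quotient.mk_map, Path.map_trans]
  exact Path.Homotopic.Quotient.eq.2 h1

section cay

open R251.Mod

variable {G : Type} [Group G] {ι : Type} (gen : ι → G)

instance : DiscreteTopology (Z1 G) := by
  rw [discreteTopology_iff_forall_isOpen]
  intro U
  rw [R185.Att.isOpen_iff]
  refine ⟨isOpen_discrete _, fun g c => ?_⟩
  have : Subsingleton (D 0) := ⟨fun a b => Subtype.ext (Subsingleton.elim _ _)⟩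
  exact isOpen_discrete _

theorem φ1_sm (i : ι) : φ1 gen i sm = v1 1 := by
  show (if _ then _ else _) = _
  rw [if_neg (by simp)]

theorem φ1_sp (i : ι) : φ1 gen i sp = v1 (gen i) := by
  show (if _ then _ else _) = _
  rw [if_pos (by simp)]

theorem v_inj {g h : G} (e : v gen g = v gen h) : g = h := v1_inj (inZ_injective e)


theorem rep_wpath {o o' : (cx (G := G) (φ1 gen)).O} {w : (cx (G := G) (φ1 gen)).Wd}
    {γ : Path.Homotopic.Quotient ((cx (G := G) (φ1 gen)).v1 o) ((cx (G := G) (φ1 gen)).v1 o')}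
    (h : (cx (G := G) (φ1 gen)).Rep o o' w γ) :
    ∀ g, inZ (φ1 gen) o = v gen g → ∃ l, ∃ (h' : inZ (φ1 gen) o' = v gen (g * val gen l)),
      ∀ hg : inZ (φ1 gen) o = v gen g,
        γ.map (cx (G := G) (φ1 gen)).incl =
          Path.Homotopic.Quotient.mk ((wpath gen g l).cast hg h') := by
  induction h with
  | nil o =>
    intro g hg
    refine ⟨[], by rw [val, mul_one]; exact hg, fun hg => ?_⟩
    rw [← Path.Homotopic.Quotient.mk_refl, ← Path.Homotopic.Quotient.mk_map]
    congr 1
    apply Path.ext; funext t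
    simp only [Path.map_coe, Function.comp, Path.refl_apply, wpath]
    exact hg
  | fwd i o' w γ hw ih =>
    intro g hg
    obtain ⟨g', k⟩ := i
    have e : g' = g := by
      have := inZ_injective hg
      change g' • φ1 gen k sm = v1 g at this
      rw [φ1_sm, smul_v1, mul_one] at this
      exact v1_inj this
    subst e
    have hg' : inZ (φ1 gen) ((cx (G := G) (φ1 gen)).tgt (g', k)) = v gen (g' * gen k) := by
      change inZ (φ1 gen) (g' • φ1 gen k sp) = _
      rw [φ1_sp, smul_v1]; rfl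
    obtain ⟨l, h', hl⟩ := ih _ hg'
    refine ⟨(k, true) :: l, by rw [val, ← mul_assoc]; exact h', fun hg => ?_⟩
    obtain ⟨p, rfl⟩ := Path.Homotopic.Quotient.mk_surjective γ
    exact map_trans_aux _ _ _ (edge gen g' k) _ hg hg' h' (fun t => rfl) (hl hg')
  | bwd i o' w γ hw ih =>
    intro g hg
    obtain ⟨g', k⟩ := i
    have e : g' * gen k = g := by
      have := inZ_injective hg
      change g' • φ1 gen k sp = v1 g at this
      rw [φ1_sp, smul_v1] at this
      exact v1_inj this
    have e' : g' = g * (gen k)⁻¹ := by rw [← e, mul_inv_cancel_right]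
    subst e'
    have hg' : inZ (φ1 gen) ((cx (G := G) (φ1 gen)).src (g * (gen k)⁻¹, k)) =
        v gen (g * (gen k)⁻¹) := by
      change inZ (φ1 gen) ((g * (gen k)⁻¹) • φ1 gen k sm) = _
      rw [φ1_sm, smul_v1, mul_one]; rfl
    obtain ⟨l, h', hl⟩ := ih _ hg'
    refine ⟨(k, false) :: l, by rw [val, ← mul_assoc]; exact h', fun hg => ?_⟩
    obtain ⟨p, rfl⟩ := Path.Homotopic.Quotient.mk_surjective γ
    exact map_trans_aux _ _ _ ((edge gen (g * (gen k)⁻¹) k).symm.cast
      (by rw [inv_mul_cancel_right]) rfl) _ hg hg' h' (fun t => rfl) (hl hg')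

/-- **Edge path theorem** for the Cayley graph: every path between vertices is homotopic to the edge
path of a word. -/
theorem exists_wpath (g h : G) (γ : Path (v gen g) (v gen h)) :
    ∃ l, ∃ e : g * val gen l = h,
      γ.Homotopic ((wpath gen g l).cast rfl (by rw [e])) := by
  let C := cx (G := G) (φ1 gen)
  let γ' : Path (C.v1 (v1 g)) (C.v1 (v1 h)) := γ.map (toX1 (φ1 gen)).continuous
  obtain ⟨w, hw⟩ := C.exists_rep _ _ (Path.Homotopic.Quotient.mk γ')
  obtain ⟨l, h', hl⟩ := rep_wpath gen hw g rfl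
  have e : g * val gen l = h := (v_inj gen h').symm
  exact ⟨l, e, Path.Homotopic.Quotient.exact (hl rfl)⟩

/-- every loop at `v 1` is homotopic to the edge loop of a word of value one -/
theorem exists_wloop (γ : Path (v gen (1 : G)) (v gen 1)) :
    ∃ l, ∃ e : val gen l = 1, γ.Homotopic (wloop gen l e) := by
  obtain ⟨l, e, h⟩ := exists_wpath gen 1 1 γ
  exact ⟨l, by rw [← one_mul (val gen l), e], h⟩

/-- every point is joined to a vertex -/
theorem exists_joined (y : Z2 gen) : ∃ g, Joined (v gen g) y := by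
  obtain ⟨z, c, -⟩ := (cx (G := G) (φ1 gen)).exists_short (toX1 (φ1 gen) y)
  obtain ⟨p, -⟩ := Path.Homotopic.Quotient.mk_surjective c
  obtain ⟨g, hg⟩ := v1_surj z
  subst hg
  exact ⟨g, ⟨p.map (cx (G := G) (φ1 gen)).incl.continuous⟩⟩

/-- the Cayley graph of a generated group is path connected -/
theorem pathConnected_of_generate (hgen : ∀ g : G, ∃ l, val gen l = g) :
    PathConnectedSpace (Z2 gen) := by
  refine ⟨⟨v gen 1⟩, fun x y => ?_⟩
  obtain ⟨g, hg⟩ := exists_joined gen x
  obtain ⟨h, hh⟩ := exists_joined gen y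
  have key : ∀ g : G, Joined (v gen 1) (v gen g) := by
    intro g
    obtain ⟨l, hl⟩ := hgen g
    exact ⟨(wpath gen 1 l).cast rfl (by rw [one_mul, hl])⟩
  exact hg.symm.trans ((key g).symm.trans ((key h).trans hh))

end cay

end Crest.Agent.R251.Cay
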