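import Crest.Agent.R185.Att3

-- ▼ part R251/DR679
section

/-!
# R251 (S0388), block B3b-TOP (helper679): the Mayer-Vietoris geometry of one attachment `GAtt G φ`

`UU φ = inZ Z ∪ {1/2 < ‖x‖}`, `VV φ` = open cells.  Everything is globally continuous:
`Hst` (radial stretch) deforms `UU` into `inZ Z`, equivariantly; `VV` is `(G × C) × B m`.
-/

set_option autoImplicit false
set_option linter.unusedSectionVars false

open Set Metric Topology unitInterval
open Crest.Agent.R185.Att

namespace Crest.Agent.R251.DR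

/-! ### radial stretch of the ball -/

section stretch
variable {m : ℕ}

/-- radial stretch by the factor `1 + t` (cut off at the boundary) -/
noncomputable def str (m : ℕ) : C(D m × I, D m) :=
  ⟨fun p => ret m ((1 + (p.2 : ℝ)) • (p.1 : Fin m → ℝ)), (continuous_ret m).comp (by fun_prop)⟩

theorem str_apply (x : D m) (t : I) : str m (x, t) = ret m ((1 + (t : ℝ)) • (x : Fin m → ℝ)) := rfl

theorem ret_coe (x : Fin m → ℝ) : ((ret m x : D m) : Fin m → ℝ) = (max 1 ‖x‖)⁻¹ • x := rfl

@[simp] theorem str_zero (x : D m) : str m (x, 0) = x := by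
  rw [str_apply]
  have : (1 + ((0 : I) : ℝ)) • (x : Fin m → ℝ) = x := by simp
  rw [this]
  exact ret_of_mem x.2

@[simp] theorem str_sd (x : S m) (t : I) : str m (sd m x, t) = sd m x := by
  rw [str_apply]
  apply Subtype.ext
  rw [ret_coe, sd_coe, norm_smul, x.norm_eq]
  have h0 : (0 : ℝ) ≤ t := t.2.1
  rw [Real.norm_of_nonneg (by linarith), mul_one, max_eq_right (by linarith), smul_smul,
    inv_mul_cancel₀ (by linarith), one_smul]

theorem norm_str (x : D m) (t : I) :
    ‖(str m (x, t) : Fin m → ℝ)‖ = min 1 ((1 + (t : ℝ)) * ‖(x : Fin m → ℝ)‖) := by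
  have h0 : (0 : ℝ) ≤ t := t.2.1
  rw [str_apply, ret_coe, norm_smul, norm_inv, Real.norm_of_nonneg (by positivity), norm_smul,
    Real.norm_of_nonneg (by linarith : (0 : ℝ) ≤ 1 + t)]
  set a := (1 + (t : ℝ)) * ‖(x : Fin m → ℝ)‖
  rcases le_total a 1 with h | h
  · rw [max_eq_left h, min_eq_right h, inv_one, one_mul]
  · rw [max_eq_right h, min_eq_left h, inv_mul_cancel₀ (by linarith)]

theorem le_norm_str (x : D m) (t : I) : ‖(x : Fin m → ℝ)‖ ≤ ‖(str m (x, t) : Fin m → ℝ)‖ := by
  have h0 : (0 : ℝ) ≤ t := t.2.1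
  rw [norm_str]
  refine le_min x.norm_le ?_
  nlinarith [norm_nonneg (x : Fin m → ℝ)]

theorem norm_str_one {x : D m} (hx : 1 / 2 ≤ ‖(x : Fin m → ℝ)‖) :
    ‖(str m (x, 1) : Fin m → ℝ)‖ = 1 := by
  rw [norm_str]
  apply min_eq_left
  have : ((1 : I) : ℝ) = 1 := rfl
  rw [this]; linarith

theorem str_one {x : D m} (hx : 1 / 2 ≤ ‖(x : Fin m → ℝ)‖) (h0 : (x : Fin m → ℝ) ≠ 0) :
    str m (x, 1) = sd m (rad x h0) := by
  apply Subtype.ext
  rw [sd_coe, str_apply, ret_coe]
  have h1 : ((1 : I) : ℝ) = 1 := rfl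
  have hn : ‖(1 + ((1 : I) : ℝ)) • (x : Fin m → ℝ)‖ = 2 * ‖(x : Fin m → ℝ)‖ := by
    rw [h1, norm_smul, Real.norm_of_nonneg (by norm_num)]; norm_num
  have hp : (0 : ℝ) < ‖(x : Fin m → ℝ)‖ := by linarith
  rw [hn, max_eq_right (by linarith), h1, smul_smul]
  simp only [rad]
  congr 1
  field_simp
  norm_num

end stretch

section att

variable {G : Type} [Group G] {Z : Type} [TopologicalSpace Z] [MulAction G Z]
  {m : ℕ} {C : Type} (φ : C → C(S m, Z))

/-! ### the open cover -/

/-- the old space with the outer collars `1/2 < ‖x‖` of the cells -/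
def UU : Set (GAtt G φ) := col φ (1/2) univ

/-- the open cells -/
def VV : Set (GAtt G φ) := {p | ∃ g c x, p = inB φ g c x}

variable {φ}

@[simp] theorem inZ_mem_UU (z : Z) : (inZ φ z : GAtt G φ) ∈ UU φ := inZ_mem_col.2 (mem_univ _)

theorem inB_mem_UU {g : G} {c : C} {x : B m} :
    inB φ g c x ∈ UU φ ↔ 1 / 2 < ‖(x : Fin m → ℝ)‖ := by
  rw [UU, inB_mem_col]
  refine ⟨fun h => h.1, fun h => ⟨h, ?_⟩⟩
  have h0 : (x : Fin m → ℝ) ≠ 0 := by
    rintro h0; rw [h0, norm_zero] at h; norm_num at h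
  exact ⟨rad (x : Fin m → ℝ) h0, rad_spec (x : Fin m → ℝ) h0, mem_univ _⟩

theorem chr_mem_UU {g : G} {c : C} {x : D m} :
    chr φ g c x ∈ UU φ ↔ 1 / 2 < ‖(x : Fin m → ℝ)‖ := by
  induction x using D.cases' with
  | hB x => rw [chr_bd, inB_mem_UU]; rfl
  | hS x =>
    rw [chr_sd]
    simp only [inZ_mem_UU, true_iff, sd_coe, x.norm_eq]
    norm_num

@[simp] theorem inZ_notMem_VV (z : Z) : (inZ φ z : GAtt G φ) ∉ VV φ := by
  rintro ⟨g, c, x, h⟩
  exact inZ_ne_inB h

@[simp] theorem inB_mem_VV (g : G) (c : C) (x : B m) : inB φ g c x ∈ VV φ := ⟨g, c, x, rfl⟩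

theorem chr_mem_VV {g : G} {c : C} {x : D m} : chr φ g c x ∈ VV φ ↔ ‖(x : Fin m → ℝ)‖ < 1 := by
  induction x using D.cases' with
  | hB x => rw [chr_bd]; simp [x.norm_lt]
  | hS x => rw [chr_sd]; simp [x.norm_eq]

theorem isOpen_UU [ContinuousConstSMul G Z] : IsOpen (UU φ : Set (GAtt G φ)) :=
  isOpen_col (by norm_num) (by norm_num) isOpen_univ

theorem isOpen_VV : IsOpen (VV φ : Set (GAtt G φ)) := by
  rw [Crest.Agent.R185.Att.isOpen_iff]
  constructor
  · convert isOpen_empty
    ext z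
    simp
  · intro g c
    have : chr φ g c ⁻¹' (VV φ) = {x : D m | ‖(x : Fin m → ℝ)‖ < 1} := by
      ext x; exact chr_mem_VV
    rw [this]
    exact isOpen_lt (by fun_prop) continuous_const

theorem UU_union_VV : (UU φ : Set (GAtt G φ)) ∪ VV φ = univ := by
  refine eq_univ_of_forall fun p => ?_
  induction p using GAtt.cases' with
  | hZ z => exact Or.inl (inZ_mem_UU z)
  | hB g c x => exact Or.inr (inB_mem_VV g c x)


theorem smul_mem_UU {g : G} {p : GAtt G φ} : g • p ∈ UU φ ↔ p ∈ UU φ := by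
  induction p using GAtt.cases' with
  | hZ z => simp
  | hB k c x => rw [smul_inB, inB_mem_UU, inB_mem_UU]

theorem smul_mem_VV {g : G} {p : GAtt G φ} : g • p ∈ VV φ ↔ p ∈ VV φ := by
  induction p using GAtt.cases' with
  | hZ z => simp
  | hB k c x => simp

/-! ### the stretching homotopy -/

variable (φ) in
/-- underlying function of the stretch -/
noncomputable def hst (p : GAtt G φ × I) : GAtt G φ :=
  Sum.elim (fun z => inZ φ z) (fun q => chr φ q.1 q.2.1 (str m (bd m q.2.2, p.2))) p.1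

theorem hst_inZ (z : Z) (t : I) : hst φ ((inZ φ z : GAtt G φ), t) = inZ φ z := rfl

theorem hst_chr (g : G) (c : C) (x : D m) (t : I) :
    hst φ (chr φ g c x, t) = chr φ g c (str m (x, t)) := by
  induction x using D.cases' with
  | hB x => rw [chr_bd]; rfl
  | hS x => rw [chr_sd, hst_inZ, str_sd, chr_sd]

theorem continuous_hst : Continuous (hst (G := G) φ) := by
  rw [continuous_prod_iff]
  constructor
  · exact continuous_inZ.comp continuous_fst
  · intro g c
    have : (fun p : D m × I => hst φ (chr φ g c p.1, p.2)) = chr φ g c ∘ (str m) := by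
      funext p; exact hst_chr g c p.1 p.2
    rw [this]
    exact (continuous_chr g c).comp (str m).continuous

variable (G φ) in
/-- the stretching homotopy -/
noncomputable def Hst : C(GAtt G φ × I, GAtt G φ) := ⟨hst φ, continuous_hst⟩

@[simp] theorem Hst_inZ (z : Z) (t : I) : Hst G φ ((inZ φ z : GAtt G φ), t) = inZ φ z := rfl

@[simp] theorem Hst_chr (g : G) (c : C) (x : D m) (t : I) :
    Hst G φ (chr φ g c x, t) = chr φ g c (str m (x, t)) := hst_chr g c x t

theorem Hst_inB (g : G) (c : C) (x : B m) (t : I) :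
    Hst G φ (inB φ g c x, t) = chr φ g c (str m (bd m x, t)) := rfl

@[simp] theorem Hst_zero (p : GAtt G φ) : Hst G φ (p, 0) = p := by
  induction p using GAtt.cases' with
  | hZ z => rfl
  | hB g c x => rw [Hst_inB, str_zero, chr_bd]

theorem Hst_smul (g : G) (p : GAtt G φ) (t : I) : Hst G φ (g • p, t) = g • Hst G φ (p, t) := by
  induction p using GAtt.cases' with
  | hZ z => rfl
  | hB k c x => rw [smul_inB, Hst_inB, Hst_inB, smul_chr]

theorem Hst_mem_UU {p : GAtt G φ} (hp : p ∈ UU φ) (t : I) : Hst G φ (p, t) ∈ UU φ := by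
  induction p using GAtt.cases' with
  | hZ z => exact inZ_mem_UU z
  | hB g c x =>
    rw [Hst_inB, chr_mem_UU]
    exact lt_of_lt_of_le (inB_mem_UU.1 hp) (le_norm_str (bd m x) t)

/-- a boundary point of the ball -/
theorem exists_sd {x : D m} (hx : ‖(x : Fin m → ℝ)‖ = 1) : ∃ s : S m, x = sd m s :=
  ⟨⟨x, mem_sphere_zero_iff_norm.2 hx⟩, rfl⟩

theorem Hst_one_mem {p : GAtt G φ} (hp : p ∈ UU φ) : ∃ z, Hst G φ (p, 1) = inZ φ z := by
  induction p using GAtt.cases' with
  | hZ z => exact ⟨z, rfl⟩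
  | hB g c x =>
    rw [Hst_inB]
    obtain ⟨s, hs⟩ := exists_sd (norm_str_one (x := bd m x) (le_of_lt (inB_mem_UU.1 hp)))
    rw [hs, chr_sd]
    exact ⟨_, rfl⟩

/-- radial point of a point of the collar -/
theorem ne_zero_of_half_lt {x : Fin m → ℝ} (h : 1 / 2 < ‖x‖) : x ≠ 0 := by
  rintro h0; rw [h0, norm_zero] at h; norm_num at h

theorem Hst_one_inB (g : G) (c : C) (x : B m) (h : 1 / 2 < ‖(x : Fin m → ℝ)‖) :
    Hst G φ (inB φ g c x, 1) = inZ φ (g • φ c (rad x (ne_zero_of_half_lt h))) := by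
  rw [Hst_inB, str_one (x := bd m x) h.le (ne_zero_of_half_lt h), chr_sd]
  rfl

/-! ### the retraction of `UU` onto the old space -/

variable (G φ) in
/-- the retraction -/
noncomputable def rr (p : (UU φ : Set (GAtt G φ))) : Z := (Hst_one_mem p.2).choose

theorem inZ_rr (p : (UU φ : Set (GAtt G φ))) :
    inZ φ (rr G φ p) = Hst G φ ((p : GAtt G φ), 1) := (Hst_one_mem p.2).choose_spec.symm

theorem continuous_rr [ContinuousConstSMul G Z] : Continuous (rr G φ) := by
  rw [(isClosedEmbedding_inZ (φ := φ) (G := G)).isEmbedding.continuous_iff]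
  have : (inZ φ : Z → GAtt G φ) ∘ rr G φ =
      fun p : (UU φ : Set (GAtt G φ)) => Hst G φ ((p : GAtt G φ), 1) := by
    funext p; exact inZ_rr p
  rw [this]
  exact (Hst G φ).continuous.comp (continuous_subtype_val.prodMk continuous_const)

@[simp] theorem rr_inZ (z : Z) : rr G φ ⟨inZ φ z, inZ_mem_UU z⟩ = z := by
  have h := inZ_rr (φ := φ) (G := G) ⟨inZ φ z, inZ_mem_UU z⟩
  exact inZ_injective h

theorem rr_smul (g : G) (p : (UU φ : Set (GAtt G φ))) :
    rr G φ ⟨g • (p : GAtt G φ), smul_mem_UU.2 p.2⟩ = g • rr G φ p := by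
  apply inZ_injective (φ := φ) (G := G)
  rw [inZ_rr, ← smul_inZ, inZ_rr]
  exact Hst_smul g (p : GAtt G φ) 1

theorem rr_inB (g : G) (c : C) (x : B m) (h : 1 / 2 < ‖(x : Fin m → ℝ)‖) :
    rr G φ ⟨inB φ g c x, inB_mem_UU.2 h⟩ = g • φ c (rad x (ne_zero_of_half_lt h)) := by
  apply inZ_injective (φ := φ) (G := G)
  rw [inZ_rr]
  exact Hst_one_inB g c x h

/-! ### the open cells -/

variable (G φ) in
/-- parametrisation of the open cells -/
def vpar (q : Σ _ : G × C, B m) : GAtt G φ := inB φ q.1.1 q.1.2 q.2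

theorem vpar_injective : Function.Injective (vpar G φ) := by
  rintro ⟨⟨g, c⟩, x⟩ ⟨⟨g', c'⟩, x'⟩ h
  obtain ⟨rfl, rfl, rfl⟩ := inB_inj.1 h
  rfl

theorem range_vpar : range (vpar G φ) = VV φ := by
  ext p
  constructor
  · rintro ⟨⟨⟨g, c⟩, x⟩, rfl⟩
    exact inB_mem_VV g c x
  · rintro ⟨g, c, x, rfl⟩
    exact ⟨⟨(g, c), x⟩, rfl⟩

theorem continuous_vpar : Continuous (vpar G φ) := by
  refine continuous_sigma fun q => ?_
  have : (fun x : B m => vpar G φ ⟨q, x⟩) = chr φ q.1 q.2 ∘ bd m := by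
    funext x; exact (chr_bd _ _ x).symm
  rw [this]
  exact (continuous_chr _ _).comp (bd m).continuous

theorem isOpenMap_vpar : IsOpenMap (vpar G φ) := by
  rw [isOpenMap_sigma]
  intro q O hO
  exact isOpen_inB_image (φ := φ) (g := q.1) (c := q.2) hO

theorem isOpenEmbedding_vpar : IsOpenEmbedding (vpar G φ) :=
  .of_continuous_injective_isOpenMap continuous_vpar vpar_injective isOpenMap_vpar

variable (G φ) in
/-- the open cells as a disjoint union of open balls -/
noncomputable def vhom : (Σ _ : G × C, B m) ≃ₜ (VV φ : Set (GAtt G φ)) :=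
  (isOpenEmbedding_vpar (φ := φ) (G := G)).isEmbedding.toHomeomorph.trans
    (Homeomorph.setCongr range_vpar)

@[simp] theorem vhom_coe (q : Σ _ : G × C, B m) : (vhom G φ q : GAtt G φ) = inB φ q.1.1 q.1.2 q.2 :=
  rfl

theorem vhom_smul (g : G) (q : Σ _ : G × C, B m) :
    (vhom G φ ⟨(g * q.1.1, q.1.2), q.2⟩ : GAtt G φ) = g • (vhom G φ q : GAtt G φ) := rfl

variable (G φ) in
/-- the collar: the open cells minus the closed half-balls -/
def UV : Set (GAtt G φ) := UU φ ∩ VV φ

theorem inB_mem_UV {g : G} {c : C} {x : B m} :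
    inB φ g c x ∈ UV G φ ↔ 1 / 2 < ‖(x : Fin m → ℝ)‖ :=
  ⟨fun h => inB_mem_UU.1 h.1, fun h => ⟨inB_mem_UU.2 h, inB_mem_VV g c x⟩⟩

end att

end Crest.Agent.R251.DR
end

-- ▼ part R251/DR679b

/-!
# R251 (S0388), block B3b-TOP, part 2 (helper679): the collars of the cells

`Col m = {1/2 < ‖x‖ < 1}`; `colS : C(S m, Col m)` (sphere of radius 3/4), `colR : C(Col m, S m)`
(radial projection), `colR ∘ colS = id`, `colS ∘ colR ≃ id` (`colH`);
`uvhom : (Σ _ : G × C, Col m) ≃ₜ UU ∩ VV`.
-/

set_option autoImplicit false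
set_option linter.unusedSectionVars false

open Set Metric Topology unitInterval
open Crest.Agent.R185.Att

namespace Crest.Agent.R251.DR

/-- the open collar of the ball -/
abbrev Col (m : ℕ) : Type := {x : B m // 1 / 2 < ‖(x : Fin m → ℝ)‖}

section col
variable {m : ℕ}

theorem Col.ne_zero (x : Col m) : ((x : B m) : Fin m → ℝ) ≠ 0 := ne_zero_of_half_lt x.2

theorem continuous_vv : Continuous fun x : Col m => ((x : B m) : Fin m → ℝ) :=
  continuous_subtype_val.comp continuous_subtype_val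

/-- radial projection of the collar onto the sphere -/
noncomputable def colR (m : ℕ) : C(Col m, S m) where
  toFun x := rad ((x : B m) : Fin m → ℝ) x.ne_zero
  continuous_toFun := by
    refine Continuous.subtype_mk ?_ _
    exact (continuous_vv.norm.inv₀ fun x => norm_ne_zero_iff.2 (Col.ne_zero x)).smul continuous_vv

/-- points of the collar in polar coordinates -/
noncomputable def polar (s : S m) (a : ℝ) (h1 : 1 / 2 < a) (h2 : a < 1) : Col m :=
  ⟨⟨a • (s : Fin m → ℝ), mem_ball_zero_iff.2 (by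
    rw [norm_smul, s.norm_eq, mul_one, Real.norm_of_nonneg (by linarith)]; exact h2)⟩, by
    show 1 / 2 < ‖a • (s : Fin m → ℝ)‖
    rw [norm_smul, s.norm_eq, mul_one, Real.norm_of_nonneg (by linarith)]; exact h1⟩

theorem polar_coe (s : S m) (a : ℝ) (h1 : 1 / 2 < a) (h2 : a < 1) :
    ((polar s a h1 h2 : B m) : Fin m → ℝ) = a • (s : Fin m → ℝ) := rfl

theorem colR_polar (s : S m) (a : ℝ) (h1 : 1 / 2 < a) (h2 : a < 1) :
    colR m (polar s a h1 h2) = s := by
  symm
  refine rad_unique (Col.ne_zero (polar s a h1 h2)) ?_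
  rw [polar_coe, norm_smul, s.norm_eq, mul_one, Real.norm_of_nonneg (by linarith)]

theorem polar_colR (x : Col m) :
    polar (colR m x) ‖((x : B m) : Fin m → ℝ)‖ x.2 (x : B m).norm_lt = x := by
  apply Subtype.ext
  apply Subtype.ext
  exact (rad_spec _ x.ne_zero).symm

/-- the sphere of radius `3/4` -/
noncomputable def colS (m : ℕ) : C(S m, Col m) where
  toFun s := polar s (3/4) (by norm_num) (by norm_num)
  continuous_toFun := by
    refine Continuous.subtype_mk (Continuous.subtype_mk ?_ _) _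
    exact (continuous_subtype_val (p := fun x => x ∈ sphere (0 : Fin m → ℝ) 1)).const_smul (3/4 : ℝ)

@[simp] theorem colR_colS (s : S m) : colR m (colS m s) = s :=
  colR_polar s (3/4) (by norm_num) (by norm_num)

theorem colR_comp_colS : (colR m).comp (colS m) = ContinuousMap.id _ := by
  ext1 s; exact colR_colS s

/-- radius along the homotopy -/
theorem rad_bound (x : Col m) (t : I) :
    1 / 2 < (1 - (t : ℝ)) * ‖((x : B m) : Fin m → ℝ)‖ + t * (3 / 4) ∧
      (1 - (t : ℝ)) * ‖((x : B m) : Fin m → ℝ)‖ + t * (3 / 4) < 1 := by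
  have h0 : (0 : ℝ) ≤ t := t.2.1
  have h1 : (t : ℝ) ≤ 1 := t.2.2
  have h2 := x.2
  have h3 := (x : B m).norm_lt
  constructor <;> nlinarith

/-- the homotopy `id ~ colS ∘ colR` -/
noncomputable def colH (m : ℕ) : C(Col m × I, Col m) where
  toFun p := polar (colR m p.1) ((1 - (p.2 : ℝ)) * ‖((p.1 : B m) : Fin m → ℝ)‖ + p.2 * (3 / 4))
    (rad_bound p.1 p.2).1 (rad_bound p.1 p.2).2
  continuous_toFun := by
    refine Continuous.subtype_mk (Continuous.subtype_mk ?_ _) _
    have h1 : Continuous fun p : Col m × I => ((p.1 : B m) : Fin m → ℝ) :=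
      continuous_vv.comp continuous_fst
    have h2 : Continuous fun p : Col m × I => (p.2 : ℝ) := continuous_subtype_val.comp continuous_snd
    exact (((continuous_const.sub h2).mul h1.norm).add (h2.mul continuous_const)).smul
      (continuous_subtype_val.comp ((colR m).continuous.comp continuous_fst))

@[simp] theorem colH_zero (x : Col m) : colH m (x, 0) = x := by
  have h : colH m (x, 0) = polar (colR m x) ((1 - ((0 : I) : ℝ)) * ‖((x : B m) : Fin m → ℝ)‖ +
    ((0 : I) : ℝ) * (3 / 4)) (rad_bound x 0).1 (rad_bound x 0).2 := rfl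
  rw [h]
  conv_rhs => rw [← polar_colR x]
  congr 1
  simp

@[simp] theorem colH_one (x : Col m) : colH m (x, 1) = colS m (colR m x) := by
  have h : colH m (x, 1) = polar (colR m x) ((1 - ((1 : I) : ℝ)) * ‖((x : B m) : Fin m → ℝ)‖ +
    ((1 : I) : ℝ) * (3 / 4)) (rad_bound x 1).1 (rad_bound x 1).2 := rfl
  have h2 : colS m (colR m x) = polar (colR m x) (3/4) (by norm_num) (by norm_num) := rfl
  rw [h, h2]
  congr 1
  simp


/-- the collar is homotopy equivalent to the sphere -/
noncomputable def colEquiv (m : ℕ) : ContinuousMap.HomotopyEquiv (Col m) (S m) where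
  toFun := colR m
  invFun := colS m
  left_inv := by
    refine (ContinuousMap.Homotopic.symm ⟨?_⟩)
    exact
      { toFun := fun p => colH m (p.2, p.1)
        continuous_toFun := (colH m).continuous.comp continuous_swap
        map_zero_left := fun x => colH_zero x
        map_one_left := fun x => colH_one x }
  right_inv := by
    rw [colR_comp_colS]

/-- contraction of the open ball -/
noncomputable def ballH (m : ℕ) : C(B m × I, B m) where
  toFun p := ⟨(1 - (p.2 : ℝ)) • (p.1 : Fin m → ℝ), mem_ball_zero_iff.2 (by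
    have h0 : (0 : ℝ) ≤ p.2 := p.2.2.1
    have h1 : (p.2 : ℝ) ≤ 1 := p.2.2.2
    rw [norm_smul, Real.norm_of_nonneg (by linarith)]
    nlinarith [p.1.norm_lt, norm_nonneg (p.1 : Fin m → ℝ)])⟩
  continuous_toFun := Continuous.subtype_mk (by fun_prop) _

@[simp] theorem ballH_zero (x : B m) : ballH m (x, 0) = x := by
  apply Subtype.ext
  show (1 - ((0 : I) : ℝ)) • (x : Fin m → ℝ) = x
  simp

/-- the centre of the ball -/
def cen (m : ℕ) : B m := ⟨0, mem_ball_self one_pos⟩

@[simp] theorem ballH_one (x : B m) : ballH m (x, 1) = cen m := by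
  apply Subtype.ext
  show (1 - ((1 : I) : ℝ)) • (x : Fin m → ℝ) = 0
  simp

instance instContractibleB (m : ℕ) : ContractibleSpace (B m) :=
  (convex_ball (0 : Fin m → ℝ) 1).contractibleSpace ⟨0, mem_ball_self one_pos⟩

end col

section att

variable {G : Type} [Group G] {Z : Type} [TopologicalSpace Z] [MulAction G Z]
  {m : ℕ} {C : Type} {φ : C → C(S m, Z)}

theorem isOpenMap_col : IsOpenMap (Subtype.val : Col m → B m) := by
  apply IsOpen.isOpenMap_subtype_val
  exact isOpen_lt continuous_const continuous_subtype_val.norm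

variable (G φ) in
/-- parametrisation of the collar of the cells -/
def upar (q : Σ _ : G × C, Col m) : GAtt G φ := inB φ q.1.1 q.1.2 q.2

theorem upar_injective : Function.Injective (upar G φ) := by
  rintro ⟨⟨g, c⟩, x⟩ ⟨⟨g', c'⟩, x'⟩ h
  obtain ⟨rfl, rfl, h3⟩ := inB_inj.1 h
  obtain rfl := Subtype.ext h3
  rfl

theorem range_upar : range (upar G φ) = UV G φ := by
  ext p
  constructor
  · rintro ⟨⟨⟨g, c⟩, x⟩, rfl⟩
    exact inB_mem_UV.2 x.2
  · rintro hp
    obtain ⟨g, c, x, rfl⟩ := hp.2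
    exact ⟨⟨(g, c), ⟨x, inB_mem_UV.1 hp⟩⟩, rfl⟩

theorem continuous_upar : Continuous (upar G φ) := by
  refine continuous_sigma fun q => ?_
  exact (continuous_vpar (φ := φ) (G := G)).comp (continuous_sigmaMk (i := q) |>.comp
    continuous_subtype_val)

theorem isOpenMap_upar : IsOpenMap (upar G φ) := by
  rw [isOpenMap_sigma]
  intro q O hO
  have : (fun a : Col m => upar G φ ⟨q, a⟩) '' O = inB φ q.1 q.2 '' (Subtype.val '' O) := by
    rw [image_image]; rfl
  rw [this]
  exact isOpen_inB_image (isOpenMap_col O hO)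

theorem isOpenEmbedding_upar : IsOpenEmbedding (upar G φ) :=
  .of_continuous_injective_isOpenMap continuous_upar upar_injective isOpenMap_upar

variable (G φ) in
/-- the collar as a disjoint union of copies of `Col m` -/
noncomputable def uhom : (Σ _ : G × C, Col m) ≃ₜ UV G φ :=
  (isOpenEmbedding_upar (φ := φ) (G := G)).isEmbedding.toHomeomorph.trans
    (Homeomorph.setCongr range_upar)

@[simp] theorem uhom_coe (q : Σ _ : G × C, Col m) :
    (uhom G φ q : GAtt G φ) = inB φ q.1.1 q.1.2 q.2 := rfl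

theorem uhom_smul (g : G) (q : Σ _ : G × C, Col m) :
    (uhom G φ ⟨(g * q.1.1, q.1.2), q.2⟩ : GAtt G φ) = g • (uhom G φ q : GAtt G φ) := rfl

/-- the retraction on the collar -/
theorem rr_uhom (q : Σ _ : G × C, Col m) :
    rr G φ ⟨uhom G φ q, (uhom G φ q).2.1⟩ = q.1.1 • φ q.1.2 (colR m q.2) := by
  obtain ⟨⟨g, c⟩, x⟩ := q
  exact rr_inB g c x.1 x.2

end att

end Crest.Agent.R251.DR
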