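import Mathlib
import Crest.Prelude.Def_DeckCochains

/-!
R251 (helper711), block K3: assembly of S0388 from the block outputs.

`HV G E M n` is `DeckCohomologyVanishes` with an abstract group `G` acting on `E` in place of the deck group.
`skeleton` derives the statement S0388 from: the model (`Model`), vanishing of the equivariant
cohomology, the homology comparison (`hC0`) and the `Y`-side theorem (`hY`).
-/

set_option autoImplicit false

open CategoryTheory
open Crest.GeometryTopology.DeckCochains

namespace Crest.Agent.R251.Fin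

noncomputable section

/-! ### `G`-equivariant cochains -/

section HV
variable {G : Type} [Group G] {E : Type} [TopologicalSpace E] [MulAction G E] [ContinuousConstSMul G E]

/-- equivariant cochain for an abstract group action by homeomorphisms -/
def Eqv (G : Type) [Group G] {E : Type} [TopologicalSpace E] [MulAction G E] [ContinuousConstSMul G E]
    {M : Type} [AddCommGroup M] [DistribMulAction G M] {n : ℕ} (φ : SingSimplex E n → M) : Prop :=
  ∀ (g : G) (σ : SingSimplex E n), φ (simplexTranslate (Homeomorph.smul g) σ) = g • φ σ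

/-- every equivariant `(n+1)`-cocycle is the coboundary of an equivariant `n`-cochain -/
def HV (G : Type) [Group G] (E : Type) [TopologicalSpace E] [MulAction G E] [ContinuousConstSMul G E]
    (M : Type) [AddCommGroup M] [DistribMulAction G M] (n : ℕ) : Prop :=
  ∀ φ : SingSimplex E (n + 1) → M, Eqv G φ → cochainCobdry φ = 0 →
    ∃ ψ : SingSimplex E n → M, Eqv G ψ ∧ cochainCobdry ψ = φ

end HV

/-- the field `K` with `G` acting through the character `μ` -/
def Tw {G K : Type} [Group G] [Field K] (_μ : G →* Kˣ) : Type := K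

namespace Tw
variable {G K : Type} [Group G] [Field K] (μ : G →* Kˣ)
instance : AddCommGroup (Tw μ) := inferInstanceAs (AddCommGroup K)
/-- multiplication by a unit -/
def act (a : Kˣ) : K →+ K where
  toFun z := (a : K) * z
  map_zero' := by simp
  map_add' x y := by ring
instance : DistribMulAction G (Tw μ) where
  smul g := act (μ g)
  one_smul z := by
    show act (μ 1) _ = _
    rw [map_one]
    exact one_mul (M := K) _
  mul_smul g h z := by
    show act (μ (g * h)) _ = act (μ g) (act (μ h) _)
    rw [map_mul]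
    exact mul_assoc (G := K) _ _ _
  smul_zero g := (act (μ g)).map_zero
  smul_add g x y := (act (μ g)).map_add x y
end Tw

/-! ### the deck group -/

section deck
variable {G : Type} [Group G] {E : Type} [TopologicalSpace E] [MulAction G E] [ContinuousConstSMul G E]
  {X : Type} [TopologicalSpace X] (p : E → X)

/-- `G → deckGroup p` -/
def toDeck (hpG : ∀ (g : G) e, p (g • e) = p e) : G →* deckGroup p where
  toFun g := ⟨Homeomorph.smul g, fun e => hpG g e⟩
  map_one' := by
    apply Subtype.ext
    ext e
    exact one_smul G e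
  map_mul' g h := by
    apply Subtype.ext
    ext e
    exact mul_smul g h e

@[simp] theorem toDeck_coe (hpG : ∀ (g : G) e, p (g • e) = p e) (g : G) :
    ((toDeck p hpG g : deckGroup p) : E ≃ₜ E) = Homeomorph.smul g := rfl

theorem toDeck_injective [Nonempty E] (hpG : ∀ (g : G) e, p (g • e) = p e)
    (hfree : ∀ (g : G) (e : E), g • e = e → g = 1) : Function.Injective (toDeck p hpG) := by
  rw [injective_iff_map_eq_one]
  intro g hg
  obtain ⟨e⟩ := ‹Nonempty E›
  apply hfree g e
  have h1 := congrArg (fun f : deckGroup p => (f : E ≃ₜ E) e) hg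
  exact h1

theorem toDeck_surjective [Nonempty E] [PreconnectedSpace E] (hp : IsCoveringMap p)
    (hpG : ∀ (g : G) e, p (g • e) = p e)
    (hfib : ∀ e e' : E, p e = p e' → ∃ g : G, g • e = e') : Function.Surjective (toDeck p hpG) := by
  intro f
  obtain ⟨e⟩ := ‹Nonempty E›
  obtain ⟨g, hg⟩ := hfib e ((f : E ≃ₜ E) e) (f.2 e).symm
  refine ⟨g, ?_⟩
  apply Subtype.ext
  have h1 : ((Homeomorph.smul g : E ≃ₜ E) : E → E) = ((f : E ≃ₜ E) : E → E) := by
    apply hp.eq_of_comp_eq (Homeomorph.smul g : E ≃ₜ E).continuous (f : E ≃ₜ E).continuous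
    · funext x
      exact (hpG g x).trans (f.2 x).symm
    · exact hg
  ext x
  exact congrFun h1 x

/-- transfer of vanishing from `G` to the deck group -/
theorem deck_of_HV [Nonempty E] [PreconnectedSpace E] (hp : IsCoveringMap p)
    (hpG : ∀ (g : G) e, p (g • e) = p e)
    (hfib : ∀ e e' : E, p e = p e' → ∃ g : G, g • e = e') (n : ℕ)
    (h : ∀ (M : Type) [AddCommGroup M] [DistribMulAction G M], HV G E M n)
    (M : Type) [AddCommGroup M] [DistribMulAction (deckGroup p) M] : DeckCohomologyVanishes p M n := by
  let _ : DistribMulAction G M := DistribMulAction.compHom M (toDeck p hpG)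
  intro φ hφ hc
  obtain ⟨ψ, hψ, hd⟩ := h M φ (fun g σ => hφ (toDeck p hpG g) σ) hc
  refine ⟨ψ, fun f σ => ?_, hd⟩
  obtain ⟨g, rfl⟩ := toDeck_surjective p hp hpG hfib f
  exact hψ g σ

end deck

/-! ### the skeleton -/

open _root_.Topology in
/-- the statement of S0388 -/
def Statement : Prop :=
    ∃ (X : Type) (_ : TopologicalSpace X) (_ : T2Space X) (_ : ConnectedSpace X)
      (_ : Topology.CWComplex (Set.univ : Set X)),
      Topology.RelCWComplex.Finite (Set.univ : Set X) ∧
      (∀ m : ℕ, 3 < m → IsEmpty (Topology.RelCWComplex.cell (Set.univ : Set X) m)) ∧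
      (∃ (E : Type) (_ : TopologicalSpace E) (p : E → X),
        IsCoveringMap p ∧ Function.Surjective p ∧ SimplyConnectedSpace E ∧
        (∀ i : ℕ, 2 < i → CategoryTheory.Limits.IsZero
          (((AlgebraicTopology.singularHomologyFunctor (ModuleCat.{0} ℤ) i).obj
            (ModuleCat.of ℤ ℤ)).obj (TopCat.of E))) ∧
        (∀ (M : Type) [AddCommGroup M] [DistribMulAction (deckGroup p) M],
          DeckCohomologyVanishes p M 2) ∧
        Infinite (deckGroup p)) ∧
      ∀ (Y : Type) (_ : TopologicalSpace Y) (_ : T2Space Y)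
        (_ : Topology.CWComplex (Set.univ : Set Y)),
        Topology.RelCWComplex.Finite (Set.univ : Set Y) →
        (∀ m : ℕ, 2 < m → IsEmpty (Topology.RelCWComplex.cell (Set.univ : Set Y) m)) →
        IsEmpty (ContinuousMap.HomotopyEquiv X Y)

/-- covering data: `p : E → X` is the quotient covering of a free action of `G` on the simply connected `E` -/
structure Cov (G : Type) [Group G] (E : Type) [TopologicalSpace E] [MulAction G E]
    [ContinuousConstSMul G E] {X : Type} [TopologicalSpace X] (p : E → X) : Prop where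
  cov : IsCoveringMap p
  surj : Function.Surjective p
  sc : SimplyConnectedSpace E
  inv : ∀ (g : G) (e : E), p (g • e) = p e
  fib : ∀ e e' : E, p e = p e' → ∃ g : G, g • e = e'
  free : ∀ (g : G) (e : E), g • e = e → g = 1

/-- block C0 (473 / 443) -/
def C0 : Prop := ∀ (E X : Type) [TopologicalSpace E] [TopologicalSpace X] (p : E → X) (n : ℕ),
  (∀ (M : Type) [AddCommGroup M] [DistribMulAction (deckGroup p) M], DeckCohomologyVanishes p M n) →
    CategoryTheory.Limits.IsZero
      (((AlgebraicTopology.singularHomologyFunctor (ModuleCat.{0} ℤ) (n + 1)).obj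
        (ModuleCat.of ℤ ℤ)).obj (TopCat.of E))

/-- the `Y`-side theorem (770 Y4): a finite two-dimensional complex homotopy equivalent to `X` forces every
torsion element of `G` into the kernel of `μ`, as soon as `H²_G(E; K_μ) = 0`. -/
def YThm (K : Type) [Field K] : Prop :=
  ∀ (G : Type) [Group G] (E X : Type) [TopologicalSpace E] [TopologicalSpace X] [MulAction G E]
    [ContinuousConstSMul G E] (p : E → X), Cov G E p →
  ∀ (μ : G →* Kˣ), HV G E (Tw μ) 1 →
  ∀ (Y : Type) [TopologicalSpace Y] [T2Space Y] [Topology.CWComplex (Set.univ : Set Y)],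
    Topology.RelCWComplex.Finite (Set.univ : Set Y) →
    (∀ m : ℕ, 2 < m → IsEmpty (Topology.RelCWComplex.cell (Set.univ : Set Y) m)) →
    ContinuousMap.HomotopyEquiv X Y →
  ∀ (c : G) (n : ℕ), n ≠ 0 → c ^ n = 1 → μ c = 1

/-- the model (19, 796, 539): everything needed from the `X` side -/
structure Model (K : Type) [Field K] where
  G : Type
  [grp : Group G]
  inf : Infinite G
  E : Type
  [topE : TopologicalSpace E]
  [act : MulAction G E]
  [csm : ContinuousConstSMul G E]
  X : Type
  [topX : TopologicalSpace X]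
  t2 : T2Space X
  cw : Topology.CWComplex (Set.univ : Set X)
  fin : Topology.RelCWComplex.Finite (Set.univ : Set X)
  dim : ∀ m : ℕ, 3 < m → IsEmpty (Topology.RelCWComplex.cell (Set.univ : Set X) m)
  p : E → X
  cov : Cov G E p
  hv : ∀ n : ℕ, 2 ≤ n → ∀ (M : Type) [AddCommGroup M] [DistribMulAction G M], HV G E M n
  μ : G →* Kˣ
  hvμ : HV G E (Tw μ) 1
  c : G
  n : ℕ
  hn : n ≠ 0
  hc : c ^ n = 1
  hμ : μ c ≠ 1

attribute [instance] Model.grp Model.topE Model.act Model.csm Model.topX

theorem skeleton {K : Type} [Field K] (hC0 : C0) (hY : YThm K) (D : Model K) : Statement := by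
  have hsc := D.cov.sc
  have hpc : PathConnectedSpace D.E := inferInstance
  have hne : Nonempty D.E := inferInstance
  have hcon : ConnectedSpace D.X := D.cov.surj.connectedSpace D.cov.cov.continuous
  refine ⟨D.X, D.topX, D.t2, hcon, D.cw, D.fin, D.dim, ⟨D.E, D.topE, D.p, D.cov.cov, D.cov.surj, hsc, ?_, ?_, ?_⟩, ?_⟩
  · intro i hi
    obtain ⟨n, rfl⟩ : ∃ n, i = n + 1 := ⟨i - 1, by omega⟩
    exact hC0 D.E D.X D.p n (fun M _ _ =>
      deck_of_HV D.p D.cov.cov D.cov.inv D.cov.fib n (D.hv n (by omega)) M)
  · intro M _ _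
    exact deck_of_HV D.p D.cov.cov D.cov.inv D.cov.fib 2 (D.hv 2 le_rfl) M
  · have := D.inf
    exact Infinite.of_injective _ (toDeck_injective D.p D.cov.inv D.cov.free)
  · intro Y _ _ _ hfin hdim
    refine ⟨fun h => D.hμ ?_⟩
    exact hY D.G D.E D.X D.p D.cov D.μ D.hvμ Y hfin hdim h D.c D.n D.hn D.hc

end

end Crest.Agent.R251.Fin
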