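import Mathlib
import Crest.Prelude.Def_DeckCochains

-- ▼ part R251/C0_443
section

/-!
# Row 251, block C0: singular homology (Mathlib, integral) from equivariant cochains (helper443)

If for every module `M` over the deck group every equivariant `(n+1)`-cocycle on `E` is an
equivariant coboundary, then `H_{n+1}(E; ℤ) = 0`.  (Take `M = C_{n+1} / B_{n+1}`.)
-/

set_option autoImplicit false

open CategoryTheory AlgebraicTopology Simplicial Opposite
open Crest.GeometryTopology.DeckCochains

namespace Crest.Agent.R251.C0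

noncomputable section

/-- coefficients -/
abbrev ZZ : ModuleCat.{0} ℤ := ModuleCat.of ℤ ℤ

/-- the integral singular chain complex -/
abbrev SC (E : Type) [TopologicalSpace E] : ChainComplex (ModuleCat.{0} ℤ) ℕ :=
  ((singularChainComplexFunctor (ModuleCat.{0} ℤ)).obj ZZ).obj (TopCat.of E)

/-- chain groups -/
abbrev Ch (E : Type) [TopologicalSpace E] (n : ℕ) : Type := (SC E).X n

variable {E X : Type} [TopologicalSpace E] [TopologicalSpace X]

/-- generator of the chain group -/
def sgl {n : ℕ} (σ : SingSimplex E n) : Ch E n :=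
  (SSet.ιChainComplex (X := TopCat.toSSet.obj (TopCat.of E)) (R := ZZ) σ).hom (1 : ℤ)

/-- boundary -/
def bd (E : Type) [TopologicalSpace E] (n : ℕ) : Ch E (n + 1) →+ Ch E n :=
  ((SC E).d (n + 1) n).hom.toAddMonoidHom

theorem bd_sgl {n : ℕ} (σ : SingSimplex E (n + 1)) :
    bd E n (sgl σ) = ∑ i : Fin (n + 2), (-1 : ℤ) ^ (i : ℕ) • sgl (simplexFace i σ) := by
  have h := SSet.ιChainComplex_d (X := TopCat.toSSet.obj (TopCat.of E)) (R := ZZ) σ
  have h2 := congrArg (fun φ => φ.hom (1 : ℤ)) h
  simp only [ModuleCat.hom_comp, LinearMap.comp_apply, ModuleCat.hom_sum, LinearMap.sum_apply,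
    ModuleCat.hom_zsmul] at h2
  refine Eq.trans h2 ?_
  apply Finset.sum_congr rfl
  intro i _
  rfl

/-- additive maps out of the chain group -/
def liftC {n : ℕ} {V : Type} [AddCommGroup V] (φ : SingSimplex E n → V) : Ch E n →+ V :=
  ((TopCat.toSSet.obj (TopCat.of E)).isColimitChainComplexXCofan ZZ n |>.desc
    (Limits.Cofan.mk (ModuleCat.of ℤ V) fun x => ModuleCat.ofHom
      (LinearMap.toSpanSingleton ℤ V (φ x)))).hom.toAddMonoidHom

theorem liftC_sgl {n : ℕ} {V : Type} [AddCommGroup V] (φ : SingSimplex E n → V)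
    (σ : SingSimplex E n) : liftC φ (sgl σ) = φ σ := by
  have h := ((TopCat.toSSet.obj (TopCat.of E)).isColimitChainComplexXCofan ZZ n).fac
    (Limits.Cofan.mk (ModuleCat.of ℤ V) fun x => ModuleCat.ofHom
      (LinearMap.toSpanSingleton ℤ V (φ x))) ⟨σ⟩
  have h2 := congrArg (fun φ => φ.hom (1 : ℤ)) h
  refine (Eq.trans h2 ?_)
  exact one_smul ℤ (φ σ)

theorem chain_ext {n : ℕ} {V : Type} [AddCommGroup V]
    (φ ψ : Ch E n →+ V) (h : ∀ σ : SingSimplex E n, φ (sgl σ) = ψ (sgl σ)) : φ = ψ := by
  let L : (Ch E n →+ V) → ((SC E).X n →ₗ[ℤ] V) := fun φ =>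
    { toFun := φ
      map_add' := φ.map_add
      map_smul' := fun m x => by
        rw [RingHom.id_apply, ← map_zsmul φ m x]
        exact congrArg φ (int_smul_eq_zsmul _ m x) }
  have h1 : (ModuleCat.ofHom (L φ) : (SC E).X n ⟶ ModuleCat.of ℤ V) = ModuleCat.ofHom (L ψ) := by
    apply SSet.chainComplex_hom_ext (X := TopCat.toSSet.obj (TopCat.of E)) (R := ZZ)
    intro x
    ext
    exact h x
  have h2 : L φ = L ψ := congrArg (fun φ => φ.hom) h1
  ext x
  exact LinearMap.congr_fun h2 x

/-- exactness at `n + 1`, elementwise, gives vanishing of the homology functor -/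
theorem isZero_of_exact (n : ℕ) (h : ∀ x : Ch E (n + 1), bd E n x = 0 → ∃ y, bd E (n + 1) y = x) :
    Limits.IsZero (((singularHomologyFunctor (ModuleCat.{0} ℤ) (n + 1)).obj
      (ModuleCat.of ℤ ℤ)).obj (TopCat.of E)) := by
  change Limits.IsZero ((SC E).homology (n + 1))
  rw [← HomologicalComplex.exactAt_iff_isZero_homology,
    HomologicalComplex.exactAt_iff' (SC E) (n + 2) (n + 1) n (by simp) (by simp)]
  rw [ShortComplex.moduleCat_exact_iff]
  intro x hx
  exact h x hx

/-- the group of boundaries -/
abbrev B (E : Type) [TopologicalSpace E] (n : ℕ) : AddSubgroup (Ch E n) := (bd E n).range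

/-- chains modulo boundaries -/
abbrev CB (E : Type) [TopologicalSpace E] (n : ℕ) : Type := Ch E n ⧸ B E n

/-- the quotient map -/
def mkB (E : Type) [TopologicalSpace E] (n : ℕ) : Ch E n →+ CB E n := QuotientAddGroup.mk' (B E n)

theorem mkB_eq_zero {n : ℕ} (x : Ch E n) : mkB E n x = 0 ↔ ∃ y, bd E n y = x := by
  unfold mkB
  rw [QuotientAddGroup.mk'_apply, QuotientAddGroup.eq_zero_iff]
  rfl

/-- the universal cochain -/
def univ (E : Type) [TopologicalSpace E] (n : ℕ) (σ : SingSimplex E n) : CB E n :=
  mkB E n (sgl σ)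

theorem univ_cobdry (n : ℕ) : cochainCobdry (univ E n) = 0 := by
  funext σ
  have h : mkB E n (bd E n (sgl σ)) = 0 := (mkB_eq_zero _).2 ⟨_, rfl⟩
  rw [bd_sgl, map_sum] at h
  simp only [map_zsmul] at h
  exact h

/-- raw form of C0 -/
theorem isZero_of_cochain (n : ℕ)
    (h : ∃ ψ : SingSimplex E n → CB E (n + 1), cochainCobdry ψ = univ E (n + 1)) :
    Limits.IsZero (((singularHomologyFunctor (ModuleCat.{0} ℤ) (n + 1)).obj
      (ModuleCat.of ℤ ℤ)).obj (TopCat.of E)) := by
  obtain ⟨ψ, hψ⟩ := h
  apply isZero_of_exact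
  intro x hx
  have h1 : (liftC ψ).comp (bd E n) = mkB E (n + 1) := by
    apply chain_ext
    intro σ
    rw [AddMonoidHom.comp_apply, bd_sgl, map_sum]
    simp only [map_zsmul, liftC_sgl]
    exact congrFun hψ σ
  rw [← mkB_eq_zero, ← h1, AddMonoidHom.comp_apply, hx, map_zero]

/-- pushing forward chains by a homeomorphism -/
def push (g : E ≃ₜ E) (n : ℕ) : Ch E n →+ Ch E n :=
  liftC fun σ => sgl (simplexTranslate g σ)

theorem push_sgl {n : ℕ} (g : E ≃ₜ E) (σ : SingSimplex E n) :
    push g n (sgl σ) = sgl (simplexTranslate g σ) := liftC_sgl _ _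

theorem face_translate {n : ℕ} (g : E ≃ₜ E) (i : Fin (n + 2)) (σ : SingSimplex E (n + 1)) :
    simplexFace i (simplexTranslate g σ) = simplexTranslate g (simplexFace i σ) := rfl

theorem translate_one {n : ℕ} (σ : SingSimplex E n) : simplexTranslate (1 : E ≃ₜ E) σ = σ := rfl

theorem translate_mul {n : ℕ} (g h : E ≃ₜ E) (σ : SingSimplex E n) :
    simplexTranslate (g * h) σ = simplexTranslate g (simplexTranslate h σ) := rfl

theorem push_one (n : ℕ) : push (1 : E ≃ₜ E) n = AddMonoidHom.id _ := by
  apply chain_ext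
  intro σ
  rw [push_sgl, translate_one, AddMonoidHom.id_apply]

theorem push_mul (g h : E ≃ₜ E) (n : ℕ) : push (g * h) n = (push g n).comp (push h n) := by
  apply chain_ext
  intro σ
  rw [push_sgl, translate_mul, AddMonoidHom.comp_apply, push_sgl, push_sgl]

theorem bd_push {n : ℕ} (g : E ≃ₜ E) (x : Ch E (n + 1)) :
    bd E n (push g (n + 1) x) = push g n (bd E n x) := by
  have h : (bd E n).comp (push g (n + 1)) = (push g n).comp (bd E n) := by
    apply chain_ext
    intro σ
    rw [AddMonoidHom.comp_apply, AddMonoidHom.comp_apply, push_sgl, bd_sgl, bd_sgl, map_sum]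
    simp only [map_zsmul, push_sgl, face_translate]
  exact DFunLike.congr_fun h x

theorem B_le (g : E ≃ₜ E) (n : ℕ) : B E n ≤ (B E n).comap (push g n) := by
  rintro _ ⟨y, rfl⟩
  exact ⟨push g (n + 1) y, bd_push g y⟩

/-- the action on the quotient -/
def qpush (g : E ≃ₜ E) (n : ℕ) : CB E n →+ CB E n :=
  QuotientAddGroup.map _ _ (push g n) (B_le g n)

theorem qpush_mk (g : E ≃ₜ E) (n : ℕ) (x : Ch E n) :
    qpush g n (mkB E n x) = mkB E n (push g n x) := rfl

theorem qpush_one (n : ℕ) (x : CB E n) : qpush (1 : E ≃ₜ E) n x = x := by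
  obtain ⟨x, rfl⟩ := QuotientAddGroup.mk'_surjective _ x
  change qpush (1 : E ≃ₜ E) n (mkB E n x) = mkB E n x
  rw [qpush_mk, push_one, AddMonoidHom.id_apply]

theorem qpush_mul (g h : E ≃ₜ E) (n : ℕ) (x : CB E n) :
    qpush (g * h) n x = qpush g n (qpush h n x) := by
  obtain ⟨x, rfl⟩ := QuotientAddGroup.mk'_surjective _ x
  change qpush (g * h) n (mkB E n x) = qpush g n (qpush h n (mkB E n x))
  rw [qpush_mk, qpush_mk, qpush_mk, push_mul, AddMonoidHom.comp_apply]

/-- the deck group acts on `C_n / B_n` -/
@[reducible] def qAct (G : Subgroup (E ≃ₜ E)) (n : ℕ) : DistribMulAction G (CB E n) where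
  smul g x := qpush (g : E ≃ₜ E) n x
  one_smul x := qpush_one n x
  mul_smul g h x := qpush_mul (g : E ≃ₜ E) (h : E ≃ₜ E) n x
  smul_zero g := map_zero (qpush (g : E ≃ₜ E) n)
  smul_add g x y := map_add (qpush (g : E ≃ₜ E) n) x y

/-- **C0.** Vanishing of the equivariant cochain cohomology in degree `n + 1` with all coefficient
modules gives vanishing of the integral singular homology of `E` in degree `n + 1`. -/
theorem isZero_of_deckVanishes (p : E → X) (n : ℕ)
    (h : ∀ (M : Type) [AddCommGroup M] [DistribMulAction (deckGroup p) M],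
      DeckCohomologyVanishes p M n) :
    Limits.IsZero (((singularHomologyFunctor (ModuleCat.{0} ℤ) (n + 1)).obj
      (ModuleCat.of ℤ ℤ)).obj (TopCat.of E)) := by
  let _ := qAct (deckGroup p) (E := E) (n + 1)
  obtain ⟨ψ, -, hψ⟩ := h (CB E (n + 1)) (univ E (n + 1))
    (fun g σ => by
      change _ = qpush (g : E ≃ₜ E) (n + 1) (mkB E (n + 1) (sgl σ))
      rw [qpush_mk, push_sgl]
      rfl) (univ_cobdry (n + 1))
  exact isZero_of_cochain n ⟨ψ, hψ⟩


end

end Crest.Agent.R251.C0
end

-- ▼ part R251/PB509
section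

/-!
# R251, block PB (helper509): the pull-back cover and its homotopy invariance

Setting: `hp : IsQuotientCoveringMap p G` (Mathlib), `p : E → X`, `h : C(Y, X)`.
`PBk hp h = {(y, e) | h y = p e}` with `G` acting on the second factor; `PBk.q : C(PBk hp h, Y)`
is again a quotient covering map for `G`; for a homotopy equivalence `h` the projection
`PBk.F : C(PBk hp h, E)` is an "equivariant homotopy equivalence up to an equivariant
homeomorphism `T`".
-/

set_option autoImplicit false

namespace Crest.Agent.R251.PB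

open Topology unitInterval Function

section General

variable {G : Type*} [Group G]

/-- An equivariant continuous self-map of a quotient covering over the identity of the base is a
homeomorphism. -/
theorem bijective_of_equivariant {Z Y : Type*} [TopologicalSpace Z] [TopologicalSpace Y]
    [MulAction G Z] {q : Z → Y} (hq : IsQuotientCoveringMap q G) (T : Z → Z)
    (hqT : ∀ z, q (T z) = q z) (hT : ∀ (g : G) z, T (g • z) = g • T z) : Bijective T := by
  constructor
  · intro z z' hz
    have h1 : q z = q z' := by rw [← hqT z, ← hqT z', hz]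
    obtain ⟨g, rfl⟩ := hq.apply_eq_iff_mem_orbit.mp h1
    have h2 : g • T z' = T z' := by
      have := hz
      simp only [hT] at this
      exact this
    have hc := hq.isCancelSMul
    have h3 : g = 1 := IsCancelSMul.right_cancel g 1 (T z') (by rw [h2, one_smul])
    simp [h3]
  · intro z
    obtain ⟨g, hg⟩ := hq.apply_eq_iff_mem_orbit.mp (hqT z)
    refine ⟨g⁻¹ • z, ?_⟩
    rw [hT, ← hg]
    simp

theorem isLocalHomeomorph_of_over {Z Y : Type*} [TopologicalSpace Z] [TopologicalSpace Y]
    {q : Z → Y} (hq : IsLocalHomeomorph q) (T : C(Z, Z)) (hqT : ∀ z, q (T z) = q z) :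
    IsLocalHomeomorph T := by
  refine IsLocalHomeomorph.of_comp ?_ hq T.continuous
  have : q ∘ T = q := funext hqT
  rw [this]
  exact hq

/-- The homeomorphism. -/
noncomputable def homeoOfEquivariant {Z Y : Type*} [TopologicalSpace Z] [TopologicalSpace Y]
    [MulAction G Z] {q : Z → Y} (hq : IsQuotientCoveringMap q G) (T : C(Z, Z))
    (hqT : ∀ z, q (T z) = q z) (hT : ∀ (g : G) z, T (g • z) = g • T z) : Z ≃ₜ Z :=
  (isLocalHomeomorph_of_over hq.isCoveringMap.isLocalHomeomorph T hqT).toHomeomorphOfBijective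
    (bijective_of_equivariant hq T hqT hT)

@[simp] theorem homeoOfEquivariant_apply {Z Y : Type*} [TopologicalSpace Z] [TopologicalSpace Y]
    [MulAction G Z] {q : Z → Y} (hq : IsQuotientCoveringMap q G) (T : C(Z, Z))
    (hqT : ∀ z, q (T z) = q z) (hT : ∀ (g : G) z, T (g • z) = g • T z) (z : Z) :
    homeoOfEquivariant hq T hqT hT z = T z := rfl

/-- Lifts of homotopies that are "equivariant downstairs" are equivariant. -/
theorem liftHomotopy_equivariant {E X A : Type*} [TopologicalSpace E] [TopologicalSpace X]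
    [TopologicalSpace A] [MulAction G E] [MulAction G A] [ContinuousConstSMul G A] {p : E → X}
    (hp : IsQuotientCoveringMap p G) (H : C(I × A, X)) (f : C(A, E))
    (H_0 : ∀ a, H (0, a) = p (f a)) (hH : ∀ (g : G) (t : I) (a : A), H (t, g • a) = H (t, a))
    (hf : ∀ (g : G) (a : A), f (g • a) = g • f a) (g : G) (t : I) (a : A) :
    hp.isCoveringMap.liftHomotopy H f H_0 (t, g • a) =
      g • hp.isCoveringMap.liftHomotopy H f H_0 (t, a) := by
  have := hp.toContinuousConstSMul
  let L := hp.isCoveringMap.liftHomotopy H f H_0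
  let L' : C(I × A, E) :=
    ⟨fun ta => g⁻¹ • L (ta.1, g • ta.2), by
      refine (L.continuous.comp ?_).const_smul g⁻¹
      exact continuous_fst.prodMk (continuous_snd.const_smul g)⟩
  have hL : L' = L := by
    rw [hp.isCoveringMap.eq_liftHomotopy_iff']
    constructor
    · funext ta
      obtain ⟨s, b⟩ := ta
      have h1 : p (L (s, g • b)) = H (s, g • b) :=
        congr_fun (hp.isCoveringMap.liftHomotopy_lifts H f H_0) (s, g • b)
      change p (g⁻¹ • L (s, g • b)) = H (s, b)
      rw [hp.map_smul, h1, hH]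
    · intro b
      change g⁻¹ • L (0, g • b) = f b
      have h2 : L (0, g • b) = f (g • b) := hp.isCoveringMap.liftHomotopy_zero H f H_0 (g • b)
      rw [h2, hf, inv_smul_smul]
  have h3 : L' (t, a) = L (t, a) := by rw [hL]
  have h4 : L' (t, a) = g⁻¹ • L (t, g • a) := rfl
  rw [h4] at h3
  change L (t, g • a) = g • L (t, a)
  rw [← h3, smul_inv_smul]

end General

section Pullback

variable {G E X Y : Type*} [Group G] [TopologicalSpace E] [TopologicalSpace X]
  [TopologicalSpace Y] [MulAction G E] {p : E → X}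

/-- The pull-back of the covering `p : E → X` along `h : Y → X`. -/
@[ext] structure PBk (hp : IsQuotientCoveringMap p G) (h : C(Y, X)) where
  /-- the point of `Y` -/
  fst : Y
  /-- the point of `E` -/
  snd : E
  /-- compatibility -/
  prop : h fst = p snd

namespace PBk

variable {hp : IsQuotientCoveringMap p G} {h : C(Y, X)}

/-- The embedding in the product. -/
def toProd (z : PBk hp h) : Y × E := (z.fst, z.snd)

instance : TopologicalSpace (PBk hp h) := .induced toProd inferInstance

theorem isInducing_toProd : IsInducing (toProd : PBk hp h → Y × E) := ⟨rfl⟩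



theorem continuous_toProd : Continuous (toProd : PBk hp h → Y × E) :=
  isInducing_toProd.continuous

instance : MulAction G (PBk hp h) where
  smul g z := ⟨z.fst, g • z.snd, by rw [hp.map_smul]; exact z.prop⟩
  one_smul z := PBk.ext rfl (one_smul G z.snd)
  mul_smul g g' z := PBk.ext rfl (mul_smul g g' z.snd)

@[simp] theorem smul_fst (g : G) (z : PBk hp h) : (g • z).fst = z.fst := rfl
@[simp] theorem smul_snd (g : G) (z : PBk hp h) : (g • z).snd = g • z.snd := rfl

variable (hp h) in
/-- The projection to the base. -/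
def q : C(PBk hp h, Y) := ⟨PBk.fst, continuous_fst.comp continuous_toProd⟩

variable (hp h) in
/-- The projection to the total space `E`. -/
def F : C(PBk hp h, E) := ⟨PBk.snd, continuous_snd.comp continuous_toProd⟩

@[simp] theorem q_apply (z : PBk hp h) : q hp h z = z.fst := rfl
@[simp] theorem F_apply (z : PBk hp h) : F hp h z = z.snd := rfl

theorem F_smul (g : G) (z : PBk hp h) : F hp h (g • z) = g • F hp h z := rfl


/-- Continuity of maps into the pull-back. -/
theorem continuous_mk {A : Type*} [TopologicalSpace A] {a : A → Y} {b : A → E}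
    (ha : Continuous a) (hb : Continuous b) (hab : ∀ x, h (a x) = p (b x)) :
    Continuous (fun x => (⟨a x, b x, hab x⟩ : PBk hp h)) := by
  rw [isInducing_toProd.continuous_iff]
  exact ha.prodMk hb

instance : ContinuousConstSMul G (PBk hp h) where
  continuous_const_smul g := by
    have := hp.toContinuousConstSMul
    exact continuous_mk (q hp h).continuous ((F hp h).continuous.const_smul g) _

theorem q_surjective : Surjective (q hp h) := by
  intro y
  obtain ⟨e, he⟩ := hp.surjective (h y)
  exact ⟨⟨y, e, he.symm⟩, rfl⟩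

theorem isOpenMap_q : IsOpenMap (q hp h) := by
  rw [isOpenMap_iff_nhds_le]
  intro z s hs
  rw [Filter.mem_map, isInducing_toProd.nhds_eq_comap, Filter.mem_comap] at hs
  obtain ⟨t, ht, hts⟩ := hs
  rw [nhds_prod_eq, Filter.mem_prod_iff] at ht
  obtain ⟨A, hA, B, hB, hAB⟩ := ht
  have h2 : p '' B ∈ 𝓝 (p z.snd) := hp.isCoveringMap.isOpenMap.image_mem_nhds hB
  have h3 : h ⁻¹' (p '' B) ∈ 𝓝 z.fst := by
    apply h.continuous.continuousAt.preimage_mem_nhds
    rw [z.prop]
    exact h2
  change s ∈ 𝓝 z.fst
  filter_upwards [hA, h3] with y hyA hyB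
  obtain ⟨e, heB, he⟩ := hyB
  have h4 : (⟨y, e, he.symm⟩ : PBk hp h) ∈ toProd ⁻¹' t := hAB ⟨hyA, heB⟩
  exact hts h4

/-- (P1) the pull-back of a quotient covering map is a quotient covering map. -/
theorem isQuotientCoveringMap_q : IsQuotientCoveringMap (q hp h) G where
  toIsQuotientMap := isOpenMap_q.isQuotientMap (q hp h).continuous q_surjective
  toContinuousConstSMul := inferInstance
  apply_eq_iff_mem_orbit := by
    intro z w
    constructor
    · intro hzw
      have hzw' : z.fst = w.fst := hzw
      have h1 : p z.snd = p w.snd := by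
        rw [← z.prop, ← w.prop, hzw']
      obtain ⟨g, hg⟩ := hp.apply_eq_iff_mem_orbit.mp h1
      exact ⟨g, PBk.ext hzw'.symm hg⟩
    · rintro ⟨g, rfl⟩
      rfl
  disjoint z := by
    obtain ⟨U, hU, hd⟩ := hp.disjoint z.snd
    refine ⟨F hp h ⁻¹' U, (F hp h).continuous.continuousAt.preimage_mem_nhds hU, fun g hg => ?_⟩
    obtain ⟨w, ⟨v, hv, rfl⟩, hw⟩ := hg
    exact hd g ⟨g • v.snd, ⟨v.snd, hv, rfl⟩, hw⟩


end PBk

/-! ## (P2) homotopy invariance -/

namespace PBk

variable (hp : IsQuotientCoveringMap p G) (h : C(Y, X)) (k : C(X, Y))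
  (R : ContinuousMap.Homotopy (ContinuousMap.id X) (h.comp k))
  (L : ContinuousMap.Homotopy (k.comp h) (ContinuousMap.id Y))

/-- The homotopy `R ∘ (id × p) : I × E → X`. -/
def HR : C(I × E, X) :=
  R.toContinuousMap.comp ((ContinuousMap.id I).prodMap ⟨p, hp.continuous⟩)

theorem HR_apply (t : I) (e : E) : HR hp h k R (t, e) = R (t, p e) := rfl

theorem HR_zero (e : E) : HR hp h k R (0, e) = p (ContinuousMap.id E e) := by
  rw [HR_apply, R.apply_zero]
  rfl

/-- The lift of `HR` starting at the identity of `E`. -/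
noncomputable def LR : C(I × E, E) :=
  hp.isCoveringMap.liftHomotopy (HR hp h k R) (ContinuousMap.id E) (HR_zero hp h k R)

theorem p_LR (t : I) (e : E) : p (LR hp h k R (t, e)) = R (t, p e) :=
  congr_fun (hp.isCoveringMap.liftHomotopy_lifts _ _ (HR_zero hp h k R)) (t, e)

theorem LR_zero (e : E) : LR hp h k R (0, e) = e :=
  hp.isCoveringMap.liftHomotopy_zero _ _ (HR_zero hp h k R) e

theorem LR_smul (g : G) (t : I) (e : E) : LR hp h k R (t, g • e) = g • LR hp h k R (t, e) := by
  have := hp.toContinuousConstSMul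
  refine liftHomotopy_equivariant hp _ _ (HR_zero hp h k R) ?_ ?_ g t e
  · intro g t a
    rw [HR_apply, HR_apply, hp.map_smul]
  · intro g a
    rfl

/-- The equivariant map `E → Yt`. -/
noncomputable def K : C(E, PBk hp h) :=
  ⟨fun e => ⟨k (p e), LR hp h k R (1, e), by
    rw [p_LR hp h k R, R.apply_one]; rfl⟩, by
      refine continuous_mk ?_ ?_ _
      · exact k.continuous.comp hp.continuous
      · exact (LR hp h k R).continuous.comp (Continuous.prodMk_right 1)⟩

theorem K_fst (e : E) : (K hp h k R e).fst = k (p e) := rfl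
theorem K_snd (e : E) : (K hp h k R e).snd = LR hp h k R (1, e) := rfl

theorem K_smul (g : G) (e : E) : K hp h k R (g • e) = g • K hp h k R e :=
  PBk.ext (by rw [K_fst, smul_fst, K_fst, hp.map_smul])
    (by rw [K_snd, smul_snd, K_snd, LR_smul])


/-- The homotopy `h ∘ L ∘ (id × q) : I × Yt → X`. -/
def HL : C(I × PBk hp h, X) :=
  h.comp (L.toContinuousMap.comp ((ContinuousMap.id I).prodMap (q hp h)))

theorem HL_apply (t : I) (z : PBk hp h) : HL hp h k L (t, z) = h (L (t, z.fst)) := rfl

/-- The starting point of the lift. -/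
noncomputable def L0 : C(PBk hp h, E) :=
  ⟨fun z => LR hp h k R (1, z.snd),
    (LR hp h k R).continuous.comp (continuous_const.prodMk (F hp h).continuous)⟩

theorem HL_zero (z : PBk hp h) : HL hp h k L (0, z) = p (L0 hp h k R z) := by
  have h1 : p (L0 hp h k R z) = R (1, p z.snd) := p_LR hp h k R 1 z.snd
  rw [HL_apply, L.apply_zero, h1, R.apply_one, ← z.prop]
  rfl

/-- The lift of `HL`. -/
noncomputable def LL : C(I × PBk hp h, E) :=
  hp.isCoveringMap.liftHomotopy (HL hp h k L) (L0 hp h k R) (HL_zero hp h k R L)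

theorem p_LL (t : I) (z : PBk hp h) : p (LL hp h k R L (t, z)) = h (L (t, z.fst)) :=
  congr_fun (hp.isCoveringMap.liftHomotopy_lifts _ _ (HL_zero hp h k R L)) (t, z)

theorem LL_zero (z : PBk hp h) : LL hp h k R L (0, z) = LR hp h k R (1, z.snd) :=
  hp.isCoveringMap.liftHomotopy_zero _ _ (HL_zero hp h k R L) z

theorem LL_smul (g : G) (t : I) (z : PBk hp h) :
    LL hp h k R L (t, g • z) = g • LL hp h k R L (t, z) := by
  refine liftHomotopy_equivariant hp _ _ (HL_zero hp h k R L) ?_ ?_ g t z
  · intro g t a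
    rfl
  · intro g a
    exact LR_smul hp h k R g 1 a.snd

/-- The equivariant homotopy on `Yt` from `K ∘ F` to `T`. -/
noncomputable def HT : C(I × PBk hp h, PBk hp h) :=
  ⟨fun tz => ⟨L (tz.1, tz.2.fst), LL hp h k R L tz, (p_LL hp h k R L tz.1 tz.2).symm⟩, by
    refine continuous_mk ?_ (LL hp h k R L).continuous _
    exact L.continuous.comp (continuous_fst.prodMk ((q hp h).continuous.comp continuous_snd))⟩

theorem HT_fst (t : I) (z : PBk hp h) : (HT hp h k R L (t, z)).fst = L (t, z.fst) := rfl
theorem HT_snd (t : I) (z : PBk hp h) : (HT hp h k R L (t, z)).snd = LL hp h k R L (t, z) := rfl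

theorem HT_smul (g : G) (t : I) (z : PBk hp h) :
    HT hp h k R L (t, g • z) = g • HT hp h k R L (t, z) :=
  PBk.ext (by rw [smul_fst, HT_fst, HT_fst, smul_fst])
    (by rw [smul_snd, HT_snd, HT_snd, LL_smul])

theorem HT_zero (z : PBk hp h) : HT hp h k R L (0, z) = K hp h k R (F hp h z) := by
  refine PBk.ext ?_ ?_
  · rw [HT_fst, L.apply_zero, K_fst, F_apply, ← z.prop]
    rfl
  · rw [HT_snd, LL_zero, K_snd, F_apply]

/-- The map `T`, over the identity of `Y`. -/
noncomputable def T : C(PBk hp h, PBk hp h) :=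
  ⟨fun z => HT hp h k R L (1, z),
    (HT hp h k R L).continuous.comp (Continuous.prodMk_right 1)⟩

theorem HT_one (z : PBk hp h) : HT hp h k R L (1, z) = T hp h k R L z := rfl

theorem q_T (z : PBk hp h) : q hp h (T hp h k R L z) = q hp h z := by
  change (HT hp h k R L (1, z)).fst = z.fst
  rw [HT_fst, L.apply_one]
  rfl

theorem T_smul (g : G) (z : PBk hp h) : T hp h k R L (g • z) = g • T hp h k R L z :=
  HT_smul hp h k R L g 1 z

/-- `T` as an equivariant homeomorphism. -/
noncomputable def Th : PBk hp h ≃ₜ PBk hp h :=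
  homeoOfEquivariant isQuotientCoveringMap_q (T hp h k R L) (q_T hp h k R L)
    (fun g z => T_smul hp h k R L g z)

@[simp] theorem Th_apply (z : PBk hp h) : Th hp h k R L z = T hp h k R L z := rfl

theorem Th_smul (g : G) (z : PBk hp h) : Th hp h k R L (g • z) = g • Th hp h k R L z :=
  T_smul hp h k R L g z

theorem Th_symm_smul (g : G) (z : PBk hp h) :
    (Th hp h k R L).symm (g • z) = g • (Th hp h k R L).symm z := by
  apply (Th hp h k R L).injective
  rw [Homeomorph.apply_symm_apply, Th_smul, Homeomorph.apply_symm_apply]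

/-! ## Homotopy statements in Mathlib's form -/

theorem homotopic_FK :
    ContinuousMap.Homotopic (ContinuousMap.id E) ((F hp h).comp (K hp h k R)) :=
  ⟨{ toContinuousMap := LR hp h k R
     map_zero_left := fun e => LR_zero hp h k R e
     map_one_left := fun _ => rfl }⟩

include L in
theorem homotopic_KF :
    ContinuousMap.Homotopic ((K hp h k R).comp (F hp h)) (T hp h k R L) :=
  ⟨{ toContinuousMap := HT hp h k R L
     map_zero_left := fun z => HT_zero hp h k R L z
     map_one_left := fun _ => rfl }⟩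

/-- The homotopy equivalence `E ≃ₕ Yt`. -/
noncomputable def homotopyEquiv : ContinuousMap.HomotopyEquiv E (PBk hp h) where
  toFun := K hp h k R
  invFun := (F hp h).comp ((Th hp h k R L).symm : C(PBk hp h, PBk hp h))
  left_inv := by
    have h1 := homotopic_FK hp h k R
    have h2 := homotopic_KF hp h k R L
    set Ti : C(PBk hp h, PBk hp h) := ((Th hp h k R L).symm : C(PBk hp h, PBk hp h)) with hTi
    have hTT : Ti.comp (T hp h k R L) = ContinuousMap.id _ := by
      ext1 z
      exact (Th hp h k R L).symm_apply_apply z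
    -- F Ti K ~ F Ti K (F K)
    have a1 : ContinuousMap.Homotopic (((F hp h).comp Ti).comp (K hp h k R))
        ((((F hp h).comp Ti).comp (K hp h k R)).comp ((F hp h).comp (K hp h k R))) := by
      have := ContinuousMap.Homotopic.comp
        (ContinuousMap.Homotopic.refl (((F hp h).comp Ti).comp (K hp h k R))) h1
      rwa [ContinuousMap.comp_id] at this
    have a2 : ((((F hp h).comp Ti).comp (K hp h k R)).comp ((F hp h).comp (K hp h k R))) =
        (((F hp h).comp Ti).comp ((K hp h k R).comp (F hp h))).comp (K hp h k R) := by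
      ext1 z; rfl
    have a3 : ContinuousMap.Homotopic
        ((((F hp h).comp Ti).comp ((K hp h k R).comp (F hp h))).comp (K hp h k R))
        ((((F hp h).comp Ti).comp (T hp h k R L)).comp (K hp h k R)) :=
      ContinuousMap.Homotopic.comp (ContinuousMap.Homotopic.comp
        (ContinuousMap.Homotopic.refl _) h2) (ContinuousMap.Homotopic.refl _)
    have a4 : ((((F hp h).comp Ti).comp (T hp h k R L)).comp (K hp h k R)) =
        (F hp h).comp (K hp h k R) := by
      rw [ContinuousMap.comp_assoc (F hp h), hTT, ContinuousMap.comp_id]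
    rw [a2] at a1
    rw [a4] at a3
    exact (a1.trans a3).trans h1.symm
  right_inv := by
    have h2 := homotopic_KF hp h k R L
    set Ti : C(PBk hp h, PBk hp h) := ((Th hp h k R L).symm : C(PBk hp h, PBk hp h)) with hTi
    have hTT : (T hp h k R L).comp Ti = ContinuousMap.id _ := by
      ext1 z
      exact (Th hp h k R L).apply_symm_apply z
    have a1 : ContinuousMap.Homotopic (((K hp h k R).comp (F hp h)).comp Ti)
        ((T hp h k R L).comp Ti) :=
      ContinuousMap.Homotopic.comp h2 (ContinuousMap.Homotopic.refl _)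
    rw [hTT] at a1
    exact a1

include k R L in
/-- The pull-back cover is simply connected when `E` is. -/
theorem simplyConnectedSpace [SimplyConnectedSpace E] : SimplyConnectedSpace (PBk hp h) :=
  (homotopyEquiv hp h k R L).symm.simplyConnectedSpace

end PBk

end Pullback

end Crest.Agent.R251.PB
end

-- ▼ part R251/PBDeck509

/-!
# R251, block PB, part P4 (helper509): the deck group of a quotient covering map

For a quotient covering map `p : E → X` with group `G` and `E` connected, `deckGroup p ≃* G`,
and `DeckCohomologyVanishes p M n` follows from the `G`-form `HV G E n M`.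
-/

set_option autoImplicit false

namespace Crest.Agent.R251.PBD

open Crest.GeometryTopology.DeckCochains Function

/-- `G`-equivariance of a cochain (raw form). -/
def GEq (G : Type*) {E : Type*} [Group G] [TopologicalSpace E] [MulAction G E]
    [ContinuousConstSMul G E] {M : Type*} [AddCommGroup M] [DistribMulAction G M] {n : ℕ}
    (φ : SingSimplex E n → M) : Prop :=
  ∀ (g : G) (σ : SingSimplex E n), φ (simplexTranslate (Homeomorph.smul g) σ) = g • φ σ

/-- Vanishing of the equivariant cohomology in degree `n + 1`. -/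
def HV (G E : Type*) [Group G] [TopologicalSpace E] [MulAction G E] [ContinuousConstSMul G E]
    (M : Type*) [AddCommGroup M] [DistribMulAction G M] (n : ℕ) : Prop :=
  ∀ φ : SingSimplex E (n + 1) → M, GEq G φ → cochainCobdry φ = 0 →
    ∃ ψ : SingSimplex E n → M, GEq G ψ ∧ cochainCobdry ψ = φ

variable {G E X : Type*} [Group G] [TopologicalSpace E] [TopologicalSpace X] [MulAction G E]
  [ContinuousConstSMul G E] {p : E → X}

/-- The action map `G →* deckGroup p`. -/
def toDeck (hp : IsQuotientCoveringMap p G) : G →* deckGroup p where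
  toFun g := ⟨Homeomorph.smul g, fun _ => hp.map_smul g⟩
  map_one' := by
    apply Subtype.ext
    ext e
    exact one_smul G e
  map_mul' g g' := by
    apply Subtype.ext
    ext e
    exact mul_smul g g' e

@[simp] theorem toDeck_apply (hp : IsQuotientCoveringMap p G) (g : G) (e : E) :
    (toDeck hp g : E ≃ₜ E) e = g • e := rfl









end Crest.Agent.R251.PBD
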