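import Crest.Agent.R251.Pr963

/-! # R251: equivariant cohomology, homotopy invariance (helper963)

`G` any group acting by homeomorphisms (`MulAction`, `ContinuousConstSMul`) -/

set_option autoImplicit false
set_option linter.unusedSectionVars false

open CategoryTheory Simplicial Opposite Set Topology
open Crest.GeometryTopology.DeckCochains

namespace Crest.Agent.R251.Pr

noncomputable section

/-- the map given by a group element -/
def act {G E : Type} [Group G] [TopologicalSpace E] [MulAction G E] [ContinuousConstSMul G E]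
    (g : G) : C(E, E) := ⟨fun x => g • x, continuous_const_smul g⟩

section

variable {G : Type} [Group G] {E E' E'' : Type} [TopologicalSpace E] [TopologicalSpace E']
  [TopologicalSpace E''] [MulAction G E] [MulAction G E'] [MulAction G E'']
  [ContinuousConstSMul G E] [ContinuousConstSMul G E'] [ContinuousConstSMul G E'']
  {M : Type*} [AddCommGroup M] [DistribMulAction G M]

@[simp] theorem act_apply (g : G) (x : E) : act g x = g • x := rfl

/-- equivariant cochains -/
def EqC (G : Type) [Group G] {E : Type} [TopologicalSpace E] [MulAction G E]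
    [ContinuousConstSMul G E] {M : Type*} [AddCommGroup M] [DistribMulAction G M] {n : ℕ}
    (φ : SingSimplex E n → M) : Prop :=
  ∀ (g : G) (s : SingSimplex E n), φ (push (act g) s) = g • φ s

theorem EqC.add {n : ℕ} {φ ψ : SingSimplex E n → M} (hφ : EqC G φ) (hψ : EqC G ψ) :
    EqC G (φ + ψ) := fun g s => by
  rw [Pi.add_apply, Pi.add_apply, hφ g s, hψ g s, smul_add]

theorem EqC.neg {n : ℕ} {φ : SingSimplex E n → M} (hφ : EqC G φ) : EqC G (-φ) := fun g s => by
  rw [Pi.neg_apply, Pi.neg_apply, hφ g s, smul_neg]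

theorem EqC.sub {n : ℕ} {φ ψ : SingSimplex E n → M} (hφ : EqC G φ) (hψ : EqC G ψ) :
    EqC G (φ - ψ) := by rw [sub_eq_add_neg]; exact hφ.add hψ.neg

theorem EqC.zero {n : ℕ} : EqC G (0 : SingSimplex E n → M) := fun g s => by
  rw [Pi.zero_apply, Pi.zero_apply, smul_zero]

theorem EqC.cobdry {n : ℕ} {φ : SingSimplex E n → M} (hφ : EqC G φ) :
    EqC G (cochainCobdry φ) := fun g s => by
  simp only [cobdry_apply, Finset.smul_sum]
  refine Finset.sum_congr rfl fun i _ => ?_
  rw [← push_face, hφ, smul_comm]

/-- equivariance of maps -/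
def EqM (G : Type) [Group G] {E E' : Type} [TopologicalSpace E] [TopologicalSpace E']
    [MulAction G E] [MulAction G E'] (f : C(E, E')) : Prop :=
  ∀ (g : G) (x : E), f (g • x) = g • f x

theorem EqM.comp {f : C(E, E')} {f' : C(E', E'')} (hf : EqM G f) (hf' : EqM G f') :
    EqM G (f'.comp f) := fun g x => by
  simp only [ContinuousMap.comp_apply, hf g x, hf' g (f x)]

theorem EqM.id : EqM G (ContinuousMap.id E) := fun _ _ => rfl

theorem EqC.pull {n : ℕ} {φ : SingSimplex E' n → M} (hφ : EqC G φ) {f : C(E, E')}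
    (hf : EqM G f) : EqC G (Pr.pull f φ) := fun g s => by
  rw [pull_apply, pull_apply, ← hφ, push_push, push_push]
  congr 2
  ext x
  exact hf g x

/-- an equivariant homotopy -/
def EqH (G : Type) [Group G] {E E' : Type} [TopologicalSpace E] [TopologicalSpace E']
    [MulAction G E] [MulAction G E'] (H : C(E × unitInterval, E')) : Prop :=
  ∀ (g : G) (x : E) (t : unitInterval), H (g • x, t) = g • H (x, t)

theorem EqC.prism {n : ℕ} {φ : SingSimplex E' (n + 1) → M} (hφ : EqC G φ)
    {H : C(E × unitInterval, E')} (hH : EqH G H) : EqC G (Pr.prism H φ) := fun g s =>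
  prism_push H φ H φ (DistribSMul.toAddMonoidHom M g) (act g) (act g)
    (fun x t => hH g x t) (fun s => hφ g s) s

/-- equivariantly homotopic maps induce cohomologous pull backs -/
theorem exists_cobdry_of_homotopy {n : ℕ} {φ : SingSimplex E' (n + 1) → M} (hφ : EqC G φ)
    (hc : cochainCobdry φ = 0) {H : C(E × unitInterval, E')} (hH : EqH G H) :
    ∃ ψ : SingSimplex E n → M, EqC G ψ ∧
      cochainCobdry ψ = Pr.pull (end1 H) φ - Pr.pull (end0 H) φ := by
  refine ⟨Pr.prism H φ, hφ.prism hH, ?_⟩
  have h := cobdry_prism H φ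
  rwa [hc, prism_zero, add_zero] at h


/-- vanishing of the equivariant cohomology in degree `n + 1` -/
def HV (G : Type) [Group G] (E : Type) [TopologicalSpace E] [MulAction G E]
    [ContinuousConstSMul G E] (n : ℕ) (M : Type*) [AddCommGroup M] [DistribMulAction G M] : Prop :=
  ∀ φ : SingSimplex E (n + 1) → M, EqC G φ → cochainCobdry φ = 0 →
    ∃ ψ : SingSimplex E n → M, EqC G ψ ∧ cochainCobdry ψ = φ

/-- transfer of vanishing along an equivariant homotopy retract -/
theorem HV.of_retract {n : ℕ} (hV : HV G E' n M) (f : C(E, E')) (f' : C(E', E)) (hf : EqM G f)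
    (hf' : EqM G f') (H : C(E × unitInterval, E)) (hH : EqH G H)
    (h : (end0 H = ContinuousMap.id E ∧ end1 H = f'.comp f) ∨
      (end1 H = ContinuousMap.id E ∧ end0 H = f'.comp f)) : HV G E n M := by
  intro φ hφ hc
  obtain ⟨χ, hχ, hχ'⟩ := hV (Pr.pull f' φ) (hφ.pull hf') (by rw [cobdry_pull, hc]; rfl)
  obtain ⟨ψ, hψ, hψ'⟩ := exists_cobdry_of_homotopy hφ hc hH
  have e1 : cochainCobdry (Pr.pull f χ) = Pr.pull (f'.comp f) φ := by
    rw [cobdry_pull, hχ', pull_pull]
  rcases h with ⟨h0, h1⟩ | ⟨h1, h0⟩
  · refine ⟨Pr.pull f χ - ψ, (hχ.pull hf).sub hψ, ?_⟩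
    rw [cobdry_sub, e1, hψ', h0, h1, pull_id]
    abel
  · refine ⟨Pr.pull f χ + ψ, (hχ.pull hf).add hψ, ?_⟩
    rw [cobdry_add, e1, hψ', h0, h1, pull_id]
    abel


/-! ### discrete targets -/

/-- on a space whose singular simplices are all constant (for instance a discrete space):
every cocycle of positive degree is the coboundary of an equivariant cochain -/
theorem HV.of_const {n : ℕ} (h : ∀ (m : ℕ) (σ : C(Dl m, E)), ∃ x, σ = ContinuousMap.const _ x) :
    HV G E n M := by
  intro φ hφ hc
  -- the homotopy operator: φ ∘ (degenerate simplex)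
  have hdeg : ∀ (m : ℕ) (x : E) (i : Fin (m + 2)),
      simplexFace i (sx (ContinuousMap.const (Dl (m + 1)) x)) = sx (ContinuousMap.const (Dl m) x) :=
    fun m x i => rfl
  have hval : ∀ s : SingSimplex E (n + 1), ∃ x, s = sx (ContinuousMap.const (Dl (n + 1)) x) := by
    intro s
    obtain ⟨σ, rfl⟩ := sx_surj s
    obtain ⟨x, rfl⟩ := h _ σ
    exact ⟨x, rfl⟩
  have halt : ∀ (k : ℕ) (m : M), ∑ i : Fin k, ((-1 : ℤ) ^ (i : ℕ)) • m =
      if Even k then 0 else m := by
    intro k m
    induction k with
    | zero => simp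
    | succ k ih =>
      rw [Fin.sum_univ_castSucc]
      simp only [Fin.val_castSucc, Fin.val_last, ih]
      rcases Nat.even_or_odd k with hk | hk
      · rw [if_pos hk, if_neg (by rw [Nat.even_add_one, not_not]; exact hk), hk.neg_one_pow]
        simp
      · rw [if_neg (Nat.not_even_iff_odd.2 hk),
          if_pos (by rw [Nat.even_add_one]; exact Nat.not_even_iff_odd.2 hk), hk.neg_one_pow]
        simp
  rcases Nat.even_or_odd n with hn | hn
  · -- n + 1 odd; φ is a cocycle of odd degree n + 1: n + 3 faces, odd, so φ = 0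
    refine ⟨0, EqC.zero, ?_⟩
    rw [cobdry_zero]
    funext s
    obtain ⟨x, rfl⟩ := hval s
    have h1 := congrFun hc (sx (ContinuousMap.const (Dl (n + 2)) x))
    rw [cobdry_apply] at h1
    simp only [hdeg, halt] at h1
    have hodd : ¬ Even (n + 1 + 2) := by
      rw [Nat.not_even_iff_odd]
      obtain ⟨k, hk⟩ := hn
      exact ⟨k + 1, by omega⟩
    rw [if_neg hodd] at h1
    exact h1.symm
  · -- n + 1 even: δ from degree n has n + 2 faces, odd
    refine ⟨fun s => φ (sx (ContinuousMap.const _ (us s (stdSimplex.vertex 0)))), ?_, ?_⟩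
    · intro g s
      have := hφ g (sx (ContinuousMap.const (Dl (n + 1)) (us s (stdSimplex.vertex 0))))
      rw [← this]
      simp only [us_push]
      rfl
    · funext s
      obtain ⟨x, rfl⟩ := hval s
      rw [cobdry_apply]
      simp only [hdeg, us_sx, ContinuousMap.const_apply, halt]
      have hodd : ¬ Even (n + 2) := by
        rw [Nat.not_even_iff_odd]
        obtain ⟨k, hk⟩ := hn
        exact ⟨k + 1, by omega⟩
      rw [if_neg hodd]

end

end

end Crest.Agent.R251.Pr
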