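import Crest.Agent.R251.Fin711
import Crest.Agent.R251.PBDeck509_Mg
import Crest.Agent.R251.Pr963b
import Crest.Agent.R251.Alg449_Mg

/-!
R251 (helper711), block K3, second part: the landed blocks plugged into the skeleton.
-/

set_option autoImplicit false

open CategoryTheory
open Crest.GeometryTopology.DeckCochains

namespace Crest.Agent.R251.Fin

/-- block C0 (443) -/
theorem c0 : C0 := fun _ _ _ _ p n h => Crest.Agent.R251.C0.isZero_of_deckVanishes p n h

section bridge
variable {G : Type} [Group G] {E : Type} [TopologicalSpace E] [MulAction G E] [ContinuousConstSMul G E]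
  {M : Type} [AddCommGroup M] [DistribMulAction G M] {n : ℕ}


/-- the predicate of 963 is the same -/
theorem hv_iff_pr : HV G E M n ↔ Crest.Agent.R251.Pr.HV G E n M := Iff.rfl

end bridge

/-- covering data from a quotient covering map -/
theorem Cov.of_isQuotientCoveringMap {G : Type} [Group G] {E : Type} [TopologicalSpace E] [MulAction G E]
    [ContinuousConstSMul G E] {X : Type} [TopologicalSpace X] {p : E → X}
    (hp : IsQuotientCoveringMap p G) [SimplyConnectedSpace E] : Cov G E p where
  cov := hp.isCoveringMap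
  surj := hp.toIsQuotientMap.surjective
  sc := inferInstance
  inv g _ := hp.map_smul g
  fib e e' h := by
    obtain ⟨g, hg⟩ := hp.apply_eq_iff_mem_orbit.mp h.symm
    exact ⟨g, hg⟩
  free g e h := by
    have hc := hp.isCancelSMul
    exact IsCancelSMul.right_cancel g 1 e (by rw [h, one_smul])

/-- quotient covering map from covering data -/
theorem Cov.isQuotientCoveringMap {G : Type} [Group G] {E : Type} [TopologicalSpace E] [MulAction G E]
    [ContinuousConstSMul G E] {X : Type} [TopologicalSpace X] {p : E → X}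
    (h : Cov G E p) : IsQuotientCoveringMap p G := by
  rw [isQuotientCoveringMap_iff_isCoveringMap_and]
  refine ⟨h.cov, h.surj, inferInstance, ⟨fun g g' e hg => ?_⟩, fun {e₁ e₂} => ⟨fun he => ?_, ?_⟩⟩
  · have h1 : (g'⁻¹ * g) • e = e := by
      rw [mul_smul, hg, inv_smul_smul]
    have h2 := h.free _ _ h1
    exact (inv_mul_eq_one.1 h2).symm
  · obtain ⟨g, hg⟩ := h.fib e₂ e₁ he.symm
    exact ⟨g, hg⟩
  · rintro ⟨g, rfl⟩
    exact h.inv g _

/-- the `Y`-side core (770 Y4 with 509's pull-back cover already inserted): `q : Yt → Y` is the simply connected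
quotient covering of a two-dimensional complex -/
def YCore (K : Type) [Field K] : Prop :=
  ∀ (G : Type) [Group G] (Yt Y : Type) [TopologicalSpace Yt] [TopologicalSpace Y] [MulAction G Yt]
    [ContinuousConstSMul G Yt] (q : Yt → Y), Cov G Yt q →
  ∀ (μ : G →* Kˣ), HV G Yt (Tw μ) 1 →
  ∀ [T2Space Y] [Topology.CWComplex (Set.univ : Set Y)],
    (∀ m : ℕ, 2 < m → IsEmpty (Topology.RelCWComplex.cell (Set.univ : Set Y) m)) →
  ∀ (c : G) (n : ℕ), n ≠ 0 → c ^ n = 1 → μ c = 1

open Crest.Agent.R251.PB Crest.Agent.R251.PB.PBk Crest.Agent.R251.Pr in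
/-- transfer of vanishing to the pulled-back cover (509's P3 on top of 963's prism) -/
theorem hv_pullback {G E X Y : Type} [Group G] [TopologicalSpace E] [TopologicalSpace X]
    [TopologicalSpace Y] [MulAction G E] [ContinuousConstSMul G E] {p : E → X}
    (hp : IsQuotientCoveringMap p G) (h : C(Y, X)) (k : C(X, Y))
    (R : ContinuousMap.Homotopy (ContinuousMap.id X) (h.comp k))
    (L : ContinuousMap.Homotopy (k.comp h) (ContinuousMap.id Y))
    (M : Type) [AddCommGroup M] [DistribMulAction G M] (n : ℕ) (hV : HV G E M n) :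
    HV G (PBk hp h) M n := by
  refine hv_iff_pr.2 ?_
  refine Crest.Agent.R251.Pr.HV.of_retract (hv_iff_pr.1 hV) (F hp h)
    (((Th hp h k R L).symm : C(PBk hp h, PBk hp h)).comp (K hp h k R)) (F_smul) ?_
    ⟨fun z => (Th hp h k R L).symm (HT hp h k R L (z.2, z.1)), ?_⟩ ?_ (Or.inr ⟨?_, ?_⟩)
  · intro g e
    show (Th hp h k R L).symm (K hp h k R (g • e)) = g • (Th hp h k R L).symm (K hp h k R e)
    rw [K_smul, Th_symm_smul]
  · exact (Th hp h k R L).symm.continuous.comp
      ((HT hp h k R L).continuous.comp (continuous_snd.prodMk continuous_fst))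
  · intro g z t
    show (Th hp h k R L).symm (HT hp h k R L (t, g • z)) = g • (Th hp h k R L).symm (HT hp h k R L (t, z))
    rw [HT_smul, Th_symm_smul]
  · ext1 z
    show (Th hp h k R L).symm (HT hp h k R L (1, z)) = z
    rw [HT_one]
    exact (Th hp h k R L).symm_apply_apply z
  · ext1 z
    show (Th hp h k R L).symm (HT hp h k R L (0, z)) = (Th hp h k R L).symm (K hp h k R (F hp h z))
    rw [HT_zero]

theorem ythm_of_core {K : Type} [Field K] (hcore : YCore K) : YThm K := by
  intro G _ E X _ _ _ _ p hc μ hV Y _ _ _ _ hdim e c n hn hcn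
  have hsc := hc.sc
  have hp := hc.isQuotientCoveringMap
  let h : C(Y, X) := e.invFun
  let k : C(X, Y) := e.toFun
  have R : ContinuousMap.Homotopy (ContinuousMap.id X) (h.comp k) := e.left_inv.some.symm
  have L : ContinuousMap.Homotopy (k.comp h) (ContinuousMap.id Y) := e.right_inv.some
  have hsc' : SimplyConnectedSpace (Crest.Agent.R251.PB.PBk hp h) :=
    Crest.Agent.R251.PB.PBk.simplyConnectedSpace hp h k R L
  exact hcore G (Crest.Agent.R251.PB.PBk hp h) Y _
    (Cov.of_isQuotientCoveringMap Crest.Agent.R251.PB.PBk.isQuotientCoveringMap_q) μ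
    (hv_pullback hp h k R L _ 1 hV) hdim c n hn hcn

section model
open Crest.Agent.R185.Att Crest.Agent.R251.Mod

variable {G : Type} [Group G] {ι : Type} {gen : ι → G} {κ : Type} {wd : κ → List (ι × Bool)}
  {hwd : ∀ j, val gen (wd j) = 1}

/-- S0388 from the vanishing theorems for 19's tower -/
theorem final_of [Infinite G] [Finite ι] [Finite κ] (f : C(S 3, Z3 gen wd hwd))
    (hsc : SimplyConnectedSpace (Z4 f))
    (hv : ∀ n : ℕ, 2 ≤ n → ∀ (M : Type) [AddCommGroup M] [DistribMulAction G M], HV G (Z4 f) M n)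
    {K : Type} [Field K] (μ : G →* Kˣ) (hvμ : HV G (Z4 f) (Tw μ) 1)
    (c : G) (n : ℕ) (hn : n ≠ 0) (hc : c ^ n = 1) (hμ : μ c ≠ 1) (hY : YCore K) : Statement := by
  obtain ⟨C, hfin, hdim⟩ := exists_cwX f
  exact skeleton c0 (ythm_of_core hY)
    { G := G, inf := inferInstance, E := Z4 f, X := XX f, t2 := inferInstance, cw := C, fin := hfin
      dim := hdim, p := pp f, cov := Cov.of_isQuotientCoveringMap (pp_isQuotientCoveringMap f)
      hv := hv, μ := μ, hvμ := hvμ, c := c, n := n, hn := hn, hc := hc, hμ := hμ }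

end model

end Crest.Agent.R251.Fin
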