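import Crest.Agent.R251.LB972
import Crest.Agent.R185.Att1

/-!
# Row 251 (S0388): the open cells of one attachment `GAtt G φ` as an instance of helper972's `Cells`

(helper664)  `gcells φ : LB.Cells G (GAtt G φ) C (B m)`, any `m`, any `G`-space `Z`; the closed
2-cell as a map of the square `sqc φ g c : C(I × I, GAtt G φ)`.
-/

set_option autoImplicit false

open Set Metric Topology unitInterval
open Crest.Agent.R185.Att

namespace Crest.Agent.R251.LBg

section inst

variable {G : Type} [Group G] {Z : Type} [TopologicalSpace Z] [MulAction G Z] {m : ℕ} {C : Type}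
  (φ : C → C(S m, Z))

/-- the centre of the cell -/
def o (m : ℕ) : B m := ⟨0, mem_ball_self one_pos⟩



theorem continuous_inB' (g : G) (c : C) : Continuous (inB φ g c : B m → GAtt G φ) := by
  have : (inB φ g c : B m → GAtt G φ) = chr φ g c ∘ bd m := by
    funext x
    exact (chr_bd g c x).symm
  rw [this]
  exact (continuous_chr g c).comp (bd m).continuous

theorem isClosed_centres (x : B m) :
    IsClosed {e : GAtt G φ | ∃ g c, e = inB φ g c x} := by
  rw [isClosed_iff]
  constructor
  · convert isClosed_empty
    ext z
    simp only [mem_preimage, mem_setOf_eq, mem_empty_iff_false, iff_false]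
    rintro ⟨g, c, h⟩
    exact inZ_ne_inB h
  · intro g c
    convert (isClosed_singleton (x := bd m x)) using 1
    ext y
    simp only [mem_preimage, mem_setOf_eq, mem_singleton_iff]
    induction y using D.cases' with
    | hB y =>
      rw [chr_bd]
      constructor
      · rintro ⟨g', c', h⟩
        rw [(inB_inj.1 h).2.2]
      · intro h
        have h2 : y = x := by
          apply Subtype.ext
          have := congrArg (fun z : D m => (z : Fin m → ℝ)) h
          simpa using this
        exact ⟨g, c, by rw [h2]⟩
    | hS y =>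
      rw [chr_sd]
      constructor
      · rintro ⟨g', c', h⟩
        exact absurd h inZ_ne_inB
      · intro h
        exact absurd h.symm (bd_ne_sd x y)

/-- the open cells of `GAtt G φ` -/
def gcells : LB.Cells G (GAtt G φ) C (B m) where
  chart g c := ⟨inB φ g c, continuous_inB' φ g c⟩
  emb g c := IsOpenEmbedding.of_continuous_injective_isOpenMap (continuous_inB' φ g c)
    (fun _ _ h => (inB_inj.1 h).2.2) (fun _ hV => isOpen_inB_image hV)
  equi _ _ _ _ := rfl
  disj h := ⟨(inB_inj.1 h).1, (inB_inj.1 h).2.1⟩
  c0 := o m
  closed := isClosed_centres φ (o m)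

@[simp] theorem gcells_chart_apply (g : G) (c : C) (x : B m) :
    (gcells φ).chart g c x = inB φ g c x := rfl

@[simp] theorem gcells_c0 : (gcells (G := G) φ).c0 = o m := rfl

variable {φ}






end inst

/-! ### the closed 2-cell as a square -/

/-- `(s, t) ↦ (2 s - 1, 2 t - 1)` -/
noncomputable def sq : C(I × I, D 2) where
  toFun p := ⟨![2 * (p.1 : ℝ) - 1, 2 * (p.2 : ℝ) - 1], by
    rw [mem_closedBall_zero_iff, pi_norm_le_iff_of_nonneg zero_le_one]
    have h0 := p.1.2.1
    have h1 := p.1.2.2
    have h2 := p.2.2.1
    have h3 := p.2.2.2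
    intro i
    fin_cases i
    · show ‖2 * (p.1 : ℝ) - 1‖ ≤ 1
      rw [Real.norm_eq_abs, abs_le]; constructor <;> linarith
    · show ‖2 * (p.2 : ℝ) - 1‖ ≤ 1
      rw [Real.norm_eq_abs, abs_le]; constructor <;> linarith⟩
  continuous_toFun := by
    refine Continuous.subtype_mk (continuous_pi fun i => ?_) _
    fin_cases i
    · show Continuous fun p : I × I => 2 * (p.1 : ℝ) - 1
      fun_prop
    · show Continuous fun p : I × I => 2 * (p.2 : ℝ) - 1
      fun_prop




section cell

variable {G : Type} [Group G] {Z : Type} [TopologicalSpace Z] [MulAction G Z] {C : Type}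
  (φ : C → C(S 2, Z))

/-- the closed 2-cell `(g, c)` as a map of the square -/
noncomputable def sqc (g : G) (c : C) : C(I × I, GAtt G φ) :=
  (⟨chr φ g c, continuous_chr g c⟩ : C(D 2, GAtt G φ)).comp sq






end cell

end Crest.Agent.R251.LBg
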