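import Mathlib
import Crest.Prelude.Def_DeckCochains

/-!
# R251 (S0388), block LB (helper972): LEMMA B

From a ℤ-valued `n`-cocycle `w0` on the open model cell `B`, vanishing on simplices missing the
centre (`n = 2`: the winding cocycle of helper267; `n = 1`: a step function), to the equivariant
`n`-cocycle `u_b` on a `G`-space `E` with prescribed values on a free equivariant family of open
cells, vanishing on all simplices missing the centres.
-/

set_option autoImplicit false

noncomputable section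

open CategoryTheory Simplicial Opposite Set
open Crest.GeometryTopology.DeckCochains

namespace Crest.Agent.R251.LB

/-! ### simplices as continuous maps -/

/-- the standard simplex -/
abbrev Dn (n : ℕ) : Type := stdSimplex ℝ (Fin (n + 1))

section basics

variable {E F : Type} [TopologicalSpace E] [TopologicalSpace F]

/-- the singular simplex given by a continuous map -/
def sx {n : ℕ} (σ : C(Dn n, E)) : SingSimplex E n :=
  (TopCat.toSSetObjEquiv (TopCat.of E) (op ⦋n⦌)).symm σ

/-- the continuous map of a singular simplex -/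
def un {n : ℕ} (s : SingSimplex E n) : C(Dn n, E) :=
  TopCat.toSSetObjEquiv (TopCat.of E) (op ⦋n⦌) s

@[simp] theorem un_sx {n : ℕ} (σ : C(Dn n, E)) : un (sx σ) = σ :=
  Equiv.apply_symm_apply _ _

@[simp] theorem sx_un {n : ℕ} (s : SingSimplex E n) : sx (un s) = s :=
  Equiv.symm_apply_apply _ _

theorem sx_injective {n : ℕ} : Function.Injective (sx : C(Dn n, E) → SingSimplex E n) :=
  Equiv.injective _

/-- face inclusions -/
def face {n : ℕ} (i : Fin (n + 2)) : C(Dn n, Dn (n + 1)) :=
  ⟨stdSimplex.map i.succAbove, stdSimplex.continuous_map _⟩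

theorem simplexFace_sx {n : ℕ} (σ : C(Dn (n + 1), E)) (i : Fin (n + 2)) :
    simplexFace i (sx σ) = sx (σ.comp (face i)) := rfl


theorem un_face {n : ℕ} (s : SingSimplex E (n + 1)) (i : Fin (n + 2)) :
    un (simplexFace i s) = (un s).comp (face i) := by
  conv_lhs => rw [← sx_un s]
  rw [simplexFace_sx, un_sx]


theorem cobdry_sx {M : Type*} [AddCommGroup M] {n : ℕ} (φ : SingSimplex E n → M)
    (σ : C(Dn (n + 1), E)) :
    cochainCobdry φ (sx σ) = ∑ i : Fin (n + 2), ((-1 : ℤ) ^ (i : ℕ)) • φ (sx (σ.comp (face i))) :=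
  rfl

/-- `δ ∘ δ = 0` on raw singular cochains -/
theorem cobdry_cobdry {M : Type*} [AddCommGroup M] {n : ℕ} (φ : SingSimplex E n → M) :
    cochainCobdry (cochainCobdry φ) = 0 := by
  funext s
  simp only [cochainCobdry, Pi.zero_apply, Finset.smul_sum, ← Finset.sum_product']
  let P := Fin (n + 3) × Fin (n + 2)
  let S : Finset P := Finset.univ.filter (fun ij => (ij.1 : ℕ) ≤ (ij.2 : ℕ))
  rw [Finset.univ_product_univ, ← Finset.sum_add_sum_compl S, ← eq_neg_iff_add_eq_zero,
    ← Finset.sum_neg_distrib]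
  let φ' : ∀ ij : P, ij ∈ S → P := fun ij hij =>
    (ij.2.succ, Fin.castLT ij.1 (lt_of_le_of_lt (Finset.mem_filter.mp hij).right (Fin.is_lt ij.2)))
  apply Finset.sum_bij φ'
  · intro ij hij
    simp_rw [S, φ', Finset.compl_filter, Finset.mem_filter_univ, Fin.val_succ,
      Fin.val_castLT] at hij ⊢
    lia
  · rintro ⟨i, j⟩ hij ⟨i', j'⟩ hij' h
    rw [Prod.mk_inj]
    exact ⟨by simpa [φ', Fin.castSucc_castLT] using! congr_arg Fin.castSucc (congr_arg Prod.snd h),
      by simpa [φ'] using! congr_arg Prod.fst h⟩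
  · rintro ⟨i', j'⟩ hij'
    simp_rw [S, Finset.compl_filter, Finset.mem_filter_univ, not_le] at hij'
    refine ⟨(Fin.castSucc j', i'.pred <| ?_), ?_, ?_⟩
    · rintro rfl
      simp only [Fin.val_zero, not_lt_zero] at hij'
    · simpa [S] using! Nat.le_sub_one_of_lt hij'
    · simp only [φ', Fin.castLT_castSucc, Fin.succ_pred]
  · rintro ⟨i, j⟩ hij
    dsimp only
    rw [smul_smul, smul_smul, ← neg_smul]
    congr 1
    · simp only [φ', Fin.val_succ, pow_add, pow_one, mul_neg, neg_neg, mul_one, neg_mul]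
      apply mul_comm
    · have h : i ≤ Fin.castSucc j := by simpa [S, Fin.le_def] using! hij
      exact congrArg φ (SSet.δ_comp_δ''_apply (S := TopCat.toSSet.obj (TopCat.of E)) h s).symm

end basics

/-! ### free equivariant families of open cells -/

/-- A free equivariant family of open cells (indexed by `G × J`, each modelled on `B`) in a
`G`-space `E`. -/
structure Cells (G E J B : Type) [Group G] [TopologicalSpace E] [MulAction G E]
    [TopologicalSpace B] where
  /-- the characteristic map of the open cell `(g, j)` -/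
  chart : G → J → C(B, E)
  /-- it is an open embedding -/
  emb : ∀ g j, Topology.IsOpenEmbedding (chart g j)
  /-- equivariance -/
  equi : ∀ g h j x, chart (g * h) j x = g • chart h j x
  /-- different cells are disjoint -/
  disj : ∀ {g g' j j' x x'}, chart g j x = chart g' j' x' → g = g' ∧ j = j'
  /-- the centre of the model cell -/
  c0 : B
  /-- the set of centres is closed -/
  closed : IsClosed {e | ∃ g j, e = chart g j c0}

namespace Cells

variable {G E J B : Type} [Group G] [TopologicalSpace E] [MulAction G E] [TopologicalSpace B]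

/-- the set of centres -/
def ctr (K : Cells G E J B) : Set E := {e | ∃ g j, e = K.chart g j K.c0}

/-- the open cover: complement of the centres, open cells -/
def cov (K : Cells G E J B) : Set (Set E) := {U | U = K.ctrᶜ ∨ ∃ g j, U = range (K.chart g j)}

theorem cov_open (K : Cells G E J B) : ∀ U ∈ K.cov, IsOpen U := by
  rintro U (rfl | ⟨g, j, rfl⟩)
  · exact K.closed.isOpen_compl
  · exact (K.emb g j).isOpen_range

theorem cov_univ (K : Cells G E J B) : ⋃₀ K.cov = univ := by
  apply eq_univ_of_forall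
  intro e
  by_cases h : e ∈ K.ctr
  · obtain ⟨g, j, rfl⟩ := h
    exact ⟨_, Or.inr ⟨g, j, rfl⟩, mem_range_self _⟩
  · exact ⟨_, Or.inl rfl, h⟩

theorem mem_ctr_chart (K : Cells G E J B) {g : G} {j : J} {x : B} :
    K.chart g j x ∈ K.ctr ↔ x = K.c0 := by
  constructor
  · rintro ⟨g', j', h⟩
    obtain ⟨rfl, rfl⟩ := K.disj h
    exact (K.emb g j).injective h
  · rintro rfl
    exact ⟨g, j, rfl⟩


end Cells

/-- smallness of a singular simplex with respect to a family of sets -/
def IsSmall {E : Type} [TopologicalSpace E] (U : Set (Set E)) {n : ℕ} (s : SingSimplex E n) : Prop :=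
  ∃ V ∈ U, range (un s) ⊆ V

instance (n : ℕ) : Nonempty (Dn n) := ⟨⟨Pi.single 0 1, single_mem_stdSimplex ℝ 0⟩⟩

section lemB

variable {G E J B : Type} [Group G] [TopologicalSpace E] [MulAction G E] [TopologicalSpace B]
variable (K : Cells G E J B) {n : ℕ} (w0 : SingSimplex B n → ℤ)
variable {M : Type} [AddCommGroup M] [DistribMulAction G M] (b : J → M)

theorem sx_chart_inj {g g' : G} {j j' : J} {σ σ' : C(Dn n, B)}
    (h : sx ((K.chart g j).comp σ) = sx ((K.chart g' j').comp σ')) :
    g = g' ∧ j = j' ∧ σ = σ' := by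
  have h2 := sx_injective h
  obtain ⟨x⟩ : Nonempty (Dn n) := inferInstance
  have h3 := DFunLike.congr_fun h2 x
  obtain ⟨rfl, rfl⟩ := K.disj h3
  refine ⟨rfl, rfl, ?_⟩
  ext1 y
  exact (K.emb g j).injective (DFunLike.congr_fun h2 y)

open Classical in
/-- the cocycle on small simplices, extended by zero -/
def u0 (s : SingSimplex E n) : M :=
  if h : ∃ p : G × J × C(Dn n, B), s = sx ((K.chart p.1 p.2.1).comp p.2.2) then
    w0 (sx h.choose.2.2) • (h.choose.1 • b h.choose.2.1) else 0

theorem u0_chart (g : G) (j : J) (σ : C(Dn n, B)) :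
    u0 K w0 b (sx ((K.chart g j).comp σ)) = w0 (sx σ) • (g • b j) := by
  have h : ∃ p : G × J × C(Dn n, B),
      sx ((K.chart g j).comp σ) = sx ((K.chart p.1 p.2.1).comp p.2.2) := ⟨(g, j, σ), rfl⟩
  rw [u0, dif_pos h]
  obtain ⟨h1, h2, h3⟩ := sx_chart_inj K h.choose_spec
  rw [← h1, ← h2, ← h3]

theorem u0_miss (hw : ∀ σ : C(Dn n, B), K.c0 ∉ range σ → w0 (sx σ) = 0)
    (s : SingSimplex E n) (hs : range (un s) ⊆ K.ctrᶜ) : u0 K w0 b s = 0 := by
  by_cases h : ∃ p : G × J × C(Dn n, B), s = sx ((K.chart p.1 p.2.1).comp p.2.2)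
  · obtain ⟨⟨g, j, σ⟩, rfl⟩ := h
    rw [u0_chart, hw σ, zero_smul]
    rintro ⟨x, hx⟩
    apply hs ⟨x, rfl⟩
    rw [un_sx, ContinuousMap.comp_apply, hx]
    exact K.mem_ctr_chart.2 rfl
  · rw [u0, dif_neg h]

/-- translation of a singular simplex by a group element -/
abbrev tr {G E : Type} [Group G] [TopologicalSpace E] [MulAction G E] [ContinuousConstSMul G E]
    {n : ℕ} (g : G) (s : SingSimplex E n) : SingSimplex E n :=
  simplexTranslate (Homeomorph.smul g : E ≃ₜ E) s

variable [ContinuousConstSMul G E]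

theorem tr_sx (g : G) (σ : C(Dn n, E)) :
    tr g (sx σ) = sx (((Homeomorph.smul g : E ≃ₜ E) : C(E, E)).comp σ) := rfl

theorem tr_tr (g h : G) (s : SingSimplex E n) : tr g (tr h s) = tr (g * h) s := by
  obtain ⟨σ, rfl⟩ : ∃ σ, s = sx σ := ⟨un s, (sx_un s).symm⟩
  rw [tr_sx, tr_sx, tr_sx]
  congr 1
  ext1 x
  simp [mul_smul]

theorem tr_one (s : SingSimplex E n) : tr (1 : G) s = s := by
  obtain ⟨σ, rfl⟩ : ∃ σ, s = sx σ := ⟨un s, (sx_un s).symm⟩
  rw [tr_sx]
  congr 1
  ext1 x
  simp

theorem face_tr (g : G) (s : SingSimplex E (n + 1)) (i : Fin (n + 2)) :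
    simplexFace i (tr g s) = tr g (simplexFace i s) := by
  obtain ⟨σ, rfl⟩ : ∃ σ, s = sx σ := ⟨un s, (sx_un s).symm⟩
  rfl

theorem cobdry_tr {φ : SingSimplex E n → M} (hφ : ∀ (g : G) (s), φ (tr g s) = g • φ s)
    (g : G) (s : SingSimplex E (n + 1)) :
    cochainCobdry φ (tr g s) = g • cochainCobdry φ s := by
  simp only [cochainCobdry]
  rw [Finset.smul_sum]
  refine Finset.sum_congr rfl fun i _ => ?_
  rw [face_tr, hφ, smul_comm]

theorem tr_chart (g h : G) (j : J) (σ : C(Dn n, B)) :
    tr g (sx ((K.chart h j).comp σ)) = sx ((K.chart (g * h) j).comp σ) := by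
  rw [tr_sx]
  congr 1
  ext1 x
  simp [K.equi]

theorem u0_tr (g : G) (s : SingSimplex E n) : u0 K w0 b (tr g s) = g • u0 K w0 b s := by
  by_cases h : ∃ p : G × J × C(Dn n, B), s = sx ((K.chart p.1 p.2.1).comp p.2.2)
  · obtain ⟨⟨g', j, σ⟩, rfl⟩ := h
    simp only
    rw [tr_chart, u0_chart, u0_chart, mul_smul, smul_comm]
  · have h' : ¬ ∃ p : G × J × C(Dn n, B), tr g s = sx ((K.chart p.1 p.2.1).comp p.2.2) := by
      rintro ⟨⟨g', j, σ⟩, hp⟩
      apply h
      refine ⟨(g⁻¹ * g', j, σ), ?_⟩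
      simp only at hp ⊢
      rw [← tr_chart, ← hp, tr_tr, inv_mul_cancel, tr_one]
    rw [u0, u0, dif_neg h, dif_neg h', smul_zero]

end lemB

section lemB2

variable {G E J B : Type} [Group G] [TopologicalSpace E] [MulAction G E] [TopologicalSpace B]
variable (K : Cells G E J B) {n : ℕ} (w0 : SingSimplex B n → ℤ)
variable {M : Type} [AddCommGroup M] [DistribMulAction G M] (b : J → M)

theorem range_face {E : Type} [TopologicalSpace E] (s : SingSimplex E (n + 1)) (i : Fin (n + 2)) :
    range (un (simplexFace i s)) ⊆ range (un s) := by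
  rw [un_face]
  rintro _ ⟨x, rfl⟩
  exact ⟨face i x, rfl⟩


/-- a simplex with range in an open cell lifts to the model cell -/
theorem exists_lift {g : G} {j : J} {s : SingSimplex E n}
    (hs : range (un s) ⊆ range (K.chart g j)) :
    ∃ σ : C(Dn n, B), s = sx ((K.chart g j).comp σ) := by
  have hx : ∀ x : Dn n, ∃ y, K.chart g j y = un s x := fun x => hs ⟨x, rfl⟩
  choose f hf using hx
  have hc : Continuous f := by
    rw [(K.emb g j).isInducing.continuous_iff]
    have : (K.chart g j) ∘ f = un s := funext hf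
    rw [this]
    exact (un s).continuous
  refine ⟨⟨f, hc⟩, ?_⟩
  have h2 : un s = (K.chart g j).comp ⟨f, hc⟩ := by
    ext1 x
    exact (hf x).symm
  rw [← h2, sx_un]

theorem cobdry_u0_small (hw0 : cochainCobdry w0 = 0)
    (hw : ∀ σ : C(Dn n, B), K.c0 ∉ range σ → w0 (sx σ) = 0)
    (s : SingSimplex E (n + 1)) (hs : IsSmall K.cov s) :
    cochainCobdry (u0 K w0 b) s = 0 := by
  obtain ⟨V, rfl | ⟨g, j, rfl⟩, hV⟩ := hs
  · refine Finset.sum_eq_zero fun i _ => ?_
    rw [u0_miss K w0 b hw _ ((range_face s i).trans hV), smul_zero]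
  · obtain ⟨σ, rfl⟩ := exists_lift K hV
    rw [cobdry_sx]
    have h1 : ∀ i : Fin (n + 2), u0 K w0 b (sx (((K.chart g j).comp σ).comp (face i))) =
        w0 (sx (σ.comp (face i))) • (g • b j) := fun i => u0_chart K w0 b g j (σ.comp (face i))
    simp only [h1]
    have h2 := congrFun hw0 (sx σ)
    rw [cobdry_sx, Pi.zero_apply] at h2
    simp only [smul_smul, ← Finset.sum_smul]
    simp only [smul_eq_mul] at h2
    rw [h2, zero_smul]

end lemB2

/-- **C1 (small vanishing), the hypothesis supplied by helper82 / helper500**: an equivariant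
`(n+1)`-cocycle vanishing on small simplices is the coboundary of an equivariant `n`-cochain
vanishing on small simplices. -/
def SmallVanish (G E M : Type) [Group G] [TopologicalSpace E] [MulAction G E]
    [ContinuousConstSMul G E] [AddCommGroup M] [DistribMulAction G M] (n : ℕ)
    (U : Set (Set E)) : Prop :=
  ∀ φ : SingSimplex E (n + 1) → M, cochainCobdry φ = 0 →
    (∀ (g : G) (s : SingSimplex E (n + 1)), φ (tr g s) = g • φ s) →
    (∀ s, IsSmall U s → φ s = 0) →
    ∃ ψ : SingSimplex E n → M, cochainCobdry ψ = φ ∧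
      (∀ (g : G) (s : SingSimplex E n), ψ (tr g s) = g • ψ s) ∧ (∀ s, IsSmall U s → ψ s = 0)

section LB1

variable {G E J B : Type} [Group G] [TopologicalSpace E] [MulAction G E] [TopologicalSpace B]
variable [ContinuousConstSMul G E]
variable (K : Cells G E J B) {n : ℕ} (w0 : SingSimplex B n → ℤ)
variable {M : Type} [AddCommGroup M] [DistribMulAction G M] (b : J → M)

theorem cobdry_sub {E : Type} [TopologicalSpace E] {M : Type} [AddCommGroup M]
    (φ ψ : SingSimplex E n → M) :
    cochainCobdry (φ - ψ) = cochainCobdry φ - cochainCobdry ψ := by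
  funext s
  simp only [cochainCobdry, Pi.sub_apply, smul_sub, Finset.sum_sub_distrib]

theorem cobdry_add {E : Type} [TopologicalSpace E] {M : Type} [AddCommGroup M]
    (φ ψ : SingSimplex E n → M) :
    cochainCobdry (φ + ψ) = cochainCobdry φ + cochainCobdry ψ := by
  funext s
  simp only [cochainCobdry, Pi.add_apply, smul_add, Finset.sum_add_distrib]

/-- **LB1 (Lemma B)** -/
theorem lemmaB (hSV : SmallVanish G E M n K.cov) (hw0 : cochainCobdry w0 = 0)
    (hw : ∀ σ : C(Dn n, B), K.c0 ∉ range σ → w0 (sx σ) = 0) :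
    ∃ u : SingSimplex E n → M, cochainCobdry u = 0 ∧
      (∀ (g : G) (s : SingSimplex E n), u (tr g s) = g • u s) ∧
      (∀ s : SingSimplex E n, range (un s) ⊆ K.ctrᶜ → u s = 0) ∧
      (∀ (g : G) (j : J) (σ : C(Dn n, B)),
        u (sx ((K.chart g j).comp σ)) = w0 (sx σ) • (g • b j)) := by
  obtain ⟨ψ, h1, h2, h3⟩ := hSV (cochainCobdry (u0 K w0 b)) (cobdry_cobdry _)
    (fun g s => cobdry_tr (u0_tr K w0 b) g s) (fun s hs => cobdry_u0_small K w0 b hw0 hw s hs)
  refine ⟨u0 K w0 b - ψ, ?_, ?_, ?_, ?_⟩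
  · rw [cobdry_sub, h1, sub_self]
  · intro g s
    simp only [Pi.sub_apply, smul_sub, u0_tr, h2]
  · intro s hs
    rw [Pi.sub_apply, u0_miss K w0 b hw s hs, h3 s ⟨_, Or.inl rfl, hs⟩, sub_zero]
  · intro g j σ
    rw [Pi.sub_apply, u0_chart, h3 _ ⟨_, Or.inr ⟨g, j, rfl⟩, ?_⟩, sub_zero]
    rw [un_sx]
    rintro _ ⟨x, rfl⟩
    exact ⟨σ x, rfl⟩

end LB1

end Crest.Agent.R251.LB
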