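import Mathlib
import Crest.Agent.R197.CW2Defs
import Crest.Agent.R197.OutThree
import Crest.Agent.R185.Att1
import Crest.Agent.R251.LB972
import Crest.Agent.R197.OutTwo_Mg
import Crest.Agent.R251.PC752
import Crest.Agent.R251.Fin711
import Crest.Agent.R251.Fin711b
import Crest.Prelude.Def_DeckCochains

-- ▼ part R251/Tor711
section

/-!
R251 (helper711): torsion theorem for presentations with vanishing twisted second homology.

If `Γ` is a free group, `μ : Γ →* Kˣ` a character killing the relators `r j`, and if every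
`g : κ → K` is of the form `j ↦ d (r j)` for a `μ`-derivation `d : Γ → K` (dual form of
`H₂(Y; K_μ) = 0`, `Y` the presentation complex), then `μ` kills every `w` some positive power of
which lies in the normal closure of the relators.  Algebraic form of the tower argument of helper720.
-/

set_option autoImplicit false

namespace Crest.Agent.R251.Tor711

open scoped LaurentPolynomial

/-! ### The affine group and derivations on free groups -/

/-- affine group of a commutative ring -/
@[ext] structure Aff (R : Type*) [CommRing R] where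
  a : R
  c : Rˣ

namespace Aff
variable {R : Type*} [CommRing R]

instance : Mul (Aff R) := ⟨fun x y => ⟨x.a + x.c * y.a, x.c * y.c⟩⟩
instance : One (Aff R) := ⟨⟨0, 1⟩⟩
instance : Inv (Aff R) := ⟨fun x => ⟨-(((x.c)⁻¹ : Rˣ) * x.a), (x.c)⁻¹⟩⟩

@[simp] lemma mul_a (x y : Aff R) : (x * y).a = x.a + x.c * y.a := rfl
@[simp] lemma mul_c (x y : Aff R) : (x * y).c = x.c * y.c := rfl
@[simp] lemma one_a : (1 : Aff R).a = 0 := rfl
@[simp] lemma one_c : (1 : Aff R).c = 1 := rfl
@[simp] lemma inv_a (x : Aff R) : (x⁻¹).a = -(((x.c)⁻¹ : Rˣ) * x.a) := rfl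
@[simp] lemma inv_c (x : Aff R) : (x⁻¹).c = (x.c)⁻¹ := rfl

instance : Group (Aff R) where
  mul_assoc x y z := by
    ext
    · simp; ring
    · simp [mul_assoc]
  one_mul x := by ext <;> simp
  mul_one x := by ext <;> simp
  inv_mul_cancel x := by
    ext
    · simp
    · simp

/-- projection to the linear part -/
def lin : Aff R →* Rˣ where
  toFun x := x.c
  map_one' := rfl
  map_mul' _ _ := rfl

@[simp] lemma lin_apply (x : Aff R) : lin x = x.c := rfl

end Aff

/-- `d` is a derivation of `H` into `R` with respect to the character `χ`. -/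
def IsDer {H : Type*} [Group H] {R : Type*} [CommRing R] (χ : H →* Rˣ) (d : H → R) : Prop :=
  ∀ g h : H, d (g * h) = d g + (χ g : R) * d h

section der
variable {H : Type*} [Group H] {R : Type*} [CommRing R] {χ : H →* Rˣ} {d d' : H → R}

lemma IsDer.one (h : IsDer χ d) : d 1 = 0 := by
  have := h 1 1
  simp at this
  exact this

/-- the homomorphism to the affine group attached to a derivation -/
def IsDer.hom (h : IsDer χ d) : H →* Aff R where
  toFun g := ⟨d g, χ g⟩
  map_one' := by
    ext
    · simpa using h.one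
    · simp
  map_mul' x y := by
    ext
    · simpa using h x y
    · simp

lemma IsDer.inv (h : IsDer χ d) (g : H) : (χ g : R) * d g⁻¹ = - d g := by
  have := h g g⁻¹
  rw [mul_inv_cancel, h.one] at this
  linear_combination -this

lemma IsDer.conj (h : IsDer χ d) (g x : H) (hx : χ x = 1) :
    d (g * x * g⁻¹) = χ g * d x := by
  rw [h, h, map_mul, hx, mul_one]
  linear_combination h.inv g

lemma IsDer.add (h : IsDer χ d) (h' : IsDer χ d') : IsDer χ (fun g => d g + d' g) := by
  intro x y; simp only [h x y, h' x y]; ring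

lemma IsDer.smul (c : R) (h : IsDer χ d) : IsDer χ (fun g => c * d g) := by
  intro x y; simp only [h x y]; ring

lemma IsDer.sum {ι : Type*} (s : Finset ι) (D : ι → H → R) (h : ∀ i ∈ s, IsDer χ (D i)) :
    IsDer χ (fun g => ∑ i ∈ s, D i g) := by
  intro x y
  simp only [Finset.mul_sum, ← Finset.sum_add_distrib]
  exact Finset.sum_congr rfl fun i hi => h i hi x y

lemma isDer_principal (χ : H →* Rˣ) : IsDer χ (fun g => (χ g : R) - 1) := by
  intro x y; simp; ring

variable {B : Type*} (b : FreeGroupBasis B H)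

include b in
lemma IsDer.ext_basis (h : IsDer χ d) (h' : IsDer χ d') (hb : ∀ i, d (b i) = d' (b i)) : d = d' := by
  have : h.hom = h'.hom := b.ext_hom _ _ (fun i => by
    ext
    · exact hb i
    · rfl)
  funext g
  have := DFunLike.congr_fun this g
  exact congrArg Aff.a this

/-- derivation with prescribed values on a basis -/
def derOf (χ : H →* Rˣ) (v : B → R) (g : H) : R :=
  (b.lift (fun i => (⟨v i, χ (b i)⟩ : Aff R)) g).a

lemma lift_c (χ : H →* Rˣ) (v : B → R) (g : H) :
    (b.lift (fun i => (⟨v i, χ (b i)⟩ : Aff R)) g).c = χ g := by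
  have : (Aff.lin.comp (b.lift (fun i => (⟨v i, χ (b i)⟩ : Aff R)))) = χ := by
    apply b.ext_hom
    intro i
    simp
  have h2 := DFunLike.congr_fun this g
  exact h2

lemma derOf_isDer (χ : H →* Rˣ) (v : B → R) : IsDer χ (derOf b χ v) := by
  intro x y
  simp only [derOf, map_mul, Aff.mul_a, lift_c]

lemma derOf_basis (χ : H →* Rˣ) (v : B → R) (i : B) : derOf b χ v (b i) = v i := by
  simp [derOf]

lemma derOf_eq (h : IsDer χ d) : derOf b χ (fun i => d (b i)) = d :=
  IsDer.ext_basis b (derOf_isDer b _ _) h (fun i => derOf_basis b _ _ i)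

lemma derOf_add (χ : H →* Rˣ) (v v' : B → R) (g : H) :
    derOf b χ (v + v') g = derOf b χ v g + derOf b χ v' g := by
  have := IsDer.ext_basis b (derOf_isDer b χ (v + v'))
    ((derOf_isDer b χ v).add (derOf_isDer b χ v')) (fun i => by simp [derOf_basis])
  exact congrFun this g

lemma derOf_smul (χ : H →* Rˣ) (c : R) (v : B → R) (g : H) :
    derOf b χ (c • v) g = c * derOf b χ v g := by
  have := IsDer.ext_basis b (derOf_isDer b χ (c • v))
    ((derOf_isDer b χ v).smul c) (fun i => by simp [derOf_basis])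
  exact congrFun this g

end der


/-! ### Laurent polynomials -/

section laurent
variable {K : Type*} [Field K]

/-- `T ^ n` as a unit -/
noncomputable def Tu : Multiplicative ℤ →* (K[T;T⁻¹])ˣ where
  toFun n := ⟨LaurentPolynomial.T n.toAdd, LaurentPolynomial.T (-n.toAdd),
    by rw [← LaurentPolynomial.T_add]; simp, by rw [← LaurentPolynomial.T_add]; simp⟩
  map_one' := by ext1; simp
  map_mul' x y := Units.ext (LaurentPolynomial.T_add _ _)

@[simp] lemma Tu_val (n : Multiplicative ℤ) :
    ((Tu n : (K[T;T⁻¹])ˣ) : K[T;T⁻¹]) = LaurentPolynomial.T n.toAdd := rfl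

/-- specialisation `T = 1` -/
noncomputable def aug : K[T;T⁻¹] →+* K := LaurentPolynomial.eval₂ (RingHom.id K) 1

@[simp] lemma aug_C (a : K) : aug (LaurentPolynomial.C a) = a := by
  simp [aug]

@[simp] lemma aug_T (n : ℤ) : aug (K := K) (LaurentPolynomial.T n) = 1 := by
  simp [aug]

variable {H : Type*} [Group H]

/-- the character `g ↦ μ g * T ^ φ g` -/
noncomputable def chiT (μ : H →* Kˣ) (φ : H →* Multiplicative ℤ) : H →* (K[T;T⁻¹])ˣ :=
  ((Units.map (LaurentPolynomial.C : K →+* K[T;T⁻¹]).toMonoidHom).comp μ) * (Tu.comp φ)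

lemma chiT_val (μ : H →* Kˣ) (φ : H →* Multiplicative ℤ) (g : H) :
    ((chiT μ φ g : (K[T;T⁻¹])ˣ) : K[T;T⁻¹])
      = LaurentPolynomial.C (μ g : K) * LaurentPolynomial.T (φ g).toAdd := by
  simp [chiT]

lemma exists_lift [IsFreeGroup H] (μ : H →* Kˣ) (φ : H →* Multiplicative ℤ) (d : H → K)
    (hd : IsDer μ d) : ∃ D : H → K[T;T⁻¹], IsDer (chiT μ φ) D ∧ ∀ g, aug (D g) = d g := by
  let b := IsFreeGroup.basis H
  refine ⟨derOf b (chiT μ φ) (fun i => LaurentPolynomial.C (d (b i))), derOf_isDer _ _ _, ?_⟩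
  have h1 : IsDer μ (fun g => aug (derOf b (chiT μ φ) (fun i => LaurentPolynomial.C (d (b i))) g)) := by
    intro x y
    have := derOf_isDer b (chiT μ φ) (fun i => LaurentPolynomial.C (d (b i))) x y
    simp only [this, map_add, map_mul, chiT_val, aug_C, aug_T, mul_one]
  intro g
  have := IsDer.ext_basis b h1 hd (fun i => by simp [derOf_basis])
  exact congrFun this g

end laurent

/-! ### The induction -/

section main
universe u
variable {Γ : Type u} [Group Γ] [IsFreeGroup Γ] {K : Type*} [Field K] (μ : Γ →* Kˣ)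
variable {I κ : Type*} (u : I → Γ) (r : κ → Γ) (j : I → κ)

/-- the conjugates of relators -/
def rho (i : I) : Γ := u i * r (j i) * (u i)⁻¹

/-- two indices give the same 2-cell over `H` -/
def Rel (H : Subgroup Γ) (i i' : I) : Prop := j i = j i' ∧ u i * (u i')⁻¹ ∈ H

/-- surjectivity on the 2-cells over `H` -/
def Sur (H : Subgroup Γ) : Prop :=
  ∀ f : I → K, (∀ i i', Rel u j H i i' → f i = f i') →
    ∃ d : H → K, IsDer (μ.comp H.subtype) d ∧
      ∀ i (hi : rho u r j i ∈ H), d ⟨rho u r j i, hi⟩ = μ (u i) * f i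

omit [IsFreeGroup Γ] in
lemma Rel.refl (H : Subgroup Γ) (i : I) : Rel u j H i i := ⟨rfl, by simp [H.one_mem]⟩

omit [IsFreeGroup Γ] in
lemma Rel.symm {H : Subgroup Γ} {i i' : I} (h : Rel u j H i i') : Rel u j H i' i :=
  ⟨h.1.symm, by have := H.inv_mem h.2; simpa [mul_inv_rev] using this⟩

omit [IsFreeGroup Γ] in
lemma Rel.trans {H : Subgroup Γ} {i i' i'' : I} (h : Rel u j H i i') (h' : Rel u j H i' i'') :
    Rel u j H i i'' :=
  ⟨h.1.trans h'.1, by have := H.mul_mem h.2 h'.2; simpa [mul_assoc] using this⟩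

/-- the setoid of 2-cells over `H` -/
def relSetoid (H : Subgroup Γ) : Setoid I where
  r := Rel u j H
  iseqv := ⟨Rel.refl u j H, fun h => Rel.symm u j h, fun h h' => Rel.trans u j h h'⟩

omit [IsFreeGroup Γ] in
lemma Sur.mono {H H' : Subgroup Γ} (hle : H' ≤ H) (hrel : ∀ i i', Rel u j H i i' → Rel u j H' i i')
    (hS : Sur μ u r j H) : Sur μ u r j H' := by
  intro f hf
  obtain ⟨d, hd1, hd2⟩ := hS f (fun i i' h => hf i i' (hrel i i' h))
  refine ⟨fun g => d (Subgroup.inclusion hle g), ?_, ?_⟩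
  · intro x y
    have := hd1 (Subgroup.inclusion hle x) (Subgroup.inclusion hle y)
    simpa using this
  · intro i hi
    exact hd2 i (hle hi)

lemma step [Finite I] (H : Subgroup Γ) (hρ : ∀ i, rho u r j i ∈ H) (hμ : ∀ k, μ (r k) = 1)
    (hS : Sur μ u r j H) (φ : H →* Multiplicative ℤ)
    (hφ : ∀ i, φ ⟨rho u r j i, hρ i⟩ = 1) : Sur μ u r j (φ.ker.map H.subtype) := by
  classical
  intro f hf
  set H' := φ.ker.map H.subtype with hH'
  have hle : H' ≤ H := Subgroup.map_subtype_le _
  have hker : ∀ g : H', φ (Subgroup.inclusion hle g) = 1 := by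
    rintro ⟨g, hg⟩
    obtain ⟨x, hx, rfl⟩ := hg
    exact hx
  have hmem : ∀ g : H, φ g = 1 → (g : Γ) ∈ H' := fun g hg => ⟨g, hg, rfl⟩
  let S : Setoid I := relSetoid u j H
  let Q := Quotient S
  have : Finite Q := Quotient.finite _
  let _ : Fintype Q := Fintype.ofFinite _
  have hout : ∀ i : I, Rel u j H i (Quotient.mk S i).out := fun i =>
    Rel.symm u j (Quotient.exact (Quotient.out_eq (Quotient.mk S i)))
  -- scalar derivations dual to the classes
  have hd : ∀ q : Q, ∃ d : H → K, IsDer (μ.comp H.subtype) d ∧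
      ∀ i, d ⟨rho u r j i, hρ i⟩ = μ (u i) * (if (Quotient.mk S i) = q then 1 else 0) := by
    intro q
    obtain ⟨d, h1, h2⟩ := hS (fun i => if (Quotient.mk S i) = q then 1 else 0) (by
      intro i i' h
      have : Quotient.mk S i = Quotient.mk S i' := Quotient.sound h
      simp only [this])
    exact ⟨d, h1, fun i => h2 i (hρ i)⟩
  choose d hd1 hd2 using hd
  have hD : ∀ q : Q, ∃ D : H → K[T;T⁻¹], IsDer (chiT (μ.comp H.subtype) φ) D ∧
      ∀ g, aug (D g) = d q g := fun q => exists_lift _ φ (d q) (hd1 q)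
  choose D hD1 hD2 using hD
  let x : I → H := fun i => ⟨rho u r j i, hρ i⟩
  let hh : I → H := fun i => ⟨u i * (u (Quotient.mk S i).out)⁻¹, (hout i).2⟩
  have hxconj : ∀ i, x i = hh i * x (Quotient.mk S i).out * (hh i)⁻¹ := by
    intro i
    apply Subtype.ext
    have hj : j (Quotient.mk S i).out = j i := (hout i).1.symm
    simp only [x, hh, rho, Subgroup.coe_mul, Subgroup.coe_inv, hj]
    group
  have hχ : ∀ i, chiT (μ.comp H.subtype) φ (x i) = 1 := by
    intro i
    ext1
    rw [chiT_val]
    have h1 : φ (x i) = 1 := hφ i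
    have h2 : (μ.comp H.subtype) (x i) = 1 := by
      simp only [x, rho, MonoidHom.comp_apply, Subgroup.coe_subtype, map_mul, hμ, map_inv, mul_one,
        mul_inv_cancel]
    rw [h1, h2]; simp
  have hDx : ∀ q i, D q (x i) =
      (chiT (μ.comp H.subtype) φ (hh i) : (K[T;T⁻¹])ˣ) * D q (x (Quotient.mk S i).out) := by
    intro q i
    conv_lhs => rw [hxconj i]
    exact (hD1 q).conj _ _ (hχ _)
  let A : Matrix Q Q (K[T;T⁻¹]) := Matrix.of fun q q' =>
    LaurentPolynomial.C (((μ (u q'.out))⁻¹ : Kˣ) : K) * D q (x q'.out)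
  have hAapp : ∀ q q', A q q' =
    LaurentPolynomial.C (((μ (u q'.out))⁻¹ : Kˣ) : K) * D q (x q'.out) := fun _ _ => rfl
  have hA : A.map aug = 1 := by
    ext q q'
    rw [Matrix.map_apply, hAapp, map_mul, aug_C, hD2]
    have hx : d q (x q'.out) = _ := hd2 q q'.out
    rw [hx]
    have hq' : Quotient.mk S q'.out = q' := Quotient.out_eq q'
    rw [hq']
    by_cases h : q' = q
    · subst h; simp
    · simp [h, Ne.symm h]
  have hdet1 : aug A.det = 1 := by
    rw [RingHom.map_det]
    have : (aug (K := K)).mapMatrix A = 1 := hA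
    rw [this, Matrix.det_one]
  have hdet : A.det ≠ 0 := by
    intro h; rw [h, map_zero] at hdet1; exact zero_ne_one hdet1
  set Δ := A.det with hΔ
  let D' : Q → H → K[T;T⁻¹] := fun q g => ∑ q'', A.adjugate q q'' * D q'' g
  have hD'1 : ∀ q, IsDer (chiT (μ.comp H.subtype) φ) (D' q) := fun q =>
    IsDer.sum _ _ (fun q'' _ => (hD1 q'').smul _)
  have hadj : ∀ q q' : Q, ∑ q'', A.adjugate q q'' * A q'' q' = if q = q' then Δ else 0 := by
    intro q q'
    have := congrFun (congrFun (Matrix.adjugate_mul A) q) q'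
    rw [Matrix.mul_apply] at this
    rw [this]
    by_cases h : q = q'
    · subst h; simp [Δ]
    · simp [h]
  have hD'2 : ∀ q i, D' q (x i) = LaurentPolynomial.C (μ (u i) : K) *
      (LaurentPolynomial.T (φ (hh i)).toAdd * (if q = Quotient.mk S i then Δ else 0)) := by
    intro q i
    rw [← hadj q (Quotient.mk S i)]
    simp only [D', Finset.mul_sum]
    refine Finset.sum_congr rfl fun q'' _ => ?_
    rw [hAapp, hDx q'' i, chiT_val]
    have h3 : ((μ.comp H.subtype) (hh i) : K) = (μ (u i) : K) *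
        (((μ (u (Quotient.mk S i).out))⁻¹ : Kˣ) : K) := by
      simp only [hh, MonoidHom.comp_apply, Subgroup.coe_subtype, map_mul, map_inv, Units.val_mul]
    rw [h3, map_mul]
    ring
  -- linear functionals
  have hinj : Function.Injective (LinearMap.mulRight K Δ) := by
    intro a b hab
    simp only [LinearMap.mulRight_apply] at hab
    exact mul_right_cancel₀ hdet hab
  obtain ⟨gl, hgl⟩ := LinearMap.exists_leftInverse_of_injective (LinearMap.mulRight K Δ)
    (LinearMap.ker_eq_bot.mpr hinj)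
  let Fq : Q → ℤ → K := fun q k =>
    if h : ∃ i, Quotient.mk S i = q ∧ (φ (hh i)).toAdd = k then f h.choose else 0
  let ell : Q → (K[T;T⁻¹] →ₗ[K] K) := fun q =>
    ((AddMonoidAlgebra.basis ℤ K).constr K (Fq q)).comp gl
  have hell : ∀ q k, ell q (LaurentPolynomial.T k * Δ) = Fq q k := by
    intro q k
    have h1 : gl (LaurentPolynomial.T k * Δ) = LaurentPolynomial.T k := by
      have := LinearMap.congr_fun hgl (LaurentPolynomial.T k)
      simpa using this
    have h2 : (LaurentPolynomial.T k : K[T;T⁻¹]) = (AddMonoidAlgebra.basis ℤ K) k := by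
      rw [AddMonoidAlgebra.basis_apply]; rfl
    simp only [ell, LinearMap.comp_apply, h1]
    rw [h2, Module.Basis.constr_basis]
  refine ⟨fun g => ∑ q, ell q (D' q (Subgroup.inclusion hle g)), ?_, ?_⟩
  · apply IsDer.sum
    intro q _ g h
    have h1 := hD'1 q (Subgroup.inclusion hle g) (Subgroup.inclusion hle h)
    show ell q (D' q (Subgroup.inclusion hle (g * h))) =
      ell q (D' q (Subgroup.inclusion hle g)) +
        ((μ.comp H'.subtype) g : K) * ell q (D' q (Subgroup.inclusion hle h))
    rw [map_mul, h1, chiT_val, hker g]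
    have h4 : LaurentPolynomial.C ((μ.comp H.subtype) (Subgroup.inclusion hle g) : K) *
        LaurentPolynomial.T (Multiplicative.toAdd (1 : Multiplicative ℤ)) *
        D' q (Subgroup.inclusion hle h) =
        ((μ.comp H'.subtype) g : K) • D' q (Subgroup.inclusion hle h) := by
      rw [toAdd_one, LaurentPolynomial.T_zero, mul_one, LaurentPolynomial.smul_eq_C_mul]
      rfl
    rw [h4, map_add, map_smul, smul_eq_mul]
  · intro i hi
    have h5 : ∀ q, ell q (D' q (Subgroup.inclusion hle ⟨rho u r j i, hi⟩)) =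
        if q = Quotient.mk S i then (μ (u i) : K) * Fq q (φ (hh i)).toAdd else 0 := by
      intro q
      have : Subgroup.inclusion hle ⟨rho u r j i, hi⟩ = x i := rfl
      rw [this, hD'2 q i]
      by_cases hq : q = Quotient.mk S i
      · simp only [hq, if_true]
        rw [← LaurentPolynomial.smul_eq_C_mul, map_smul, hell, smul_eq_mul]
      · simp [hq]
    show ∑ q, ell q (D' q (Subgroup.inclusion hle ⟨rho u r j i, hi⟩)) = _
    rw [Finset.sum_eq_single (Quotient.mk S i) (fun q _ hq => by rw [h5, if_neg hq])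
      (fun h => absurd (Finset.mem_univ _) h), h5, if_pos rfl]
    congr 1
    have hex : ∃ i', Quotient.mk S i' = Quotient.mk S i ∧
        (φ (hh i')).toAdd = (φ (hh i)).toAdd := ⟨i, rfl, rfl⟩
    have hFq : Fq (Quotient.mk S i) (φ (hh i)).toAdd = f hex.choose := dif_pos hex
    rw [hFq]
    apply hf
    obtain ⟨e1, e2⟩ := hex.choose_spec
    refine ⟨((Quotient.exact e1 : Rel u j H _ _)).1, ?_⟩
    have e3 : φ (hh hex.choose * (hh i)⁻¹) = 1 := by
      rw [map_mul, map_inv, Multiplicative.toAdd.injective e2, mul_inv_cancel]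
    have e4 := hmem _ e3
    have e5 : ((hh hex.choose * (hh i)⁻¹ : H) : Γ) = u hex.choose * (u i)⁻¹ := by
      have : (Quotient.mk S hex.choose).out = (Quotient.mk S i).out := by rw [e1]
      simp only [hh, Subgroup.coe_mul, Subgroup.coe_inv, this]
      group
    rwa [e5] at e4

/-- `derOf` for the trivial character, as a homomorphism to `ℤ` -/
noncomputable def homZ {H : Type*} [Group H] {B : Type*} (b : FreeGroupBasis B H) (v : B → ℤ) :
    H →* Multiplicative ℤ where
  toFun g := Multiplicative.ofAdd (derOf b (1 : H →* ℤˣ) v g)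
  map_one' := by rw [(derOf_isDer b _ v).one]; rfl
  map_mul' x y := by
    have := derOf_isDer b (1 : H →* ℤˣ) v x y
    rw [this]; simp

lemma count [Finite I] (H : Subgroup Γ) (hρ : ∀ i, rho u r j i ∈ H) (hμ : ∀ k, μ (r k) = 1)
    (hS : Sur μ u r j H) (w : Γ) (hw : w ∈ H) (hμw : μ w ≠ 1) :
    ∃ φ : H →* Multiplicative ℤ, φ ≠ 1 ∧ ∀ i, φ ⟨rho u r j i, hρ i⟩ = 1 := by
  classical
  by_contra hno
  have hno' : ∀ φ : H →* Multiplicative ℤ, (∀ i, φ ⟨rho u r j i, hρ i⟩ = 1) → φ = 1 := by
    intro φ h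
    by_contra h1
    exact hno ⟨φ, h1, h⟩
  let S : Setoid I := relSetoid u j H
  let Q := Quotient S
  have : Finite Q := Quotient.finite _
  let _ : Fintype Q := Fintype.ofFinite _
  have hout : ∀ i : I, Rel u j H i (Quotient.mk S i).out := fun i =>
    Rel.symm u j (Quotient.exact (Quotient.out_eq (Quotient.mk S i)))
  let x : I → H := fun i => ⟨rho u r j i, hρ i⟩
  let hh : I → H := fun i => ⟨u i * (u (Quotient.mk S i).out)⁻¹, (hout i).2⟩
  have hxconj : ∀ i, x i = hh i * x (Quotient.mk S i).out * (hh i)⁻¹ := by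
    intro i
    apply Subtype.ext
    have hj : j (Quotient.mk S i).out = j i := (hout i).1.symm
    simp only [x, hh, rho, Subgroup.coe_mul, Subgroup.coe_inv, hj]
    group
  let b := IsFreeGroup.basis H
  -- integral count
  have key : ∀ {α : Type} [Fintype α] (e : α → IsFreeGroup.Generators H), Function.Injective e →
      Fintype.card α ≤ Fintype.card Q := by
    intro α _ e he
    let L : (α → ℤ) →ₗ[ℤ] (Q → ℤ) :=
      { toFun := fun z q => derOf b (1 : H →* ℤˣ) (Function.extend e z 0) (x q.out)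
        map_add' := by
          intro z z'
          funext q
          have : Function.extend e (z + z') 0 = Function.extend e z 0 + Function.extend e z' 0 := by
            funext i
            by_cases h : ∃ a, e a = i
            · obtain ⟨a, rfl⟩ := h
              simp [he.extend_apply]
            · simp [Function.extend_apply' _ _ _ h]
          rw [this]
          exact derOf_add b _ _ _ _
        map_smul' := by
          intro c z
          funext q
          have : Function.extend e (c • z) 0 = c • Function.extend e z 0 := by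
            funext i
            by_cases h : ∃ a, e a = i
            · obtain ⟨a, rfl⟩ := h
              simp [he.extend_apply]
            · simp [Function.extend_apply' _ _ _ h]
          rw [this]
          exact derOf_smul b _ _ _ _ }
    have hL : Function.Injective L := by
      rw [injective_iff_map_eq_zero]
      intro z hz
      have h1 : homZ b (Function.extend e z 0) = 1 := by
        apply hno'
        intro i
        have h2 : (homZ b (Function.extend e z 0)) (x (Quotient.mk S i).out) = 1 := by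
          have := congrFun hz (Quotient.mk S i)
          exact congrArg Multiplicative.ofAdd this
        change (homZ b (Function.extend e z 0)) (x i) = 1
        rw [hxconj i, map_mul, map_mul, h2, mul_one, map_inv, mul_inv_cancel]
      funext a
      have h3 := DFunLike.congr_fun h1 (b (e a))
      have h4 : derOf b (1 : H →* ℤˣ) (Function.extend e z 0) (b (e a)) = 0 :=
        Multiplicative.ofAdd.injective h3
      rw [derOf_basis, he.extend_apply] at h4
      exact h4
    exact card_le_of_injective ℤ L hL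
  have hfin : Finite (IsFreeGroup.Generators H) := by
    by_contra hinf
    rw [not_finite_iff_infinite] at hinf
    have := key (α := Fin (Fintype.card Q + 1))
      (fun i => Infinite.natEmbedding (IsFreeGroup.Generators H) i) (by
        intro a c hac
        exact Fin.ext ((Infinite.natEmbedding _).injective hac))
    simp at this
  let _ : Fintype (IsFreeGroup.Generators H) := Fintype.ofFinite _
  have hcard : Fintype.card (IsFreeGroup.Generators H) ≤ Fintype.card Q := by
    have := key (α := Fin (Fintype.card (IsFreeGroup.Generators H)))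
      (fun i => (Fintype.equivFin _).symm i) (Equiv.injective _)
    simpa using this
  -- twisted count
  let Ψ : (IsFreeGroup.Generators H → K) →ₗ[K] (Q → K) :=
    { toFun := fun v q => (((μ (u q.out))⁻¹ : Kˣ) : K) * derOf b (μ.comp H.subtype) v (x q.out)
      map_add' := by
        intro v v'
        funext q
        simp only [Pi.add_apply, derOf_add, mul_add]
      map_smul' := by
        intro c v
        funext q
        simp only [derOf_smul, RingHom.id_apply, Pi.smul_apply, smul_eq_mul]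
        ring }
  have hsurj : Function.Surjective Ψ := by
    intro g
    obtain ⟨d, hd1, hd2⟩ := hS (fun i => g (Quotient.mk S i)) (by
      intro i i' h
      have : Quotient.mk S i = Quotient.mk S i' := Quotient.sound h
      simp only [this])
    refine ⟨fun i => d (b i), ?_⟩
    funext q
    show (((μ (u q.out))⁻¹ : Kˣ) : K) * derOf b (μ.comp H.subtype) (fun i => d (b i)) (x q.out) = _
    rw [derOf_eq b hd1]
    have h1 : d (x q.out) = _ := hd2 q.out (hρ _)
    rw [h1]
    have hq : Quotient.mk S q.out = q := Quotient.out_eq q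
    simp only [hq]
    rw [← mul_assoc, ← Units.val_mul]
    simp
  have hcard2 : Fintype.card Q ≤ Fintype.card (IsFreeGroup.Generators H) :=
    card_le_of_surjective K Ψ hsurj
  have hinj : Function.Injective Ψ := by
    rw [LinearMap.injective_iff_surjective_of_finrank_eq_finrank]
    · exact hsurj
    · simp only [Module.finrank_fintype_fun_eq_card]; omega
  have hv : Ψ (fun i => (((μ.comp H.subtype) (b i) : Kˣ) : K) - 1) = 0 := by
    funext q
    show (((μ (u q.out))⁻¹ : Kˣ) : K) * derOf b (μ.comp H.subtype)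
      (fun i => (((μ.comp H.subtype) (b i) : Kˣ) : K) - 1) (x q.out) = 0
    rw [derOf_eq b (isDer_principal (μ.comp H.subtype))]
    have h2 : (μ.comp H.subtype) (x q.out) = 1 := by
      simp only [x, rho, MonoidHom.comp_apply, Subgroup.coe_subtype, map_mul, hμ, map_inv, mul_one,
        mul_inv_cancel]
    show (((μ (u q.out))⁻¹ : Kˣ) : K) * ((((μ.comp H.subtype) (x q.out) : Kˣ) : K) - 1) = 0
    rw [h2]; simp
  have hv0 := hinj (hv.trans (map_zero Ψ).symm)
  have h5 : (fun g : H => (((μ.comp H.subtype) g : Kˣ) : K) - 1) = fun _ => 0 := by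
    apply IsDer.ext_basis b (isDer_principal (μ.comp H.subtype))
    · intro g h; simp
    · intro i; exact congrFun hv0 i
  have h6 := congrFun h5 ⟨w, hw⟩
  apply hμw
  ext1
  have : (μ w : K) - 1 = 0 := h6
  rw [sub_eq_zero] at this
  simpa using this

/-- the subgroup of `H` generated by the elements `p * q⁻¹` of `H`, `p, q ∈ P` -/
def HP (P : Finset Γ) (H : Subgroup Γ) : Subgroup Γ :=
  Subgroup.closure {g | g ∈ H ∧ ∃ p ∈ P, ∃ q ∈ P, g = p * q⁻¹}

omit [IsFreeGroup Γ] in
lemma HP_le (P : Finset Γ) (H : Subgroup Γ) : HP P H ≤ H := by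
  rw [HP, Subgroup.closure_le]
  exact fun g hg => hg.1

omit [IsFreeGroup Γ] in
lemma mem_HP {P : Finset Γ} {H : Subgroup Γ} {p q : Γ} (hp : p ∈ P) (hq : q ∈ P)
    (h : p * q⁻¹ ∈ H) : p * q⁻¹ ∈ HP P H :=
  Subgroup.subset_closure ⟨h, p, hp, q, hq, rfl⟩

omit [IsFreeGroup Γ] in
lemma HP_HP (P : Finset Γ) (H : Subgroup Γ) : HP P (HP P H) = HP P H := by
  apply le_antisymm (HP_le _ _)
  conv_lhs => rw [HP]
  rw [Subgroup.closure_le]
  rintro g ⟨hg, p, hp, q, hq, rfl⟩
  exact mem_HP hp hq (mem_HP hp hq hg)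

lemma tower [Finite I] (P : Finset Γ) (hP1 : (1 : Γ) ∈ P) (hPu : ∀ i, u i ∈ P)
    (hPr : ∀ i, u i * r (j i) ∈ P) (hμ : ∀ k, μ (r k) = 1) (w : Γ) (hPw : w ∈ P) (m : ℕ)
    (hm : m ≠ 0) (hwm : w ^ m ∈ Subgroup.closure (Set.range (rho u r j))) (hμw : μ w ≠ 1) :
    ∀ (n : ℕ) (H : Subgroup Γ), {pq : Γ × Γ | pq.1 ∈ P ∧ pq.2 ∈ P ∧ pq.1 * pq.2⁻¹ ∈ H}.ncard = n →
      HP P H = H → (∀ i, rho u r j i ∈ H) → w ∈ H → Sur μ u r j H → False := by
  intro n
  induction n using Nat.strong_induction_on with
  | _ n ih =>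
    intro H hn hHP hρ hw hS
    obtain ⟨φ, hφ1, hφ⟩ := count μ u r j H hρ hμ hS w hw hμw
    set H1 := φ.ker.map H.subtype with hH1
    have hle1 : H1 ≤ H := Subgroup.map_subtype_le _
    have hker : ∀ (g : Γ) (hg : g ∈ H1), φ ⟨g, hle1 hg⟩ = 1 := by
      intro g hg
      obtain ⟨y, hy, rfl⟩ := hg
      exact hy
    have hmem : ∀ (g : Γ) (hg : g ∈ H), φ ⟨g, hg⟩ = 1 → g ∈ H1 := fun g hg h => ⟨⟨g, hg⟩, h, rfl⟩
    have hρ1 : ∀ i, rho u r j i ∈ H1 := fun i => hmem _ (hρ i) (hφ i)
    have hS1 : Sur μ u r j H1 := step μ u r j H hρ hμ hS φ hφ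
    have hw1 : w ∈ H1 := by
      apply hmem w hw
      have h1 : w ^ m ∈ H1 := by
        have : Subgroup.closure (Set.range (rho u r j)) ≤ H1 := by
          rw [Subgroup.closure_le]
          rintro _ ⟨i, rfl⟩
          exact hρ1 i
        exact this hwm
      have h2 := hker _ h1
      have h3 : (φ ⟨w, hw⟩) ^ m = 1 := by
        rw [← map_pow]
        exact h2
      have h4 : m • (φ ⟨w, hw⟩).toAdd = 0 := by
        have := congrArg Multiplicative.toAdd h3
        simpa using this
      have h5 : (φ ⟨w, hw⟩).toAdd = 0 := by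
        rcases smul_eq_zero.mp h4 with h | h
        · exact absurd h hm
        · exact h
      exact Multiplicative.toAdd.injective h5
    have hle2 : HP P H1 ≤ H1 := HP_le _ _
    refine ih _ ?_ (HP P H1) rfl (HP_HP _ _) ?_ ?_ ?_
    · rw [← hn]
      apply Set.ncard_lt_ncard _ ?_
      · refine ⟨fun pq h => ⟨h.1, h.2.1, hle1 (hle2 h.2.2)⟩, ?_⟩
        intro hsub
        apply hφ1
        have hHle : H ≤ H1 := by
          rw [← hHP]
          conv_lhs => rw [HP]
          rw [Subgroup.closure_le]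
          rintro g ⟨hg, p, hp, q, hq, rfl⟩
          exact hle2 (hsub (a := (p, q)) ⟨hp, hq, hg⟩).2.2
        ext ⟨g, hg⟩
        rw [hker g (hHle hg)]
        rfl
      · apply Set.Finite.subset (P ×ˢ P).finite_toSet
        intro pq h
        simp only [Finset.coe_product, Set.mem_prod, Finset.mem_coe]
        exact ⟨h.1, h.2.1⟩
    · intro i
      exact mem_HP (hPr i) (hPu i) (hρ1 i)
    · have := mem_HP hPw hP1 (H := H1) (by simpa using hw1)
      simpa using this
    · exact Sur.mono μ u r j hle2 (fun i i' h => ⟨h.1, mem_HP (hPu i) (hPu i') h.2⟩) hS1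

omit [IsFreeGroup Γ] in
lemma exists_finset_conj (r : κ → Γ) (x : Γ) (hx : x ∈ Subgroup.normalClosure (Set.range r)) :
    ∃ s : Finset (Γ × κ), x ∈ Subgroup.closure ((fun p : Γ × κ => p.1 * r p.2 * p.1⁻¹) '' s) := by
  classical
  unfold Subgroup.normalClosure at hx
  induction hx using Subgroup.closure_induction with
  | mem x hx =>
    rw [Group.mem_conjugatesOfSet_iff] at hx
    obtain ⟨y, ⟨k, rfl⟩, hy⟩ := hx
    rw [isConj_iff] at hy
    obtain ⟨c, rfl⟩ := hy
    exact ⟨{(c, k)}, Subgroup.subset_closure ⟨(c, k), by simp, rfl⟩⟩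
  | one => exact ⟨∅, Subgroup.one_mem _⟩
  | mul x y _ _ hx hy =>
    obtain ⟨s, hs⟩ := hx
    obtain ⟨t, ht⟩ := hy
    refine ⟨s ∪ t, Subgroup.mul_mem _ ?_ ?_⟩
    · refine Subgroup.closure_mono (Set.image_mono ?_) hs
      simp
    · refine Subgroup.closure_mono (Set.image_mono ?_) ht
      simp
  | inv x _ hx =>
    obtain ⟨s, hs⟩ := hx
    exact ⟨s, Subgroup.inv_mem _ hs⟩

/-- **Torsion theorem.** If `μ : Γ →* Kˣ` (`Γ` free) kills the relators `r k` and every function on
the index set of relators is `k ↦ d (r k)` for a `μ`-derivation `d` of `Γ`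
(i.e. `H₂(presentation complex; K_μ) = 0`), then `μ w = 1` for every `w` with a positive power in the
normal closure of the relators. -/
theorem torsion (r : κ → Γ) (hμ : ∀ k, μ (r k) = 1)
    (hS : ∀ g : κ → K, ∃ d : Γ → K, IsDer μ d ∧ ∀ k, d (r k) = g k)
    (w : Γ) (m : ℕ) (hm : m ≠ 0) (hw : w ^ m ∈ Subgroup.normalClosure (Set.range r)) :
    μ w = 1 := by
  classical
  by_contra hμw
  obtain ⟨s, hs⟩ := exists_finset_conj r _ hw
  let u : s → Γ := fun p => p.1.1
  let j : s → κ := fun p => p.1.2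
  have hrange : ((fun p : Γ × κ => p.1 * r p.2 * p.1⁻¹) '' s) = Set.range (rho u r j) := by
    ext x
    constructor
    · rintro ⟨p, hp, rfl⟩
      exact ⟨⟨p, hp⟩, rfl⟩
    · rintro ⟨p, rfl⟩
      exact ⟨p.1, p.2, rfl⟩
  rw [hrange] at hs
  let P : Finset Γ := {1, w} ∪ (Finset.univ.image u ∪ Finset.univ.image (fun i => u i * r (j i)))
  have hP1 : (1 : Γ) ∈ P := by simp [P]
  have hPw : w ∈ P := by simp [P]
  have hPu : ∀ i, u i ∈ P := fun i => by
    simp only [P, Finset.mem_union, Finset.mem_image, Finset.mem_univ, true_and]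
    exact Or.inr (Or.inl ⟨i, rfl⟩)
  have hPr : ∀ i, u i * r (j i) ∈ P := fun i => by
    simp only [P, Finset.mem_union, Finset.mem_image, Finset.mem_univ, true_and]
    exact Or.inr (Or.inr ⟨i, rfl⟩)
  have hStop : Sur μ u r j ⊤ := by
    intro f hf
    let g : κ → K := fun k => if h : ∃ i, j i = k then f h.choose else 0
    obtain ⟨d, hd1, hd2⟩ := hS g
    refine ⟨fun x => d x.1, fun x y => hd1 x.1 y.1, ?_⟩
    intro i _
    show d (u i * r (j i) * (u i)⁻¹) = _
    rw [hd1.conj _ _ (hμ _), hd2]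
    congr 1
    have hex : ∃ i', j i' = j i := ⟨i, rfl⟩
    have : g (j i) = f hex.choose := dif_pos hex
    rw [this]
    exact hf _ _ ⟨hex.choose_spec, Subgroup.mem_top _⟩
  refine tower μ u r j P hP1 hPu hPr hμ w hPw m hm hs hμw _ (HP P ⊤) rfl (HP_HP _ _) ?_ ?_ ?_
  · intro i
    exact mem_HP (hPr i) (hPu i) (Subgroup.mem_top _)
  · have := mem_HP hPw hP1 (H := (⊤ : Subgroup Γ)) (Subgroup.mem_top _)
    simpa using this
  · exact Sur.mono μ u r j (HP_le _ _)
      (fun i i' h => ⟨h.1, mem_HP (hPu i) (hPu i') (Subgroup.mem_top _)⟩) hStop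

end main

end Crest.Agent.R251.Tor711
end

-- ▼ part R251/YC971a
section

/-!
Row 251 (S0388), Y side (helper971): the lifted cell structure of a `TwoCx` in a free `G`-cover, the
holonomy of edge words, and the derivation attached to an additive equivariant path function.
-/

set_option autoImplicit false

open scoped unitInterval

namespace Crest.Agent.R251.YC

open Crest.Agent.R197 Crest.Agent.R197.TwoCx Crest.Agent.R251.Tor711

/-- `q : E → X` is a covering with `G` acting on `E` over `X`, freely and transitively on fibres. -/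
structure GCov (G : Type) [Group G] {E X : Type} [TopologicalSpace E] [TopologicalSpace X]
    [MulAction G E] (q : E → X) : Prop where
  cov : IsCoveringMap q
  surj : Function.Surjective q
  inv : ∀ (g : G) (z : E), q (g • z) = q z
  tra : ∀ z z' : E, q z = q z' → ∃ g : G, g • z = z'
  free : ∀ (g : G) (z : E), g • z = z → g = 1

theorem GCov.smul_inj {G : Type} [Group G] {E X : Type} [TopologicalSpace E] [TopologicalSpace X]
    [MulAction G E] {q : E → X} (h : GCov G q) {g g' : G} {z : E} (hz : g • z = g' • z) : g = g' := by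
  have : (g'⁻¹ * g) • z = z := by rw [mul_smul, hz, inv_smul_smul]
  have := h.free _ _ this
  rwa [inv_mul_eq_one, eq_comm] at this

section lifts
variable {G : Type} [Group G] {E X : Type} [TopologicalSpace E] [TopologicalSpace X]
  [MulAction G E] {q : E → X} (h : GCov G q) (C : TwoCx X)

include h

/-- lifted vertices -/
noncomputable def vt (o : C.O) : E := (h.surj (C.v o)).choose

theorem q_vt (o : C.O) : q (vt h C o) = C.v o := (h.surj (C.v o)).choose_spec

/-- lifted edges -/
noncomputable def et (i : C.E) : C(I, E) :=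
  h.cov.liftPath (C.e i) (vt h C (C.src i)) ((C.e_zero i).trans (q_vt h C _).symm)


theorem q_et (i : C.E) (s : I) : q (et h C i s) = C.e i s :=
  congrFun (h.cov.liftPath_lifts (C.e i) (vt h C (C.src i)) ((C.e_zero i).trans (q_vt h C _).symm)) s


theorem exists_gam (i : C.E) : ∃ g : G, g • vt h C (C.tgt i) = et h C i 1 :=
  h.tra _ _ (by rw [q_vt h, q_et h, C.e_one])

/-- the group element of an edge -/
noncomputable def gam (i : C.E) : G := (exists_gam h C i).choose


theorem exists_ft (j : C.J) : ∃ u : C(I × I, E), ∀ z, q (u z) = C.f j z := by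
  obtain ⟨e, he⟩ := h.surj (C.f j (0, 0))
  obtain ⟨u, -, hu⟩ := exists_liftSq h.cov (C.f j) e he.symm
  exact ⟨u, hu⟩

/-- lifted faces -/
noncomputable def ft (j : C.J) : C(I × I, E) := (exists_ft h C j).choose

theorem q_ft (j : C.J) (z : I × I) : q (ft h C j z) = C.f j z := (exists_ft h C j).choose_spec z

/-- the holonomy homomorphism -/
noncomputable def Gam : FreeGroup C.E →* G := FreeGroup.lift (gam h C)

@[simp] theorem Gam_of (i : C.E) : Gam h C (FreeGroup.of i) = gam h C i := by simp [Gam]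

omit h in
/-- the part of the covering over the 1-skeleton -/
abbrev M1 (C : TwoCx X) (q : E → X) : Type := {y : E // q y ∈ C.X1}

variable [ContinuousConstSMul G E]


end lifts

/-- An additive, homotopy invariant, equivariant function on paths over the 1-skeleton. -/
structure PF {G : Type} [Group G] {E X : Type} [TopologicalSpace E] [TopologicalSpace X]
    [MulAction G E] (q : E → X) (C : TwoCx X) {K : Type} [Field K] (μ : G →* Kˣ) where
  Λ : ∀ {a b : M1 C q}, Path a b → K
  trans : ∀ {a b c : M1 C q} (p : Path a b) (p' : Path b c), Λ (p.trans p') = Λ p + Λ p'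
  homotopic : ∀ {a b : M1 C q} (p p' : Path a b), p.Homotopic p' → Λ p = Λ p'
  equi : ∀ (g : G) {a b a' b' : M1 C q} (p : Path a b) (p' : Path a' b'),
    (∀ t, (p' t).1 = g • (p t).1) → Λ p' = (μ g : K) * Λ p

section pf
variable {G : Type} [Group G] {E X : Type} [TopologicalSpace E] [TopologicalSpace X]
  [MulAction G E] {q : E → X} {C : TwoCx X} {K : Type} [Field K] {μ : G →* Kˣ} (W : PF q C μ)

theorem PF.refl (a : M1 C q) : W.Λ (Path.refl a) = 0 := by
  have h1 := W.trans (Path.refl a) (Path.refl a)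
  have h2 := W.homotopic ((Path.refl a).trans (Path.refl a)) (Path.refl a)
    ⟨Path.Homotopy.transRefl (Path.refl a)⟩
  rw [h2] at h1
  simpa using h1

theorem PF.symm {a b : M1 C q} (p : Path a b) : W.Λ p.symm = - W.Λ p := by
  have h1 := W.trans p p.symm
  have h2 := W.homotopic (p.trans p.symm) (Path.refl a)
    ⟨(Path.Homotopy.reflTransSymm p).symm⟩
  rw [h2, W.refl] at h1
  exact (neg_eq_of_add_eq_zero_right h1.symm).symm

theorem PF.congr {a b a' b' : M1 C q} (p : Path a b) (p' : Path a' b')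
    (hp : ∀ t, (p' t).1 = (p t).1) : W.Λ p' = W.Λ p := by
  have := W.equi 1 p p' (fun t => by rw [one_smul]; exact hp t)
  simpa using this

end pf

section main
variable {G : Type} [Group G] {E X : Type} [TopologicalSpace E] [TopologicalSpace X]
  [MulAction G E] [ContinuousConstSMul G E] {q : E → X} (h : GCov G q) {C : TwoCx X}
  {K : Type} [Field K] {μ : G →* Kˣ} (W : PF q C μ)



end main

end Crest.Agent.R251.YC
end

-- ▼ part R251/YC971b
section

/-!
Row 251 (S0388), Y side (helper971): the open 2-cells of a free `G`-cover of a `TwoCx`: open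
embeddings, pairwise disjoint translates, closed set of centres.
-/

set_option autoImplicit false

open scoped unitInterval
open Topology

namespace Crest.Agent.R251.YC

open Crest.Agent.R197 Crest.Agent.R197.TwoCx

theorem isOpen_Sint : IsOpen Sint := by
  have : IsOpen Iint := isOpen_Ioo
  exact this.prod this

section base
variable {X : Type} [TopologicalSpace X] (C : TwoCx X)

/-- a point of a closed cell which is not in the open cell is not in any open cell -/
theorem f_ne_of_notMem {j j' : C.J} {s s' : I × I} (hs : s ∈ Sint) (hs' : s' ∉ Sint) :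
    C.f j s ≠ C.f j' s' := by
  intro heq
  rcases C.f_bd j' s' hs' with ⟨o, ho⟩ | ⟨i, t, hi⟩
  · exact C.f_ne_v j s o hs (heq.trans ho)
  · exact C.f_ne_e j s i t hs (heq.trans hi)

theorem f_eq_iff {j j' : C.J} {s s' : I × I} (hs : s ∈ Sint) (heq : C.f j s = C.f j' s') :
    j = j' ∧ s = s' := by
  by_cases hs' : s' ∈ Sint
  · exact C.f_inj j j' s s' hs hs' heq
  · exact absurd heq (f_ne_of_notMem C hs hs')

theorem f_notMem_X1 {j : C.J} {s : I × I} (hs : s ∈ Sint) : C.f j s ∉ C.X1 := by
  rintro (⟨o, ho⟩ | ⟨i, t, hi⟩)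
  · exact C.f_ne_v j s o hs ho
  · exact C.f_ne_e j s i t hs hi

/-- open subsets of open cells are open -/
theorem isOpen_f_image (j : C.J) {W : Set (I × I)} (hW : IsOpen W) (hWS : W ⊆ Sint) :
    IsOpen (C.f j '' W) := by
  rw [← isClosed_compl_iff]
  apply C.closed2
  · intro i
    have : C.e i ⁻¹' (C.f j '' W)ᶜ = Set.univ := by
      ext t
      simp only [Set.mem_preimage, Set.mem_compl_iff, Set.mem_univ, iff_true]
      rintro ⟨s, hs, hst⟩
      exact C.f_ne_e j s i t (hWS hs) hst
    rw [this]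
    exact isClosed_univ
  · intro j'
    by_cases hj : j = j'
    · subst hj
      have : C.f j ⁻¹' (C.f j '' W)ᶜ = Wᶜ := by
        ext t
        simp only [Set.mem_preimage, Set.mem_compl_iff, not_iff_not]
        constructor
        · rintro ⟨s, hs, hst⟩
          rw [← (f_eq_iff C (hWS hs) hst).2]
          exact hs
        · intro ht
          exact ⟨t, ht, rfl⟩
      rw [this]
      exact hW.isClosed_compl
    · have : C.f j' ⁻¹' (C.f j '' W)ᶜ = Set.univ := by
        ext t
        simp only [Set.mem_preimage, Set.mem_compl_iff, Set.mem_univ, iff_true]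
        rintro ⟨s, hs, hst⟩
        exact hj (f_eq_iff C (hWS hs) hst).1
      rw [this]
      exact isClosed_univ

/-- the open cell of `X` -/
theorem isOpenEmbedding_f (j : C.J) : IsOpenEmbedding (fun z : Sint => C.f j z.1) := by
  refine IsOpenEmbedding.of_continuous_injective_isOpenMap
    ((C.f j).continuous.comp continuous_subtype_val) ?_ ?_
  · intro z z' hz
    exact Subtype.ext (f_eq_iff C z.2 hz).2
  · intro W hW
    obtain ⟨V, hV, rfl⟩ := isOpen_induced_iff.1 hW
    have : (fun z : Sint => C.f j z.1) '' (Subtype.val ⁻¹' V) = C.f j '' (V ∩ Sint) := by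
      ext x
      constructor
      · rintro ⟨z, hz, rfl⟩
        exact ⟨z.1, ⟨hz, z.2⟩, rfl⟩
      · rintro ⟨z, ⟨hz, hz'⟩, rfl⟩
        exact ⟨⟨z, hz'⟩, hz, rfl⟩
    rw [this]
    exact isOpen_f_image C j (hV.inter isOpen_Sint) Set.inter_subset_right

/-- centres (or any choice of one point in each open cell) form a closed set -/
theorem isClosed_centres (c : I × I) (hc : c ∈ Sint) : IsClosed {x : X | ∃ j, x = C.f j c} := by
  apply C.closed2
  · intro i
    have : C.e i ⁻¹' {x : X | ∃ j, x = C.f j c} = ∅ := by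
      ext t
      simp only [Set.mem_preimage, Set.mem_ofPred_eq, Set.mem_empty_iff_false, iff_false]
      rintro ⟨j, hj⟩
      exact C.f_ne_e j c i t hc hj.symm
    rw [this]
    exact isClosed_empty
  · intro j
    have : C.f j ⁻¹' {x : X | ∃ j, x = C.f j c} = {c} := by
      ext t
      simp only [Set.mem_preimage, Set.mem_ofPred_eq, Set.mem_singleton_iff]
      constructor
      · rintro ⟨j', hj⟩
        exact (f_eq_iff C hc hj.symm).2.symm
      · rintro rfl
        exact ⟨j, rfl⟩
    rw [this]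
    exact isClosed_singleton

end base

section cover
variable {G : Type} [Group G] {E X : Type} [TopologicalSpace E] [TopologicalSpace X]
  [MulAction G E] [ContinuousConstSMul G E] {q : E → X} (h : GCov G q) (C : TwoCx X)

omit [ContinuousConstSMul G E] in
theorem isOpenEmbedding_ft (j : C.J) : IsOpenEmbedding (fun z : Sint => ft h C j z.1) := by
  have h1 : IsLocalHomeomorph (q ∘ (fun z : Sint => ft h C j z.1)) := by
    have : (q ∘ (fun z : Sint => ft h C j z.1)) = fun z : Sint => C.f j z.1 := by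
      funext z
      exact q_ft h C j z.1
    rw [this]
    exact (isOpenEmbedding_f C j).isLocalHomeomorph
  have h2 : IsLocalHomeomorph (fun z : Sint => ft h C j z.1) :=
    IsLocalHomeomorph.of_comp (f := fun z : Sint => ft h C j z.1) (g := q)
    h1 h.cov.isLocalHomeomorph ((ft h C j).continuous.comp continuous_subtype_val)
  apply h2.isOpenEmbedding_of_injective
  intro z z' hz
  apply Subtype.ext
  have : q (ft h C j z.1) = q (ft h C j z'.1) := congrArg q hz
  rw [q_ft h, q_ft h] at this
  exact (f_eq_iff C z.2 this).2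

/-- the charts of the open 2-cells of the cover -/
noncomputable def cs (g : G) (j : C.J) : C(Sint, E) :=
  ⟨fun z => g • ft h C j z.1, ((ft h C j).continuous.comp continuous_subtype_val).const_smul g⟩

theorem cs_apply (g : G) (j : C.J) (z : Sint) : cs h C g j z = g • ft h C j z.1 := rfl

theorem isOpenEmbedding_cs (g : G) (j : C.J) : IsOpenEmbedding (cs h C g j) :=
  (Homeomorph.smul g).isOpenEmbedding.comp (isOpenEmbedding_ft h C j)

theorem cs_mul (g g' : G) (j : C.J) (z : Sint) : cs h C (g * g') j z = g • cs h C g' j z := by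
  rw [cs_apply, cs_apply, mul_smul]

theorem q_cs (g : G) (j : C.J) (z : Sint) : q (cs h C g j z) = C.f j z.1 := by
  rw [cs_apply, h.inv, q_ft h]

theorem cs_disj {g g' : G} {j j' : C.J} {z z' : Sint} (heq : cs h C g j z = cs h C g' j' z') :
    g = g' ∧ j = j' ∧ z = z' := by
  have h1 := congrArg q heq
  rw [q_cs h, q_cs h] at h1
  obtain ⟨rfl, h2⟩ := f_eq_iff C z.2 h1
  have h3 : z = z' := Subtype.ext h2
  subst h3
  exact ⟨h.smul_inj heq, rfl, rfl⟩

theorem cs_notMem_X1 (g : G) (j : C.J) (z : Sint) : q (cs h C g j z) ∉ C.X1 := by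
  rw [q_cs h]
  exact f_notMem_X1 C z.2

/-- every point over an open cell is in a chart -/
theorem exists_cs {e : E} {j : C.J} {s : I × I} (hs : s ∈ Sint) (he : q e = C.f j s) :
    ∃ g : G, e = cs h C g j ⟨s, hs⟩ := by
  obtain ⟨g, hg⟩ := h.tra (ft h C j s) e (by rw [q_ft h, he])
  exact ⟨g, hg.symm⟩


theorem isClosed_cs_centres (c : Sint) : IsClosed {e : E | ∃ g j, e = cs h C g j c} := by
  have : {e : E | ∃ g j, e = cs h C g j c} = q ⁻¹' {x : X | ∃ j, x = C.f j c.1} := by
    ext e
    simp only [Set.mem_ofPred_eq, Set.mem_preimage]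
    constructor
    · rintro ⟨g, j, rfl⟩
      exact ⟨j, q_cs h C g j c⟩
    · rintro ⟨j, hj⟩
      obtain ⟨g, hg⟩ := exists_cs h C c.2 hj
      exact ⟨g, j, hg⟩
  rw [this]
  exact (isClosed_centres C c.1 c.2).preimage h.cov.continuous

/-- the closed cells -/
noncomputable def ftg (g : G) (j : C.J) : C(I × I, E) :=
  ⟨fun z => g • ft h C j z, (ft h C j).continuous.const_smul g⟩


theorem q_ftg_of_notMem (g : G) (j : C.J) {s : I × I} (hs : s ∉ Sint) :
    q (ftg h C g j s) ∈ C.X1 := by
  show q (g • ft h C j s) ∈ C.X1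
  rw [h.inv, q_ft h]
  rcases C.f_bd j s hs with ⟨o, ho⟩ | ⟨i, t, hi⟩
  · exact Or.inl ⟨o, ho⟩
  · exact Or.inr ⟨i, t, hi⟩

end cover

/-! ### The identification of the open unit square with the open sup-norm ball of radius one -/

open Metric Crest.Agent.R185.Att in
/-- the affine homeomorphism of the open square `(0,1)²` with `(-1,1)² = B 2` -/
noncomputable def sqB : Sint ≃ₜ Crest.Agent.R185.Att.B 2 where
  toFun z := ⟨![2 * (z.1.1 : ℝ) - 1, 2 * (z.1.2 : ℝ) - 1], by
    have h1 := z.2.1.1
    have h2 := z.2.1.2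
    have h3 := z.2.2.1
    have h4 := z.2.2.2
    have h1' : (0 : ℝ) < z.1.1 := h1
    have h2' : (z.1.1 : ℝ) < 1 := h2
    have h3' : (0 : ℝ) < z.1.2 := h3
    have h4' : (z.1.2 : ℝ) < 1 := h4
    rw [mem_ball_zero_iff, pi_norm_lt_iff one_pos]
    intro i
    fin_cases i
    · show ‖2 * (z.1.1 : ℝ) - 1‖ < 1
      rw [Real.norm_eq_abs, abs_lt]
      constructor <;> linarith
    · show ‖2 * (z.1.2 : ℝ) - 1‖ < 1
      rw [Real.norm_eq_abs, abs_lt]
      constructor <;> linarith⟩
  invFun x := ⟨(⟨((x.1 0 : ℝ) + 1) / 2, by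
      have h := (pi_norm_lt_iff one_pos).1 (mem_ball_zero_iff.1 x.2) 0
      rw [Real.norm_eq_abs, abs_lt] at h
      constructor <;> linarith⟩, ⟨((x.1 1 : ℝ) + 1) / 2, by
      have h := (pi_norm_lt_iff one_pos).1 (mem_ball_zero_iff.1 x.2) 1
      rw [Real.norm_eq_abs, abs_lt] at h
      constructor <;> linarith⟩), by
      have h := (pi_norm_lt_iff one_pos).1 (mem_ball_zero_iff.1 x.2) 0
      have h' := (pi_norm_lt_iff one_pos).1 (mem_ball_zero_iff.1 x.2) 1
      rw [Real.norm_eq_abs, abs_lt] at h h'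
      refine ⟨⟨?_, ?_⟩, ⟨?_, ?_⟩⟩
      · show (0 : ℝ) < ((x.1 0 : ℝ) + 1) / 2
        linarith
      · show ((x.1 0 : ℝ) + 1) / 2 < (1 : ℝ)
        linarith
      · show (0 : ℝ) < ((x.1 1 : ℝ) + 1) / 2
        linarith
      · show ((x.1 1 : ℝ) + 1) / 2 < (1 : ℝ)
        linarith⟩
  left_inv z := by
    apply Subtype.ext
    apply Prod.ext
    · apply Subtype.ext
      show (2 * (z.1.1 : ℝ) - 1 + 1) / 2 = z.1.1
      ring
    · apply Subtype.ext
      show (2 * (z.1.2 : ℝ) - 1 + 1) / 2 = z.1.2
      ring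
  right_inv x := by
    apply Subtype.ext
    funext i
    fin_cases i
    · show 2 * (((x.1 0 : ℝ) + 1) / 2) - 1 = x.1 0
      ring
    · show 2 * (((x.1 1 : ℝ) + 1) / 2) - 1 = x.1 1
      ring
  continuous_toFun := by
    apply Continuous.subtype_mk
    refine continuous_pi fun i => ?_
    fin_cases i
    · show Continuous fun z : Sint => 2 * (z.1.1 : ℝ) - 1
      fun_prop
    · show Continuous fun z : Sint => 2 * (z.1.2 : ℝ) - 1
      fun_prop
  continuous_invFun := by
    apply Continuous.subtype_mk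
    apply Continuous.prodMk
    · apply Continuous.subtype_mk
      exact (((continuous_apply (0 : Fin 2)).comp continuous_subtype_val).add
        continuous_const).div_const 2
    · apply Continuous.subtype_mk
      exact (((continuous_apply (1 : Fin 2)).comp continuous_subtype_val).add
        continuous_const).div_const 2


section coverB
variable {G : Type} [Group G] {E X : Type} [TopologicalSpace E] [TopologicalSpace X]
  [MulAction G E] [ContinuousConstSMul G E] {q : E → X} (h : GCov G q) (C : TwoCx X)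

/-- charts of the open 2-cells of the cover with model `B 2` -/
noncomputable def cb (g : G) (j : C.J) : C(Crest.Agent.R185.Att.B 2, E) :=
  (cs h C g j).comp ⟨sqB.symm, sqB.symm.continuous⟩

theorem cb_apply (g : G) (j : C.J) (x) : cb h C g j x = cs h C g j (sqB.symm x) := rfl

theorem cb_sqB (g : G) (j : C.J) (z : Sint) : cb h C g j (sqB z) = g • ft h C j z.1 := by
  rw [cb_apply, sqB.symm_apply_apply, cs_apply]

theorem isOpenEmbedding_cb (g : G) (j : C.J) : IsOpenEmbedding (cb h C g j) :=
  (isOpenEmbedding_cs h C g j).comp sqB.symm.isOpenEmbedding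

theorem cb_mul (g g' : G) (j : C.J) (x) : cb h C (g * g') j x = g • cb h C g' j x :=
  cs_mul h C g g' j _

theorem cb_disj {g g' : G} {j j' : C.J} {x x'} (heq : cb h C g j x = cb h C g' j' x') :
    g = g' ∧ j = j' ∧ x = x' := by
  obtain ⟨h1, h2, h3⟩ := cs_disj h C heq
  exact ⟨h1, h2, sqB.symm.injective h3⟩

theorem isClosed_cb_centres (x : Crest.Agent.R185.Att.B 2) :
    IsClosed {e : E | ∃ g j, e = cb h C g j x} := isClosed_cs_centres h C (sqB.symm x)

theorem cb_notMem_X1 (g : G) (j : C.J) (x) : q (cb h C g j x) ∉ C.X1 := cs_notMem_X1 h C g j _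


theorem ftg_eq_cb (g : G) (j : C.J) {s : I × I} (hs : s ∈ Sint) :
    ftg h C g j s = cb h C g j (sqB ⟨s, hs⟩) := by
  rw [cb_sqB]; rfl

end coverB

end Crest.Agent.R251.YC
end

-- ▼ part R251/YC971c
section

/-!
Row 251 (S0388), Y side (helper971): the lifted open 2-cells as an instance of helper972's `Cells`, and
`GCov` from Mathlib's `IsQuotientCoveringMap`.
-/

set_option autoImplicit false

open scoped unitInterval
open Topology

namespace Crest.Agent.R251.YC

open Crest.Agent.R197 Crest.Agent.R197.TwoCx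


section
variable {G : Type} [Group G] {E X : Type} [TopologicalSpace E] [TopologicalSpace X]
  [MulAction G E] [ContinuousConstSMul G E] {q : E → X} (h : GCov G q) (C : TwoCx X)

/-- the lifted open 2-cells in helper972's form -/
noncomputable def ycells : LB.Cells G E C.J (Crest.Agent.R185.Att.B 2) where
  chart := cb h C
  emb := isOpenEmbedding_cb h C
  equi := cb_mul h C
  disj := fun heq => ⟨(cb_disj h C heq).1, (cb_disj h C heq).2.1⟩
  c0 := ⟨0, Metric.mem_ball_self one_pos⟩
  closed := isClosed_cb_centres h C _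


/-- the part over the 1-skeleton misses the centres -/
theorem notMem_ctr_of_X1 {e : E} (he : q e ∈ C.X1) : e ∈ (ycells h C).ctrᶜ := by
  rintro ⟨g, j, rfl⟩
  exact cb_notMem_X1 h C g j _ he

/-- the centre of the square -/
noncomputable def mid : I × I :=
  (⟨1 / 2, by norm_num, by norm_num⟩, ⟨1 / 2, by norm_num, by norm_num⟩)

theorem mid_mem : mid ∈ Sint := by
  have h1 : (⟨1 / 2, by norm_num, by norm_num⟩ : I) ∈ Iint := by
    constructor
    · show (0 : ℝ) < 1 / 2
      norm_num
    · show (1 / 2 : ℝ) < 1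
      norm_num
  exact ⟨h1, h1⟩

theorem sqB_mid : sqB ⟨mid, mid_mem⟩ = ⟨0, Metric.mem_ball_self one_pos⟩ := by
  apply Subtype.ext
  funext i
  fin_cases i
  · show 2 * (1 / 2 : ℝ) - 1 = 0
    norm_num
  · show 2 * (1 / 2 : ℝ) - 1 = 0
    norm_num

/-- the closed cell meets the centres only in the centre of the square -/
theorem ftg_mem_ctr_iff (g : G) (j : C.J) (s : I × I) :
    ftg h C g j s ∈ (ycells h C).ctr ↔ s = mid := by
  constructor
  · rintro ⟨g', j', hg⟩
    by_cases hs : s ∈ Sint
    · rw [ftg_eq_cb h C g j hs] at hg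
      obtain ⟨-, -, h3⟩ := cb_disj h C hg
      have h4 : sqB ⟨s, hs⟩ = sqB ⟨mid, mid_mem⟩ := by rw [h3, sqB_mid]; rfl
      exact congrArg Subtype.val (sqB.injective h4)
    · exfalso
      exact notMem_ctr_of_X1 h C (q_ftg_of_notMem h C g j hs) ⟨g', j', hg⟩
  · rintro rfl
    exact ⟨g, j, by rw [ftg_eq_cb h C g j mid_mem, sqB_mid]; rfl⟩


end

end Crest.Agent.R251.YC
end

-- ▼ part R251/YS770A
section

/-! Row 251, Y-side: presentation of the deck group from a two-dimensional cell complex. -/

set_option autoImplicit false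

open scoped unitInterval
open Crest.Agent.R197

namespace Crest.Agent.R251.YS

/-! ### derivations on a free group -/

section der
variable {α K : Type} [Field K]

/-- affine permutation `x ↦ m x + δ` -/
def aff (m : Kˣ) (δ : K) : Equiv.Perm K where
  toFun x := (m : K) * x + δ
  invFun x := ((m⁻¹ : Kˣ) : K) * (x - δ)
  left_inv x := by
    simp
  right_inv x := by
    simp

/-- affine representation of a free group -/
def affHom (m : FreeGroup α →* Kˣ) (δ : α → K) : FreeGroup α →* Equiv.Perm K :=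
  FreeGroup.lift fun i => aff (m (FreeGroup.of i)) (δ i)

theorem affHom_apply (m : FreeGroup α →* Kˣ) (δ : α → K) (a : FreeGroup α) :
    ∀ x : K, affHom m δ a x = (m a : K) * x + affHom m δ a 0 := by
  induction a using FreeGroup.induction_on with
  | C1 => intro x; simp
  | of i => intro x; simp [affHom, aff]
  | inv_of i _ =>
    intro x
    have h : ∀ y, affHom m δ (FreeGroup.of i)⁻¹ y
        = (((m (FreeGroup.of i))⁻¹ : Kˣ) : K) * (y - δ i) := by
      intro y
      rw [map_inv]
      show (affHom m δ (FreeGroup.of i)).symm y = _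
      rw [affHom, FreeGroup.lift_apply_of]
      rfl
    rw [h, h, map_inv]
    ring
  | mul a b ha hb =>
    intro x
    rw [map_mul, map_mul, Equiv.Perm.mul_apply, Equiv.Perm.mul_apply, ha, hb x,
      ha (affHom m δ b 0)]
    push_cast
    ring

/-- the derivation with prescribed values on the generators -/
def der (m : FreeGroup α →* Kˣ) (δ : α → K) (a : FreeGroup α) : K := affHom m δ a 0

theorem der_one (m : FreeGroup α →* Kˣ) (δ : α → K) : der m δ 1 = 0 := by
  simp [der]

theorem der_of (m : FreeGroup α →* Kˣ) (δ : α → K) (i : α) :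
    der m δ (FreeGroup.of i) = δ i := by
  simp [der, affHom, aff]

theorem der_mul (m : FreeGroup α →* Kˣ) (δ : α → K) (a b : FreeGroup α) :
    der m δ (a * b) = der m δ a + (m a : K) * der m δ b := by
  unfold der
  rw [map_mul, Equiv.Perm.mul_apply, affHom_apply m δ a]
  ring

theorem der_inv (m : FreeGroup α →* Kˣ) (δ : α → K) (a : FreeGroup α) :
    der m δ a⁻¹ = - (((m a)⁻¹ : Kˣ) : K) * der m δ a := by
  have h := der_mul m δ a⁻¹ a
  rw [inv_mul_cancel, der_one, map_inv] at h
  linear_combination -h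

end der

/-! ### free actions with quotient covering -/

/-- `G` acts freely on `Yt`, the covering `q` being the quotient map. -/
structure Act (G : Type) {Y Yt : Type} [Group G] [TopologicalSpace Y] [TopologicalSpace Yt]
    [MulAction G Yt] (q : Yt → Y) : Prop where
  cov : IsCoveringMap q
  surj : Function.Surjective q
  cont : ∀ g : G, Continuous (fun y : Yt => g • y)
  orb : ∀ a b : Yt, q a = q b → ∃ g : G, g • a = b
  inv : ∀ (g : G) (a : Yt), q (g • a) = q a
  free : ∀ (g : G) (a : Yt), g • a = a → g = 1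

section main
variable {G Y Yt : Type} [Group G] [TopologicalSpace Y] [TopologicalSpace Yt] [MulAction G Yt]
  {q : Yt → Y}

/-- translate of a map -/
def tr (A : Act G q) (g : G) {Z : Type*} [TopologicalSpace Z] (s : C(Z, Yt)) : C(Z, Yt) :=
  ⟨fun t => g • s t, (A.cont g).comp s.continuous⟩

@[simp] theorem tr_apply (A : Act G q) (g : G) {Z : Type*} [TopologicalSpace Z] (s : C(Z, Yt))
    (z : Z) : tr A g s z = g • s z := rfl

variable (C : TwoCx Y) (A : Act G q) (ot : C.O → Yt) (hot : ∀ o, q (ot o) = C.v o)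

/-- the lift of the edge `i` starting at the base lift of its source -/
noncomputable def el (i : C.E) : C(I, Yt) :=
  A.cov.liftPath (C.e i) (ot (C.src i)) ((C.e_zero i).trans (hot (C.src i)).symm)

theorem el_zero (i : C.E) : el C A ot hot i 0 = ot (C.src i) := A.cov.liftPath_zero _ _ _

theorem q_el (i : C.E) (t : I) : q (el C A ot hot i t) = C.e i t :=
  congrFun (A.cov.liftPath_lifts _ _ _) t

theorem exists_ge (i : C.E) : ∃ g : G, g • ot (C.tgt i) = el C A ot hot i 1 :=
  A.orb _ _ (by rw [q_el C A ot hot, hot, C.e_one])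

/-- holonomy of an edge -/
noncomputable def ge (i : C.E) : G := (exists_ge C A ot hot i).choose

theorem ge_spec (i : C.E) : ge C A ot hot i • ot (C.tgt i) = el C A ot hot i 1 :=
  (exists_ge C A ot hot i).choose_spec

/-- the homomorphism from the free group on the edges to the deck group -/
noncomputable def phi : FreeGroup C.E →* G := FreeGroup.lift (ge C A ot hot)

theorem phi_of (i : C.E) : phi C A ot hot (FreeGroup.of i) = ge C A ot hot i := by
  simp [phi]

theorem lift_eq_zero (A : Act G q) (Q Q' : C(I, Yt)) (h : ∀ t, q (Q t) = q (Q' t)) (h0 : Q 0 = Q' 0) :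
    Q = Q' := by
  ext t
  exact congrFun (A.cov.eq_of_comp_eq Q.continuous Q'.continuous (funext h) 0 h0) t

theorem lift_eq_one (A : Act G q) (Q Q' : C(I, Yt)) (h : ∀ t, q (Q t) = q (Q' t)) (h1 : Q 1 = Q' 1) :
    Q = Q' := by
  ext t
  exact congrFun (A.cov.eq_of_comp_eq Q.continuous Q'.continuous (funext h) 1 h1) t

/-- a lift of an edge from a translate of the base lift is the translate of `el`. -/
theorem lift_edge (i : C.E) (g : G) {m : Yt} (Q : Path (g • ot (C.src i)) m)
    (hQ : ∀ t, q (Q t) = C.e i t) : (Q : C(I, Yt)) = tr A g (el C A ot hot i) := by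
  apply lift_eq_zero A
  · intro t
    show q (Q t) = _
    rw [tr_apply, A.inv, q_el C A ot hot, hQ]
  · show Q 0 = _
    rw [tr_apply, el_zero, Q.source]

theorem lift_edge_end (i : C.E) (g : G) {m : Yt} (Q : Path (g • ot (C.src i)) m)
    (hQ : ∀ t, q (Q t) = C.e i t) : m = (g * ge C A ot hot i) • ot (C.tgt i) := by
  have h := lift_edge C A ot hot i g Q hQ
  have h1 : Q 1 = g • el C A ot hot i 1 := congrArg (fun f : C(I, Yt) => f 1) h
  rw [Q.target] at h1
  rw [h1, mul_smul, ge_spec]

/-- a lift of an edge ending in a translate of the base lift -/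
theorem lift_edge' (i : C.E) (g : G) {m : Yt} (Q : Path m (g • ot (C.tgt i)))
    (hQ : ∀ t, q (Q t) = C.e i t) :
    (Q : C(I, Yt)) = tr A (g * (ge C A ot hot i)⁻¹) (el C A ot hot i) := by
  apply lift_eq_one A
  · intro t
    show q (Q t) = _
    rw [tr_apply, A.inv, q_el C A ot hot, hQ]
  · show Q 1 = _
    rw [tr_apply, ← ge_spec, Q.target, ← mul_smul, inv_mul_cancel_right]

theorem lift_edge_start (i : C.E) (g : G) {m : Yt} (Q : Path m (g • ot (C.tgt i)))
    (hQ : ∀ t, q (Q t) = C.e i t) : m = (g * (ge C A ot hot i)⁻¹) • ot (C.src i) := by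
  have h := lift_edge' C A ot hot i g Q hQ
  have h1 : Q 0 = _ := congrArg (fun f : C(I, Yt) => f 0) h
  rw [Q.source] at h1
  rw [h1, tr_apply, el_zero]

/-- end point of the lift of an edge path -/
theorem end_EP {o o' : C.O} {w : C.Wd} {r : Path (C.v1 o) (C.v1 o')} (h : C.EP o o' w r) :
    ∀ (g : G) {b : Yt} (Q : Path (g • ot o) b), (∀ t, q (Q t) = (r t).1) →
      b = (g * phi C A ot hot (C.wordOf w)) • ot o' := by
  induction h with
  | nil o =>
    intro g b Q hQ
    have := A.cov.const_of_comp (g := fun t => Q t) Q.continuous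
        (fun t t' => (hQ t).trans (hQ t').symm) 1 0
    simp only [Q.target, Q.source] at this
    rw [this, TwoCx.wordOf, map_one, mul_one]
  | fwd i o' w r _ ih =>
    intro g b Q hQ
    obtain ⟨m, Q1, Q2, rfl⟩ := exists_split Q
    have h1 : ∀ t, q (Q1 t) = C.e i t := fun t => by
      have := hQ (hA t)
      rw [trans_hA, trans_hA] at this
      exact this
    have h2 : ∀ t, q (Q2 t) = (r t).1 := fun t => by
      have := hQ (hB t)
      rw [trans_hB, trans_hB] at this
      exact this
    obtain rfl := lift_edge_end C A ot hot i g Q1 h1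
    rw [ih _ Q2 h2, TwoCx.wordOf, map_mul, phi_of, mul_assoc]
  | bwd i o' w r _ ih =>
    intro g b Q hQ
    obtain ⟨m, Q1, Q2, rfl⟩ := exists_split Q
    have h1 : ∀ t, q (Q1.symm t) = C.e i t := fun t => by
      have := hQ (hA (unitInterval.symm t))
      rw [trans_hA, trans_hA] at this
      refine this.trans ?_
      show C.e i (unitInterval.symm (unitInterval.symm t)) = C.e i t
      rw [unitInterval.symm_symm]
    have h2 : ∀ t, q (Q2 t) = (r t).1 := fun t => by
      have := hQ (hB t)
      rw [trans_hB, trans_hB] at this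
      exact this
    obtain rfl := lift_edge_start C A ot hot i g Q1.symm h1
    rw [ih _ Q2 h2, TwoCx.wordOf, map_mul, map_inv, phi_of, mul_assoc]

/-! ### functionals on paths -/

variable {K : Type} [Field K]

/-- equivariant additive functional on paths, homotopy invariant over the 1-skeleton -/
structure Fn (μ : G →* Kˣ) where
  Λ : C(I, Yt) → K
  trans : ∀ {a b c : Yt} (s : Path a b) (s' : Path b c), (∀ t, q (s t) ∈ C.X1) →
    (∀ t, q (s' t) ∈ C.X1) → Λ (s.trans s') = Λ s + Λ s'
  homotopic : ∀ {a b : Yt} (s s' : Path a b) (H : s.Homotopy s'), (∀ z, q (H z) ∈ C.X1) →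
    Λ s = Λ s'
  equiv : ∀ (g : G) (s : C(I, Yt)), (∀ t, q (s t) ∈ C.X1) → Λ (tr A g s) = (μ g : K) * Λ s

variable {C A}
variable {μ : G →* Kˣ} (F : Fn C A μ)

theorem Fn.refl (a : Yt) (ha : q a ∈ C.X1) : F.Λ (Path.refl a) = 0 := by
  have h1 := F.trans (Path.refl a) (Path.refl a) (fun _ => ha) (fun _ => ha)
  have h2 := F.homotopic ((Path.refl a).trans (Path.refl a)) (Path.refl a)
    (Path.Homotopy.transRefl (Path.refl a)) (fun z => by
      have : (Path.Homotopy.transRefl (Path.refl a)) z = a := rfl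
      rw [this]; exact ha)
  rw [h2] at h1
  simpa using h1

theorem Fn.symm {a b : Yt} (s : Path a b) (hs : ∀ t, q (s t) ∈ C.X1) :
    F.Λ s.symm = - F.Λ s := by
  have h1 := F.trans s s.symm hs (fun t => hs _)
  have h2 := F.homotopic (Path.refl a) (s.trans s.symm) (Path.Homotopy.reflTransSymm s)
    (fun z => by
      obtain ⟨t, ht⟩ : ∃ t, (Path.Homotopy.reflTransSymm s) z = s t := ⟨_, rfl⟩
      rw [ht]; exact hs _)
  rw [F.refl a (by simpa using hs 0), h1] at h2
  exact (neg_eq_of_add_eq_zero_right h2.symm).symm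

variable (C A) in
/-- the multiplier on the free group -/
noncomputable def mu' (μ : G →* Kˣ) : FreeGroup C.E →* Kˣ := μ.comp (phi C A ot hot)

/-- the derivation of a functional -/
noncomputable def Fn.d : FreeGroup C.E → K :=
  der (mu' C A ot hot μ) (fun i => F.Λ (el C A ot hot i))

theorem el_mem (i : C.E) (t : I) : q (el C A ot hot i t) ∈ C.X1 := by
  rw [q_el C A ot hot]; exact Or.inr ⟨i, t, rfl⟩

theorem Fn.d_of (i : C.E) : F.d ot hot (FreeGroup.of i) = F.Λ (el C A ot hot i) := der_of _ _ _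

theorem Fn.d_mul (a b : FreeGroup C.E) :
    F.d ot hot (a * b) = F.d ot hot a + (mu' C A ot hot μ a : K) * F.d ot hot b := der_mul _ _ _ _

/-- value of the functional on the lift of an edge path -/
theorem Fn.EP_val {o o' : C.O} {w : C.Wd} {r : Path (C.v1 o) (C.v1 o')} (h : C.EP o o' w r) :
    ∀ (g : G) {b : Yt} (Q : Path (g • ot o) b), (∀ t, q (Q t) = (r t).1) →
      F.Λ Q = (μ g : K) * F.d ot hot (C.wordOf w) := by
  induction h with
  | nil o =>
    intro g b Q hQ
    have h := A.cov.const_of_comp (g := fun t => Q t) Q.continuous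
        (fun t t' => (hQ t).trans (hQ t').symm)
    have hb := h 1 0
    simp only [Q.target, Q.source] at hb
    subst hb
    have hQ' : Q = Path.refl _ := by
      ext t
      have := h t 0
      simp only [Q.source] at this
      exact this
    rw [hQ', F.refl _ (by rw [A.inv, hot]; exact Or.inl ⟨o, rfl⟩), TwoCx.wordOf, Fn.d, der_one,
      mul_zero]
  | fwd i o' w r _ ih =>
    intro g b Q hQ
    obtain ⟨m, Q1, Q2, rfl⟩ := exists_split Q
    have h1 : ∀ t, q (Q1 t) = C.e i t := fun t => by
      have := hQ (hA t)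
      rw [trans_hA, trans_hA] at this
      exact this
    have h2 : ∀ t, q (Q2 t) = (r t).1 := fun t => by
      have := hQ (hB t)
      rw [trans_hB, trans_hB] at this
      exact this
    rw [F.trans Q1 Q2 (fun t => by rw [h1]; exact Or.inr ⟨i, t, rfl⟩)
      (fun t => by rw [h2]; exact (r t).2)]
    obtain rfl := lift_edge_end C A ot hot i g Q1 h1
    rw [lift_edge C A ot hot i g Q1 h1, F.equiv g _ (el_mem ot hot i), ih _ Q2 h2,
      TwoCx.wordOf, F.d_mul, F.d_of, map_mul, mu', MonoidHom.comp_apply, phi_of]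
    push_cast
    ring
  | bwd i o' w r _ ih =>
    intro g b Q hQ
    obtain ⟨m, Q1, Q2, rfl⟩ := exists_split Q
    have h1 : ∀ t, q (Q1.symm t) = C.e i t := fun t => by
      have := hQ (hA (unitInterval.symm t))
      rw [trans_hA, trans_hA] at this
      refine this.trans ?_
      show C.e i (unitInterval.symm (unitInterval.symm t)) = C.e i t
      rw [unitInterval.symm_symm]
    have h2 : ∀ t, q (Q2 t) = (r t).1 := fun t => by
      have := hQ (hB t)
      rw [trans_hB, trans_hB] at this
      exact this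
    have h1m : ∀ t, q (Q1.symm t) ∈ C.X1 := fun t => by rw [h1]; exact Or.inr ⟨i, t, rfl⟩
    have h1m' : ∀ t, q (Q1 t) ∈ C.X1 := fun t => by
      have := h1m (unitInterval.symm t)
      have h3 : Q1.symm (unitInterval.symm t) = Q1 t := by
        show Q1 (unitInterval.symm (unitInterval.symm t)) = Q1 t
        rw [unitInterval.symm_symm]
      rwa [h3] at this
    rw [F.trans Q1 Q2 h1m' (fun t => by rw [h2]; exact (r t).2)]
    have h4 := F.symm Q1 h1m'
    obtain rfl := lift_edge_start C A ot hot i g Q1.symm h1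
    rw [lift_edge' C A ot hot i g Q1.symm h1, F.equiv _ _ (el_mem ot hot i)] at h4
    rw [ih _ Q2 h2, TwoCx.wordOf, F.d_mul, ← neg_eq_iff_eq_neg.mpr h4]
    have h5 : F.d ot hot (FreeGroup.of i)⁻¹
        = - (((mu' C A ot hot μ (FreeGroup.of i))⁻¹ : Kˣ) : K) * F.d ot hot (FreeGroup.of i) :=
      der_inv _ _ _
    rw [h5, F.d_of, map_inv (mu' C A ot hot μ), mu', MonoidHom.comp_apply, phi_of, map_mul,
      map_inv]
    push_cast
    ring

end main

end Crest.Agent.R251.YS
end

-- ▼ part R251/YS770B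
section

/-! Row 251, Y-side: relator words, surjectivity and kernel of the holonomy homomorphism. -/

set_option autoImplicit false

open scoped unitInterval
open Crest.Agent.R197

namespace Crest.Agent.R251.YS

section main
variable {G Y Yt : Type} [Group G] [TopologicalSpace Y] [TopologicalSpace Yt] [MulAction G Yt]
  {q : Yt → Y} {C : TwoCx Y} (A : Act G q)

include A in
/-- lift of a homotopy over the 1-skeleton -/
theorem exists_lift_homotopy {x y : C.X1} {s s' : Path x y} (H : s.Homotopy s') {a b b' : Yt}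
    (Q : Path a b) (Q' : Path a b') (hQ : ∀ t, q (Q t) = (s t).1)
    (hQ' : ∀ t, q (Q' t) = (s' t).1) :
    ∃ R : C(I × I, Yt), (∀ t, R (0, t) = Q t) ∧ (∀ t, R (1, t) = Q' t) ∧
      (∀ t, R (t, 0) = a) ∧ (∀ t, R (t, 1) = b) ∧ ∀ z, q (R z) = (H z).1 := by
  have h0 : ∀ t, (C.incl.comp H.toContinuousMap) (0, t) = q ((Q : C(I, Yt)) t) := fun t => by
    show (H (0, t)).1 = q (Q t)
    rw [hQ, H.apply_zero]
    rfl
  let R := A.cov.liftHomotopy (C.incl.comp H.toContinuousMap) (Q : C(I, Yt)) h0
  have hR : ∀ z, q (R z) = (H z).1 := fun z =>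
    congrFun (A.cov.liftHomotopy_lifts (C.incl.comp H.toContinuousMap) (Q : C(I, Yt)) h0) z
  have hR0 : ∀ t, R (0, t) = Q t := fun t =>
    A.cov.liftHomotopy_zero (C.incl.comp H.toContinuousMap) (Q : C(I, Yt)) h0 t
  have hl : ∀ t, R (t, 0) = a := fun t => by
    have h1 := A.cov.const_of_comp (g := fun t : I => R (t, 0)) (by fun_prop)
      (fun t t' => by
        rw [hR, hR]
        rw [H.source, H.source]) t 0
    simp only [hR0, Q.source] at h1
    exact h1
  have hr : ∀ t, R (t, 1) = b := fun t => by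
    have h1 := A.cov.const_of_comp (g := fun t : I => R (t, 1)) (by fun_prop)
      (fun t t' => by
        rw [hR, hR]
        rw [H.target, H.target]) t 0
    simp only [hR0, Q.target] at h1
    exact h1
  refine ⟨R, hR0, ?_, hl, hr, hR⟩
  intro t
  have h1 : (R.comp ⟨fun t : I => ((1 : I), t), by fun_prop⟩ : C(I, Yt)) = Q' := by
    apply lift_eq_zero A
    · intro t
      show q (R (1, t)) = q (Q' t)
      rw [hR, hQ', H.apply_one]
      rfl
    · show R (1, 0) = Q' 0
      rw [hl, Q'.source]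
  exact congrArg (fun f : C(I, Yt) => f t) h1

include A in
theorem end_eq {x y : C.X1} {s s' : Path x y} (h : s.Homotopic s') {a b b' : Yt}
    (Q : Path a b) (Q' : Path a b') (hQ : ∀ t, q (Q t) = (s t).1)
    (hQ' : ∀ t, q (Q' t) = (s' t).1) : b' = b := by
  obtain ⟨H⟩ := h
  obtain ⟨R, h0, h1, hl, hr, hR⟩ := exists_lift_homotopy A H Q Q' hQ hQ'
  rw [← hr 1, h1, Q'.target]

variable {K : Type} [Field K] {μ : G →* Kˣ}

variable {A} in
theorem Fn.eq_of_homotopic (F : Fn C A μ) {x y : C.X1} {s s' : Path x y} (h : s.Homotopic s')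
    {a b : Yt} (Q : Path a b) (Q' : Path a b) (hQ : ∀ t, q (Q t) = (s t).1)
    (hQ' : ∀ t, q (Q' t) = (s' t).1) : F.Λ Q = F.Λ Q' := by
  obtain ⟨H⟩ := h
  obtain ⟨R, h0, h1, hl, hr, hR⟩ := exists_lift_homotopy A H Q Q' hQ hQ'
  refine F.homotopic Q Q'
    { toFun := R
      continuous_toFun := R.continuous
      map_zero_left := h0
      map_one_left := h1
      prop' := ?_ } ?_
  · rintro t x hx
    rcases hx with rfl | hx
    · exact (hl t).trans Q.source.symm
    · rw [Set.mem_singleton_iff] at hx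
      subst hx
      exact (hr t).trans Q.target.symm
  · intro z
    show q (R z) ∈ C.X1
    rw [hR]
    exact (H z).2

include A in
/-- lift of a path of the 1-skeleton -/
theorem exists_lift_path {x y : C.X1} (s : Path x y) (a : Yt) (ha : q a = x.1) :
    ∃ (b : Yt) (Q : Path a b), ∀ t, q (Q t) = (s t).1 := by
  let f : C(I, Y) := C.incl.comp (s : C(I, C.X1))
  have h0 : f 0 = q a := by
    rw [ha]
    show (s 0).1 = x.1
    rw [s.source]
  refine ⟨_, ⟨A.cov.liftPath f a h0, A.cov.liftPath_zero _ _ _, rfl⟩, fun t => ?_⟩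
  exact congrFun (A.cov.liftPath_lifts f a h0) t

variable (ot : C.O → Yt) (hot : ∀ o, q (ot o) = C.v o)

/-- the end point of the lift of a path of the 1-skeleton with edge word `w` -/
theorem end_of_rep {o o' : C.O} {w : C.Wd} {s : Path (C.v1 o) (C.v1 o')}
    (h : C.Rep o o' w (Path.Homotopic.Quotient.mk s)) (g : G) {b : Yt} (Q : Path (g • ot o) b)
    (hQ : ∀ t, q (Q t) = (s t).1) : b = (g * phi C A ot hot (C.wordOf w)) • ot o' := by
  obtain ⟨r, hr, hrs⟩ := C.exists_EP h
  obtain ⟨b', Q', hQ'⟩ := exists_lift_path A r (g • ot o) (by rw [A.inv, hot]; rfl)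
  have h1 := end_EP C A ot hot hr g Q' hQ'
  rw [← h1]
  exact end_eq A (Path.Homotopic.Quotient.exact hrs) Q' Q hQ' hQ

variable {A} in
/-- the value of the functional on the lift of a path of the 1-skeleton with edge word `w` -/
theorem Fn.val_of_rep (F : Fn C A μ) {o o' : C.O} {w : C.Wd} {s : Path (C.v1 o) (C.v1 o')}
    (h : C.Rep o o' w (Path.Homotopic.Quotient.mk s)) (g : G) {b : Yt} (Q : Path (g • ot o) b)
    (hQ : ∀ t, q (Q t) = (s t).1) : F.Λ Q = (μ g : K) * F.d ot hot (C.wordOf w) := by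
  obtain ⟨r, hr, hrs⟩ := C.exists_EP h
  obtain ⟨b', Q', hQ'⟩ := exists_lift_path A r (g • ot o) (by rw [A.inv, hot]; rfl)
  obtain rfl : b' = b := (end_eq A (Path.Homotopic.Quotient.exact hrs) Q' Q hQ' hQ).symm
  rw [← F.EP_val ot hot hr g Q' hQ']
  exact (F.eq_of_homotopic (Path.Homotopic.Quotient.exact hrs) Q' Q hQ' hQ).symm

variable (D : C.RelData)


include A hot in
/-- lift of the connecting path and of the 2-cell -/
theorem exists_uj (j : C.J) : ∃ (a : Yt) (T : Path (ot (D.bo j)) a) (u : C(I × I, Yt)),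
    u (0, 0) = a ∧ (∀ z, q (u z) = C.f j z) ∧ ∀ t, q (T t) = (D.τ j t).1 := by
  obtain ⟨a, T, hT⟩ := exists_lift_path A (D.τ j) (ot (D.bo j)) (hot _)
  have ha : C.f j (0, 0) = q a := by
    have := hT 1
    rw [T.target, (D.τ j).target] at this
    exact this.symm
  obtain ⟨u, hu0, hu⟩ := TwoCx.exists_liftSq A.cov (C.f j) a ha
  exact ⟨a, T, u, hu0, hu, hT⟩

/-- the lift of the 2-cell `j` attached to the base lift -/
noncomputable def uj (j : C.J) : C(I × I, Yt) :=
  (exists_uj A ot hot D j).choose_spec.choose_spec.choose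

theorem q_uj (j : C.J) (z : I × I) : q (uj A ot hot D j z) = C.f j z :=
  (exists_uj A ot hot D j).choose_spec.choose_spec.choose_spec.2.1 z

/-- the lift of the connecting path -/
noncomputable def Tj (j : C.J) : Path (ot (D.bo j)) (uj A ot hot D j (0, 0)) :=
  (exists_uj A ot hot D j).choose_spec.choose.cast rfl
    (exists_uj A ot hot D j).choose_spec.choose_spec.choose_spec.1

theorem q_Tj (j : C.J) (t : I) : q (Tj A ot hot D j t) = (D.τ j t).1 :=
  (exists_uj A ot hot D j).choose_spec.choose_spec.choose_spec.2.2 t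

/-- the lifted boundary curve of the 2-cell -/
noncomputable def bj (j : C.J) : Path (uj A ot hot D j (0, 0)) (uj A ot hot D j (0, 0)) :=
  TwoCx.bdSq.map (uj A ot hot D j).continuous

theorem bj_apply (j : C.J) (t : I) : bj A ot hot D j t = uj A ot hot D j (TwoCx.bdSq t) := rfl

/-- closed lift of the relator loop -/
noncomputable def Qj (j : C.J) : Path (ot (D.bo j)) (ot (D.bo j)) :=
  ((Tj A ot hot D j).trans (bj A ot hot D j)).trans (Tj A ot hot D j).symm

theorem q_Qj (j : C.J) (t : I) : q (Qj A ot hot D j t) =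
    ((((D.τ j).trans (C.bd1 j)).trans (D.τ j).symm) t).1 := by
  unfold Qj
  simp only [Path.trans_apply]
  split_ifs
  · exact q_Tj A ot hot D j _
  · exact q_uj A ot hot D j _
  · exact q_Tj A ot hot D j _

theorem phi_rel (j : C.J) : phi C A ot hot (C.wordOf (D.w j)) = 1 := by
  let Q : Path ((1 : G) • ot (D.bo j)) (ot (D.bo j)) :=
    (Qj A ot hot D j).cast (one_smul G _) rfl
  have h := end_of_rep A ot hot (D.rep j) 1 Q (fun t => q_Qj A ot hot D j t)
  rw [one_mul] at h
  exact A.free _ _ h.symm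

variable {A} in
/-- **the derivation takes the value of the functional on the boundary of the 2-cell** -/
theorem Fn.d_rel (F : Fn C A μ) (j : C.J) : F.d ot hot (C.wordOf (D.w j)) =
    F.Λ (bj A ot hot D j) := by
  let Q : Path ((1 : G) • ot (D.bo j)) (ot (D.bo j)) :=
    (Qj A ot hot D j).cast (one_smul G _) rfl
  have h := F.val_of_rep ot hot (D.rep j) 1 Q (fun t => q_Qj A ot hot D j t)
  rw [map_one, Units.val_one, one_mul] at h
  rw [← h]
  have hT : ∀ t, q (Tj A ot hot D j t) ∈ C.X1 := fun t => by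
    rw [q_Tj A ot hot]; exact (D.τ j t).2
  have hb : ∀ t, q (bj A ot hot D j t) ∈ C.X1 := fun t => by
    rw [bj_apply, q_uj A ot hot]; exact C.f_bdSq_mem j t
  have h1 : ∀ t, q (((Tj A ot hot D j).trans (bj A ot hot D j)) t) ∈ C.X1 := fun t => by
    rw [Path.trans_apply]
    split_ifs
    · exact hT _
    · exact hb _
  show F.Λ (Qj A ot hot D j) = _
  unfold Qj
  rw [F.trans _ _ h1 (fun t => hT _), F.trans _ _ hT hb, F.symm _ hT]
  ring

/-- every element of the group is the holonomy of an edge loop -/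
theorem exists_word [PreconnectedSpace Yt] (o : C.O) (g : G) :
    ∃ (w : C.Wd) (γ : Path.Homotopic.Quotient (C.v1 o) (C.v1 o)),
      C.Rep o o w γ ∧ phi C A ot hot (C.wordOf w) = g := by
  have hm : ∀ g : G, q (g • ot o) ∈ C.X1 := fun g => by
    rw [A.inv, hot]; exact Or.inl ⟨o, rfl⟩
  obtain ⟨Δ, hΔ⟩ := OutOne.reach_all A.cov ((1 : G) • ot o) (g • ot o) (hm 1) (hm g)
  let δ : Path (C.v1 o) (C.v1 o) :=
    { toFun := fun s => ⟨q (Δ s), hΔ s⟩
      continuous_toFun := Continuous.subtype_mk (A.cov.continuous.comp Δ.continuous) _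
      source' := Subtype.ext (by
        show q (Δ 0) = C.v o
        rw [Δ.source, A.inv, hot])
      target' := Subtype.ext (by
        show q (Δ 1) = C.v o
        rw [Δ.target, A.inv, hot]) }
  obtain ⟨w, hw⟩ := C.exists_rep o o (Path.Homotopic.Quotient.mk δ)
  refine ⟨w, _, hw, ?_⟩
  have h := end_of_rep A ot hot hw 1 Δ (fun t => rfl)
  rw [one_mul] at h
  have h2 : (g⁻¹ * phi C A ot hot (C.wordOf w)) • ot o = ot o := by
    rw [mul_smul, ← h, inv_smul_smul]
  have h3 := A.free _ _ h2
  rw [inv_mul_eq_one] at h3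
  exact h3.symm

/-- the kernel of the holonomy on edge loops is the normal closure of the relators -/
theorem mem_normalClosure [SimplyConnectedSpace Yt] {o : C.O} {w : C.Wd}
    {γ : Path.Homotopic.Quotient (C.v1 o) (C.v1 o)} (h : C.Rep o o w γ)
    (hw : phi C A ot hot (C.wordOf w) = 1) :
    C.wordOf w ∈ Subgroup.normalClosure (Set.range fun j => C.wordOf (D.w j)) := by
  have hrep := h
  obtain ⟨r, hr, rfl⟩ := C.exists_EP h
  obtain ⟨b, Q, hQ⟩ := exists_lift_path A r ((1 : G) • ot o) (by rw [A.inv, hot]; rfl)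
  have hb := end_EP C A ot hot hr 1 Q hQ
  rw [hw, mul_one] at hb
  subst hb
  have h1 : (Path.Homotopic.Quotient.mk r).map C.incl =
      Path.Homotopic.Quotient.refl (C.v o) := by
    have hq : q ((1 : G) • ot o) = C.v o := by rw [A.inv, hot]
    have h2 := TwoCx.mk_eq_of_lifts A.cov.continuous hq hq Q (Path.refl _) (r.map C.incl.continuous)
      (Path.refl (C.v o)) hQ (fun t => hq)
    exact h2
  have h2 := out2 C D (FreeGroup C.E ⧸ Subgroup.normalClosure (Set.range fun j =>
    C.wordOf (D.w j))) (QuotientGroup.mk' _) (fun j => (QuotientGroup.eq_one_iff _).mpr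
      (Subgroup.subset_normalClosure ⟨j, rfl⟩)) o w _ hrep h1
  exact (QuotientGroup.eq_one_iff _).mp h2

end main

end Crest.Agent.R251.YS
end

-- ▼ part R251/YJ971a
section

/-!
Row 251 (S0388), the Y-side joint, part a (helper971): an equivariant 1-cochain closed off the centres
gives helper770's path functional, and its value on the boundary of a lifted 2-cell is the
"area" of the coboundary.
-/

set_option autoImplicit false

open scoped unitInterval
open Topology
open Crest.GeometryTopology.DeckCochains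

namespace Crest.Agent.R251.YJ

open Crest.Agent.R197 Crest.Agent.R197.TwoCx Crest.Agent.R251

/-- value of a 2-cochain on a square: lower triangle minus upper triangle -/
noncomputable def ar {E : Type} [TopologicalSpace E] {M : Type*} [AddCommGroup M]
    (u : SingSimplex E 2 → M) (f : C(I × I, E)) : M :=
  u (PC.lin f ![((0 : I), (0 : I)), (1, 0), (1, 1)]) - u (PC.lin f ![((0 : I), (0 : I)), (0, 1), (1, 1)])

section bd
variable {E : Type} [TopologicalSpace E] {M : Type*} [AddCommGroup M] {ψ : SingSimplex E 1 → M}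
  {U : Set E}

theorem ps_bdSq (hcl : PC.ClosedOn ψ U) (f : C(I × I, E)) (hf : ∀ z, z ∉ Sint → f z ∈ U) :
    ψ (PC.ps (bdSq.map f.continuous : C(I, E))) = ar (cochainCobdry ψ) f := by
  let p1 : Path ((0, 0) : I × I) (1, 0) := ⟨⟨fun s => (s, 0), by fun_prop⟩, rfl, rfl⟩
  let p2 : Path ((1, 0) : I × I) (1, 1) := ⟨⟨fun s => (1, s), by fun_prop⟩, rfl, rfl⟩
  let p3 : Path ((1, 1) : I × I) (0, 1) :=
    ⟨⟨fun s => (unitInterval.symm s, 1), by fun_prop⟩, by simp, by simp⟩
  let p4 : Path ((0, 1) : I × I) (0, 0) :=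
    ⟨⟨fun s => (0, unitInterval.symm s), by fun_prop⟩, by simp, by simp⟩
  have hbd : bdSq = ((p1.trans p2).trans p3).trans p4 := rfl
  have n1 : ∀ t, p1 t ∉ Sint := fun t h => by
    have : (0 : ℝ) < ((0 : I) : ℝ) := h.2.1
    simp at this
  have n2 : ∀ t, p2 t ∉ Sint := fun t h => by
    have : ((1 : I) : ℝ) < (1 : ℝ) := h.1.2
    simp at this
  have n3 : ∀ t, p3 t ∉ Sint := fun t h => by
    have : ((1 : I) : ℝ) < (1 : ℝ) := h.2.2
    simp at this
  have n4 : ∀ t, p4 t ∉ Sint := fun t h => by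
    have : (0 : ℝ) < ((0 : I) : ℝ) := h.1.1
    simp at this
  have m1 : ∀ t, (p1.map f.continuous) t ∈ U := fun t => hf _ (n1 t)
  have m2 : ∀ t, (p2.map f.continuous) t ∈ U := fun t => hf _ (n2 t)
  have m3 : ∀ t, (p3.map f.continuous) t ∈ U := fun t => hf _ (n3 t)
  have m4 : ∀ t, (p4.map f.continuous) t ∈ U := fun t => hf _ (n4 t)
  have m12 : ∀ t, ((p1.map f.continuous).trans (p2.map f.continuous)) t ∈ U := fun t => by
    rw [Path.trans_apply]; split_ifs
    · exact m1 _
    · exact m2 _
  have m123 : ∀ t, (((p1.map f.continuous).trans (p2.map f.continuous)).trans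
      (p3.map f.continuous)) t ∈ U := fun t => by
    rw [Path.trans_apply]; split_ifs
    · exact m12 _
    · exact m3 _
  rw [hbd, Path.map_trans, Path.map_trans, Path.map_trans, hcl.trans _ _ m123 m4,
    hcl.trans _ _ m12 m3, hcl.trans _ _ m1 m2]
  have e1 : (p1.map f.continuous : C(I, E)) = PC.horz f 0 := rfl
  have e2 : (p2.map f.continuous : C(I, E)) = PC.vert f 1 := rfl
  let r3 : Path ((0, 1) : I × I) (1, 1) := ⟨⟨fun s => (s, 1), by fun_prop⟩, rfl, rfl⟩
  let r4 : Path ((0, 0) : I × I) (0, 1) := ⟨⟨fun s => (0, s), by fun_prop⟩, rfl, rfl⟩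
  have k3 : ∀ t, r3 t ∉ Sint := fun t h => by
    have : ((1 : I) : ℝ) < (1 : ℝ) := h.2.2
    simp at this
  have k4 : ∀ t, r4 t ∉ Sint := fun t h => by
    have : (0 : ℝ) < ((0 : I) : ℝ) := h.1.1
    simp at this
  have e3 : ψ (PC.ps (p3.map f.continuous : C(I, E))) = - ψ (PC.ps (PC.horz f 1)) :=
    hcl.symm (r3.map f.continuous) (fun t => hf _ (k3 t))
  have e4 : ψ (PC.ps (p4.map f.continuous : C(I, E))) = - ψ (PC.ps (PC.vert f 0)) :=
    hcl.symm (r4.map f.continuous) (fun t => hf _ (k4 t))
  rw [e1, e2, e3, e4]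
  have h1 := PC.stokes ψ f
  unfold ar
  have h2 : cochainCobdry ψ (PC.lin f ![((0 : I), (0 : I)), (1, 0), (1, 1)]) -
      cochainCobdry ψ (PC.lin f ![((0 : I), (0 : I)), (0, 1), (1, 1)]) =
      -(ψ (PC.ps (PC.vert f 0)) + ψ (PC.ps (PC.horz f 1)) - ψ (PC.ps (PC.vert f 1)) -
        ψ (PC.ps (PC.horz f 0))) := by
    rw [← h1]; abel
  rw [h2]
  abel

end bd

section fn
variable {G E X : Type} [Group G] [TopologicalSpace E] [TopologicalSpace X] [MulAction G E]
  [ContinuousConstSMul G E] {q : E → X} {K : Type} [Field K] {μ : G →* Kˣ}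

theorem act_of (h : YC.GCov G q) : YS.Act G q :=
  ⟨h.cov, h.surj, fun g => continuous_const_smul g, h.tra, h.inv, h.free⟩

/-- helper770's path functional from an equivariant 1-cochain closed over the 1-skeleton -/
noncomputable def fnOf (A : YS.Act G q) (C : TwoCx X) {ψ : SingSimplex E 1 → Fin.Tw μ}
    (hψ : Fin.Eqv G ψ) {U : Set E} (hU : ∀ y, q y ∈ C.X1 → y ∈ U) (hcl : PC.ClosedOn ψ U) :
    YS.Fn C A μ where
  Λ γ := ψ (PC.ps γ)
  trans s s' hs hs' := hcl.trans s s' (fun t => hU _ (hs t)) (fun t => hU _ (hs' t))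
  homotopic s s' H hH := hcl.homotopy H (fun z => hU _ (hH z))
  equiv g s _ := hψ g (PC.ps s)

theorem fnOf_Λ (A : YS.Act G q) (C : TwoCx X) {ψ : SingSimplex E 1 → Fin.Tw μ}
    (hψ : Fin.Eqv G ψ) {U : Set E} (hU : ∀ y, q y ∈ C.X1 → y ∈ U) (hcl : PC.ClosedOn ψ U)
    (γ : C(I, E)) : (fnOf A C hψ hU hcl).Λ γ = ψ (PC.ps γ) := rfl

end fn

end Crest.Agent.R251.YJ
end

-- ▼ part R251/YS770C
section

/-! Row 251, Y-side: torsion elements of the deck group are killed by `μ`. -/

set_option autoImplicit false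

open scoped unitInterval
open Crest.Agent.R197

namespace Crest.Agent.R251.YS

section pow
variable {Y : Type} [TopologicalSpace Y] (C : TwoCx Y)

theorem exists_O [Nonempty Y] : Nonempty C.O := by
  obtain ⟨x⟩ := ‹Nonempty Y›
  rcases C.cover x with ⟨o, _⟩ | ⟨i, _, _, _⟩ | ⟨j, _, _, _⟩
  · exact ⟨o⟩
  · exact ⟨C.src i⟩
  · rcases C.f_bd j (0, 0) (fun h => lt_irrefl _ h.1.1) with ⟨o, _⟩ | ⟨i, _⟩
    · exact ⟨o⟩
    · exact ⟨C.src i⟩

variable {C}

theorem exists_rep_pow {o : C.O} {w : C.Wd} {γ : Path.Homotopic.Quotient (C.v1 o) (C.v1 o)}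
    (h : C.Rep o o w γ) (n : ℕ) : ∃ (w' : C.Wd)
      (γ' : Path.Homotopic.Quotient (C.v1 o) (C.v1 o)), C.Rep o o w' γ' ∧
        C.wordOf w' = C.wordOf w ^ n := by
  induction n with
  | zero => exact ⟨[], _, TwoCx.Rep.nil o, by simp [TwoCx.wordOf]⟩
  | succ n ih =>
    obtain ⟨w', γ', h', hw'⟩ := ih
    refine ⟨w' ++ w, _, h'.trans h, ?_⟩
    rw [C.wordOf_append, hw', pow_succ]

end pow

section main
variable {G Y Yt : Type} [Group G] [TopologicalSpace Y] [TopologicalSpace Yt] [MulAction G Yt]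
  {q : Yt → Y} {C : TwoCx Y} (A : Act G q) {K : Type} [Field K] {μ : G →* Kˣ}
  (ot : C.O → Yt) (hot : ∀ o, q (ot o) = C.v o) (D : C.RelData)

/-- **Y-side theorem, combinatorial form.** -/
theorem mu_eq_one_of_sur [SimplyConnectedSpace Yt]
    (hS : ∀ b : C.J → K, ∃ F : Fn C A μ, ∀ j, F.Λ (bj A ot hot D j) = b j)
    (c : G) (n : ℕ) (hn : n ≠ 0) (hc : c ^ n = 1) : μ c = 1 := by
  have hY : Nonempty Y := by
    obtain ⟨y⟩ : Nonempty Yt := inferInstance
    exact ⟨q y⟩
  obtain ⟨o⟩ := exists_O C
  obtain ⟨w, γ, hw, hwc⟩ := exists_word A ot hot o c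
  obtain ⟨w', γ', hw', hww⟩ := exists_rep_pow hw n
  have h1 : phi C A ot hot (C.wordOf w') = 1 := by rw [hww, map_pow, hwc, hc]
  have h2 := mem_normalClosure A ot hot D hw' h1
  rw [hww] at h2
  have h3 := Tor711.torsion (mu' C A ot hot μ) (fun j => C.wordOf (D.w j))
    (fun j => by
      show μ (phi C A ot hot (C.wordOf (D.w j))) = 1
      rw [phi_rel A ot hot D j, map_one])
    (fun b => by
      obtain ⟨F, hF⟩ := hS b
      exact ⟨F.d ot hot, fun x y => F.d_mul ot hot x y, fun j =>
        (F.d_rel ot hot D j).trans (hF j)⟩)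
    (C.wordOf w) n hn h2
  have h4 : μ (phi C A ot hot (C.wordOf w)) = 1 := h3
  rwa [hwc] at h4

end main

end Crest.Agent.R251.YS
end

-- ▼ part R251/YJ971b
section

/-!
Row 251 (S0388), the Y-side joint, part b (helper971): `Fin.YCore` from the cell cocycles (Lemma B) on the
cover of a two-dimensional complex.
-/

set_option autoImplicit false

open scoped unitInterval
open Topology
open Crest.GeometryTopology.DeckCochains

namespace Crest.Agent.R251.YJ

open Crest.Agent.R197 Crest.Agent.R197.TwoCx Crest.Agent.R251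

/-- Lemma B for the cover of a two-dimensional complex: cell cocycles with prescribed values. -/
def CellCocycles {G E X : Type} [Group G] [TopologicalSpace E] [TopologicalSpace X] [MulAction G E]
    [ContinuousConstSMul G E] {q : E → X} (h : YC.GCov G q) (C : TwoCx X) (M : Type)
    [AddCommGroup M] [DistribMulAction G M] : Prop :=
  ∀ b : C.J → M, ∃ u : SingSimplex E 2 → M, cochainCobdry u = 0 ∧ Fin.Eqv G u ∧
    (∀ s : SingSimplex E 2, (∀ x, q (Pr.us s x) ∈ C.X1) → u s = 0) ∧
    ∀ (g : G) (j : C.J), ar u (YC.ftg h C g j) = g • b j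

section
variable {G E X : Type} [Group G] [TopologicalSpace E] [TopologicalSpace X] [MulAction G E]
  [ContinuousConstSMul G E] {q : E → X} (h : YC.GCov G q) (C : TwoCx X)

/-- any lift of a face is a translate of `ft` -/
theorem exists_ftg {j : C.J} (u : C(I × I, E)) (hu : ∀ z, q (u z) = C.f j z) :
    ∃ g : G, YC.ftg h C g j = u := by
  obtain ⟨g, hg⟩ := h.tra (YC.ft h C j (0, 0)) (u (0, 0)) (by rw [YC.q_ft h, hu])
  refine ⟨g, ?_⟩
  have := h.cov.eq_of_comp_eq (g₁ := fun z => YC.ftg h C g j z) (g₂ := fun z => u z)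
    (YC.ftg h C g j).continuous u.continuous (funext fun z => by
      show q (g • YC.ft h C j z) = q (u z)
      rw [h.inv, YC.q_ft h, hu]) (0, 0) hg
  ext z
  exact congrFun this z

/-- **the Sur hypothesis of helper770 from the cell cocycles and `H² = 0`** -/
theorem sur_of {K : Type} [Field K] {μ : G →* Kˣ} (hV : Fin.HV G E (Fin.Tw μ) 1)
    (hB : CellCocycles h C (Fin.Tw μ)) (A : YS.Act G q) (ot : C.O → E)
    (hot : ∀ o, q (ot o) = C.v o) (D : C.RelData) (b : C.J → K) :
    ∃ F : YS.Fn C A μ, ∀ j, F.Λ (YS.bj A ot hot D j) = b j := by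
  choose gj hgj using fun j => exists_ftg h C (YS.uj A ot hot D j) (YS.q_uj A ot hot D j)
  let b' : C.J → Fin.Tw μ := fun j => (gj j)⁻¹ • (show Fin.Tw μ from b j)
  obtain ⟨u, hu1, hu2, hu3, hu4⟩ := hB b'
  obtain ⟨ψ, hψ, hd⟩ := hV u hu2 hu1
  have hcl : PC.ClosedOn ψ {y : E | q y ∈ C.X1} := by
    intro τ hτ
    rw [hd]
    apply hu3
    intro x
    rw [Pr.us_sx]
    exact hτ x
  refine ⟨fnOf A C hψ (fun y hy => hy) hcl, fun j => ?_⟩
  rw [fnOf_Λ]
  have h1 := ps_bdSq hcl (YS.uj A ot hot D j) (fun z hz => by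
    show q (YS.uj A ot hot D j z) ∈ C.X1
    rw [YS.q_uj A ot hot D j z]
    rcases C.f_bd j z hz with ⟨o, ho⟩ | ⟨i, t, hi⟩
    · exact Or.inl ⟨o, ho⟩
    · exact Or.inr ⟨i, t, hi⟩)
  refine h1.trans ?_
  rw [hd, ← hgj j, hu4]
  show gj j • (gj j)⁻¹ • (show Fin.Tw μ from b j) = b j
  rw [smul_inv_smul]

end

/-- **YCore from Lemma B** -/
theorem ycore_of {K : Type} [Field K]
    (hB : ∀ (G E X : Type) [Group G] [TopologicalSpace E] [TopologicalSpace X] [MulAction G E]
      [ContinuousConstSMul G E] (q : E → X) (h : YC.GCov G q) (C : TwoCx X) (M : Type)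
      [AddCommGroup M] [DistribMulAction G M], CellCocycles h C M) : Fin.YCore K := by
  intro G _ Yt Y _ _ _ _ q hc μ hV _ _ hdim c n hn hcn
  have h : YC.GCov G q := ⟨hc.cov, hc.surj, hc.inv, hc.fib, hc.free⟩
  have A : YS.Act G q := act_of h
  have hsc := hc.sc
  obtain ⟨C⟩ : Nonempty (TwoCx Y) := exists_twoCx Y hdim
  obtain ⟨D⟩ := exists_relData C
  exact YS.mu_eq_one_of_sur A (YC.vt h C) (YC.q_vt h C) D
    (fun b => sur_of h C hV (hB G Yt Y q h C (Fin.Tw μ)) A _ _ D b) c n hn hcn

end Crest.Agent.R251.YJ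
end

-- ▼ part R251/Om239

/-! Row 251, block OM (helper239): the integral winding 2-cocycle `omegaP` on the plane, its
restriction `w2` to the open square `B 2`, and the 1-cocycle `w1` on the open interval `B 1`.
`homotopy_principle`, `log_step`, `exists_log` are copied from `R123/HopfLift.lean`. -/

set_option autoImplicit false

open CategoryTheory Simplicial Opposite
open Crest.GeometryTopology.DeckCochains

namespace Crest.Agent.R251.Om

noncomputable section

/-! ### logarithms on contractible compact spaces (from R123/HopfLift) -/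

/-- If `K` is contractible and `P` is a property of maps `K → M` which holds for constant maps
and which is locally constant along homotopies, then it holds for all maps. -/
theorem homotopy_principle {K : Type} [TopologicalSpace K] [CompactSpace K] [ContractibleSpace K]
    {M : Type*} [PseudoMetricSpace M] (P : C(K, M) → Prop) (s : C(K, M))
    (hconst : ∀ x : K, P (ContinuousMap.const K (s x)))
    (hloc : ∀ Γ : C(unitInterval, C(K, M)), (∀ t x, Γ t x ∈ Set.range s) →
      ∀ t, ∀ᶠ t' in nhds t, P (Γ t') ↔ P (Γ t)) : P s := by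
  obtain ⟨y, ⟨H⟩⟩ := id_nullhomotopic K
  let H' : C(unitInterval × K, M) := s.comp H.toContinuousMap
  let Γ : C(unitInterval, C(K, M)) := H'.curry
  have hΓ : ∀ t x, Γ t x = s (H (t, x)) := fun t x => rfl
  have h0 : Γ 0 = s := by
    ext x
    rw [hΓ, H.apply_zero]
    rfl
  have h1 : Γ 1 = ContinuousMap.const K (s y) := by
    ext x
    rw [hΓ, H.apply_one]
    rfl
  have hlc : IsLocallyConstant (fun t : unitInterval => P (Γ t)) := by
    rw [IsLocallyConstant.iff_eventually_eq]
    intro t
    filter_upwards [hloc Γ (fun t x => ⟨_, (hΓ t x).symm⟩) t] with t' ht'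
    exact propext ht'
  have := hlc.apply_eq_of_preconnectedSpace 0 1
  simp only [h0, h1] at this
  rw [this]
  exact hconst y

/-! ### logarithms -/

theorem log_step {K : Type} [TopologicalSpace K] (g g' : C(K, ℂ))
    (hg : ∀ x, g x ≠ 0) (hgg' : ∀ x, ‖g' x - g x‖ < ‖g x‖)
    (h : ∃ l : C(K, ℂ), ∀ x, Complex.exp (l x) = g x) :
    ∃ l : C(K, ℂ), ∀ x, Complex.exp (l x) = g' x := by
  obtain ⟨l, hl⟩ := h
  have hslit : ∀ x, g' x / g x ∈ Complex.slitPlane := by
    intro x
    have h1 : g' x / g x = 1 + (g' x - g x) / g x := by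
      field_simp [hg x]
      ring
    rw [h1]
    apply Complex.mem_slitPlane_of_norm_lt_one
    rw [norm_div, div_lt_one (norm_pos_iff.2 (hg x))]
    exact hgg' x
  refine ⟨⟨fun x => l x + Complex.log (g' x / g x), ?_⟩, ?_⟩
  · refine l.continuous.add (Continuous.clog ?_ hslit)
    exact g'.continuous.div g.continuous hg
  · intro x
    show Complex.exp (l x + Complex.log (g' x / g x)) = g' x
    rw [Complex.exp_add, Complex.exp_log, hl x]
    · field_simp [hg x]
    · exact Complex.slitPlane_ne_zero (hslit x)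

theorem exists_log {K : Type} [TopologicalSpace K] [CompactSpace K] [ContractibleSpace K]
    (r : C(K, ℂ)) (hr : ∀ x, r x ≠ 0) : ∃ l : C(K, ℂ), ∀ x, Complex.exp (l x) = r x := by
  have hne : Nonempty K := inferInstance
  refine homotopy_principle (fun g => ∃ l : C(K, ℂ), ∀ x, Complex.exp (l x) = g x) r ?_ ?_
  · intro y
    exact ⟨ContinuousMap.const K (Complex.log (r y)), fun x => Complex.exp_log (hr y)⟩
  · intro Γ hΓ t
    have hnz : ∀ t x, Γ t x ≠ 0 := by
      intro t x
      obtain ⟨y, hy⟩ := hΓ t x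
      rw [← hy]
      exact hr y
    obtain ⟨x₀, -, hx₀⟩ := isCompact_univ.exists_isMinOn (Set.univ_nonempty (α := K))
      ((Γ t).continuous.norm.continuousOn)
    set m : ℝ := ‖Γ t x₀‖ with hm
    have hmpos : 0 < m := norm_pos_iff.2 (hnz t x₀)
    have hmle : ∀ x, m ≤ ‖Γ t x‖ := fun x => hx₀ (Set.mem_univ x)
    have hcont : Filter.Tendsto Γ (nhds t) (nhds (Γ t)) := Γ.continuous.tendsto t
    have hball := hcont.eventually (Metric.ball_mem_nhds (Γ t) (half_pos hmpos))
    filter_upwards [hball] with t' ht'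
    have hd : ∀ x, ‖Γ t' x - Γ t x‖ < m / 2 := by
      intro x
      have h1 : dist (Γ t' x) (Γ t x) ≤ dist (Γ t') (Γ t) :=
        ContinuousMap.dist_apply_le_dist x
      rw [← dist_eq_norm]
      exact lt_of_le_of_lt h1 ht'
    constructor
    · intro h
      refine log_step (Γ t') (Γ t) (hnz t') ?_ h
      intro x
      have h1 := hd x
      have h2 := hmle x
      have h3 : ‖Γ t x‖ ≤ ‖Γ t' x‖ + ‖Γ t' x - Γ t x‖ := by
        have := norm_sub_le (Γ t' x) (Γ t' x - Γ t x)
        simpa using this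
      rw [norm_sub_rev]
      linarith
    · intro h
      refine log_step (Γ t) (Γ t') (hnz t) ?_ h
      intro x
      have h1 := hd x
      have h2 := hmle x
      linarith

/-! ### simplices -/

/-- the standard simplex -/
abbrev Dl (n : ℕ) : Type := stdSimplex ℝ (Fin (n + 1))

instance (n : ℕ) : ContractibleSpace (Dl n) :=
  (convex_stdSimplex ℝ (Fin (n + 1))).contractibleSpace ⟨_, single_mem_stdSimplex ℝ 0⟩

instance (n : ℕ) : CompactSpace (Dl n) := isCompact_iff_compactSpace.1 (isCompact_stdSimplex _ _)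

variable {E E' : Type} [TopologicalSpace E] [TopologicalSpace E']

/-- singular simplex of a continuous map -/
def mk {n : ℕ} (σ : C(Dl n, E)) : SingSimplex E n :=
  (TopCat.toSSetObjEquiv (TopCat.of E) (op ⦋n⦌)).symm σ

/-- continuous map of a singular simplex -/
def mp {n : ℕ} (s : SingSimplex E n) : C(Dl n, E) :=
  TopCat.toSSetObjEquiv (TopCat.of E) (op ⦋n⦌) s

@[simp] theorem mk_mp {n : ℕ} (s : SingSimplex E n) : mk (mp s) = s := Equiv.symm_apply_apply _ _
@[simp] theorem mp_mk {n : ℕ} (σ : C(Dl n, E)) : mp (mk σ) = σ := Equiv.apply_symm_apply _ _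

/-- face inclusions -/
def fc {n : ℕ} (i : Fin (n + 2)) : C(Dl n, Dl (n + 1)) :=
  ⟨stdSimplex.map i.succAbove, stdSimplex.continuous_map _⟩

theorem face_mk {n : ℕ} (σ : C(Dl (n + 1), E)) (i : Fin (n + 2)) :
    simplexFace i (mk σ) = mk (σ.comp (fc i)) := rfl

@[simp] theorem mp_face {n : ℕ} (s : SingSimplex E (n + 1)) (i : Fin (n + 2)) :
    mp (simplexFace i s) = (mp s).comp (fc i) := rfl

/-- vertices -/
abbrev vx {n : ℕ} (i : Fin (n + 1)) : Dl n := stdSimplex.vertex i

@[simp] theorem fc_vx {n : ℕ} (i : Fin (n + 2)) (k : Fin (n + 1)) : fc i (vx k) = vx (i.succAbove k) :=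
  stdSimplex.map_vertex _ _

/-- push forward -/
def pu {n : ℕ} (f : C(E, E')) (s : SingSimplex E n) : SingSimplex E' n := mk (f.comp (mp s))


theorem face_face {n : ℕ} (s : SingSimplex E (n + 2)) (j j' : Fin (n + 3)) (i i' : Fin (n + 2))
    (h : ∀ k : Fin (n + 1), j.succAbove (i.succAbove k) = j'.succAbove (i'.succAbove k)) :
    simplexFace i (simplexFace j s) = simplexFace i' (simplexFace j' s) := by
  have e : (fc j).comp (fc i) = (fc j').comp (fc (n := n) i') := by
    ext x : 1
    show stdSimplex.map _ (stdSimplex.map _ x) = stdSimplex.map _ (stdSimplex.map _ x)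
    rw [stdSimplex.map_comp_apply, stdSimplex.map_comp_apply]
    congr 1
    exact funext h
  show mk (((mp s).comp (fc j)).comp (fc i)) = mk (((mp s).comp (fc j')).comp (fc i'))
  rw [ContinuousMap.comp_assoc, ContinuousMap.comp_assoc, e]

theorem cobdry_pu {M : Type*} [AddCommGroup M] {n : ℕ} (f : C(E, E')) (φ : SingSimplex E' n → M)
    (s : SingSimplex E (n + 1)) :
    cochainCobdry (fun t : SingSimplex E n => φ (pu f t)) s = cochainCobdry φ (pu f s) := rfl

theorem cobdry1 {M : Type*} [AddCommGroup M] (φ : SingSimplex E 1 → M) (s : SingSimplex E 2) :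
    cochainCobdry φ s = φ (simplexFace 0 s) - φ (simplexFace 1 s) + φ (simplexFace 2 s) := by
  show ∑ i : Fin 3, ((-1 : ℤ) ^ (i : ℕ)) • φ (simplexFace i s) = _
  rw [Fin.sum_univ_three]
  simp
  abel

theorem cobdry2 {M : Type*} [AddCommGroup M] (φ : SingSimplex E 2 → M) (s : SingSimplex E 3) :
    cochainCobdry φ s = φ (simplexFace 0 s) - φ (simplexFace 1 s) + φ (simplexFace 2 s) -
      φ (simplexFace 3 s) := by
  show ∑ i : Fin 4, ((-1 : ℤ) ^ (i : ℕ)) • φ (simplexFace i s) = _
  rw [Fin.sum_univ_four]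
  simp [pow_succ]
  abel

theorem cobdry_cobdry1 {M : Type*} [AddCommGroup M] (φ : SingSimplex E 1 → M) :
    cochainCobdry (cochainCobdry φ) = 0 := by
  funext s
  rw [cobdry2, cobdry1, cobdry1, cobdry1, cobdry1]
  rw [face_face s 1 0 0 0 (by decide), face_face s 2 0 0 1 (by decide),
    face_face s 3 0 0 2 (by decide), face_face s 2 1 1 1 (by decide),
    face_face s 3 1 1 2 (by decide), face_face s 3 2 2 2 (by decide)]
  simp
  abel

/-! ### the winding cochain -/

open Complex (exp log I)

theorem exists_kap (z : ℂ) : ∃ n : ℤ, z = log (exp z) + n * (2 * Real.pi * I) :=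
  (Complex.exp_eq_exp_iff_exists_int).1 (Complex.exp_log (Complex.exp_ne_zero z)).symm

/-- the sheet number -/
def kap (z : ℂ) : ℤ := (exists_kap z).choose

theorem kap_spec (z : ℂ) : z = log (exp z) + kap z * (2 * Real.pi * I) := (exists_kap z).choose_spec

theorem kap_unique {z : ℂ} {n : ℤ} (h : z = log (exp z) + n * (2 * Real.pi * I)) : kap z = n := by
  have h1 := kap_spec z
  have h2 : (kap z : ℂ) * (2 * Real.pi * I) = n * (2 * Real.pi * I) := by
    have := h1.symm.trans h
    exact add_left_cancel this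
  have h3 := mul_right_cancel₀ Complex.two_pi_I_ne_zero h2
  exact_mod_cast h3

theorem kap_add (z : ℂ) (n : ℤ) : kap (z + n * (2 * Real.pi * I)) = kap z + n := by
  apply kap_unique
  have h : exp (z + n * (2 * Real.pi * I)) = exp z := Complex.exp_periodic.int_mul n z
  rw [h]
  conv_lhs => rw [kap_spec z]
  push_cast
  ring

theorem kap_zero {z : ℂ} (h1 : -Real.pi < z.im) (h2 : z.im ≤ Real.pi) : kap z = 0 := by
  apply kap_unique
  rw [Complex.log_exp h1 h2]
  simp

theorem kap_log (z : ℂ) : kap (log z) = 0 :=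
  kap_zero (Complex.neg_pi_lt_log_im z) (Complex.log_im_le_pi z)

/-- lifts through `exp` -/
def Lf {n : ℕ} (s : SingSimplex ℂ n) (L : C(Dl n, ℂ)) : Prop := ∀ x, exp (L x) = mp s x

theorem Lf.face {n : ℕ} {s : SingSimplex ℂ (n + 1)} {L : C(Dl (n + 1), ℂ)} (h : Lf s L)
    (i : Fin (n + 2)) : Lf (simplexFace i s) (L.comp (fc i)) := fun x => h (fc i x)

theorem exists_Lf {n : ℕ} (s : SingSimplex ℂ n) (h : ∀ x, mp s x ≠ 0) : ∃ L, Lf s L :=
  exists_log (mp s) h

theorem Lf.diff {s : SingSimplex ℂ 1} {L L' : C(Dl 1, ℂ)} (h : Lf s L) (h' : Lf s L') (x y : Dl 1) :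
    kap (L x) - kap (L y) = kap (L' x) - kap (L' y) := by
  have h1 : ∀ x, ∃ n : ℤ, L' x = L x + n * (2 * Real.pi * I) := fun x =>
    (Complex.exp_eq_exp_iff_exists_int).1 ((h' x).trans (h x).symm)
  choose N hN using h1
  have hc : Continuous fun x => (N x : ℂ) := by
    have : (fun x => (N x : ℂ)) = fun x => (L' x - L x) / (2 * Real.pi * I) := by
      funext x
      rw [hN x, add_sub_cancel_left, mul_div_cancel_right₀ _ Complex.two_pi_I_ne_zero]
    rw [this]
    exact (L'.continuous.sub L.continuous).div_const _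
  have hc' : Continuous N := by
    have h2 : Topology.IsClosedEmbedding (fun n : ℤ => (n : ℂ)) := by
      have := Complex.isometry_intCast.isClosedEmbedding
      exact this
    exact (h2.isEmbedding.continuous_iff).2 hc
  have hN' : ∀ x y, N x = N y := by
    intro x y
    exact PreconnectedSpace.constant (inferInstance : PreconnectedSpace (Dl 1)) hc'
  have h3 : ∀ x, kap (L' x) = kap (L x) + N x := fun x => by rw [hN x, kap_add]
  rw [h3, h3, hN' x y]
  ring

open Classical in
/-- the winding 1-cochain -/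
def theta (s : SingSimplex ℂ 1) : ℤ :=
  if h : ∃ L, Lf s L then kap (h.choose (vx 1)) - kap (h.choose (vx 0)) else 0

theorem theta_eq {s : SingSimplex ℂ 1} {L : C(Dl 1, ℂ)} (h : Lf s L) :
    theta s = kap (L (vx 1)) - kap (L (vx 0)) := by
  have h' : ∃ L, Lf s L := ⟨L, h⟩
  unfold theta
  rw [dif_pos h']
  exact h'.choose_spec.diff h _ _

/-- the winding 2-cocycle -/
def omega : SingSimplex ℂ 2 → ℤ := cochainCobdry theta

theorem omega_cocycle : cochainCobdry omega = 0 := cobdry_cobdry1 theta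

theorem omega_zero (s : SingSimplex ℂ 2) (h : ∀ x, mp s x ≠ 0) : omega s = 0 := by
  obtain ⟨L, hL⟩ := exists_Lf s h
  unfold omega
  rw [cobdry1, theta_eq (hL.face 0), theta_eq (hL.face 1), theta_eq (hL.face 2)]
  simp only [ContinuousMap.comp_apply, fc_vx]
  rw [show (0 : Fin 3).succAbove (1 : Fin 2) = 2 by decide,
    show (0 : Fin 3).succAbove (0 : Fin 2) = 1 by decide,
    show (1 : Fin 3).succAbove (1 : Fin 2) = 2 by decide,
    show (1 : Fin 3).succAbove (0 : Fin 2) = 0 by decide,
    show (2 : Fin 3).succAbove (1 : Fin 2) = 1 by decide,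
    show (2 : Fin 3).succAbove (0 : Fin 2) = 0 by decide]
  ring

/-! ### values on affine triangles -/

theorem fc_apply {n : ℕ} (i : Fin (n + 2)) (x : Dl n) (y : Fin (n + 2)) :
    (fc i x : Dl (n + 1)).1 y = ∑ j : Fin (n + 1), if i.succAbove j = y then x.1 j else 0 := by
  show FunOnFinite.linearMap ℝ ℝ (Fin.succAbove i) x.1 y = _
  rw [FunOnFinite.linearMap_apply_apply, Finset.sum_filter]

/-- affine segment -/
def seg (p q : ℂ) : C(Dl 1, ℂ) := ⟨fun x => (x.1 0 : ℂ) * p + (x.1 1 : ℂ) * q, by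
    have h : ∀ i : Fin 2, Continuous fun x : Dl 1 => x.1 i := fun i =>
      (continuous_apply i).comp continuous_subtype_val
    exact ((Complex.continuous_ofReal.comp (h 0)).mul continuous_const).add
      ((Complex.continuous_ofReal.comp (h 1)).mul continuous_const)⟩

/-- affine triangle -/
def tri (p q r : ℂ) : C(Dl 2, ℂ) :=
  ⟨fun x => (x.1 0 : ℂ) * p + (x.1 1 : ℂ) * q + (x.1 2 : ℂ) * r, by
    have h : ∀ i : Fin 3, Continuous fun x : Dl 2 => x.1 i := fun i =>
      (continuous_apply i).comp continuous_subtype_val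
    exact (((Complex.continuous_ofReal.comp (h 0)).mul continuous_const).add
      ((Complex.continuous_ofReal.comp (h 1)).mul continuous_const)).add
      ((Complex.continuous_ofReal.comp (h 2)).mul continuous_const)⟩

theorem tri_face0 (p q r : ℂ) : simplexFace 0 (mk (tri p q r)) = mk (seg q r) := by
  rw [face_mk]
  congr 1
  ext x : 1
  show ((fc 0 x).1 0 : ℂ) * p + ((fc 0 x).1 1 : ℂ) * q + ((fc 0 x).1 2 : ℂ) * r =
    (x.1 0 : ℂ) * q + (x.1 1 : ℂ) * r
  rw [fc_apply, fc_apply, fc_apply, Fin.sum_univ_two, Fin.sum_univ_two, Fin.sum_univ_two]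
  simp [Fin.succAbove, Fin.ext_iff]

theorem tri_face1 (p q r : ℂ) : simplexFace 1 (mk (tri p q r)) = mk (seg p r) := by
  rw [face_mk]
  congr 1
  ext x : 1
  show ((fc 1 x).1 0 : ℂ) * p + ((fc 1 x).1 1 : ℂ) * q + ((fc 1 x).1 2 : ℂ) * r =
    (x.1 0 : ℂ) * p + (x.1 1 : ℂ) * r
  rw [fc_apply, fc_apply, fc_apply, Fin.sum_univ_two, Fin.sum_univ_two, Fin.sum_univ_two]
  simp [Fin.succAbove, Fin.ext_iff]

theorem tri_face2 (p q r : ℂ) : simplexFace 2 (mk (tri p q r)) = mk (seg p q) := by
  rw [face_mk]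
  congr 1
  ext x : 1
  show ((fc 2 x).1 0 : ℂ) * p + ((fc 2 x).1 1 : ℂ) * q + ((fc 2 x).1 2 : ℂ) * r =
    (x.1 0 : ℂ) * p + (x.1 1 : ℂ) * q
  rw [fc_apply, fc_apply, fc_apply, Fin.sum_univ_two, Fin.sum_univ_two, Fin.sum_univ_two]
  simp [Fin.succAbove, Fin.ext_iff]

theorem dl_sum (x : Dl 1) : x.1 0 + x.1 1 = 1 := by
  have := x.2.2
  rwa [Fin.sum_univ_two] at this

theorem dl_nonneg {n : ℕ} (x : Dl n) (i : Fin (n + 1)) : 0 ≤ x.1 i := x.2.1 i

/-- paths in the slit plane have winding value 0 -/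
theorem theta_slit (s : SingSimplex ℂ 1) (h : ∀ x, mp s x ∈ Complex.slitPlane) : theta s = 0 := by
  have hL : Lf s ⟨fun x => log (mp s x), (mp s).continuous.clog h⟩ := fun x =>
    Complex.exp_log (Complex.slitPlane_ne_zero (h x))
  rw [theta_eq hL]
  show kap (log _) - kap (log _) = 0
  rw [kap_log, kap_log, sub_zero]

theorem seg_re (p q : ℂ) (x : Dl 1) : (seg p q x).re = x.1 0 * p.re + x.1 1 * q.re := by
  show ((x.1 0 : ℂ) * p + (x.1 1 : ℂ) * q).re = _
  simp

theorem seg_im (p q : ℂ) (x : Dl 1) : (seg p q x).im = x.1 0 * p.im + x.1 1 * q.im := by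
  show ((x.1 0 : ℂ) * p + (x.1 1 : ℂ) * q).im = _
  simp

/-- the crossing of the negative real axis -/
theorem theta_neg (r : ℝ) (hr : 0 < r) : theta (mk (seg ⟨-r, -r⟩ ⟨-r, r⟩)) = -1 := by
  have hs : ∀ x : Dl 1, -seg ⟨-r, -r⟩ ⟨-r, r⟩ x ∈ Complex.slitPlane := by
    intro x
    left
    rw [Complex.neg_re, seg_re]
    have := dl_sum x
    simp only
    nlinarith
  have hL : Lf (mk (seg ⟨-r, -r⟩ ⟨-r, r⟩))
      ⟨fun x => log (-seg ⟨-r, -r⟩ ⟨-r, r⟩ x) + Real.pi * I,
        ((seg ⟨-r, -r⟩ ⟨-r, r⟩).continuous.neg.clog hs).add continuous_const⟩ := by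
    intro x
    show exp (log (-seg ⟨-r, -r⟩ ⟨-r, r⟩ x) + Real.pi * I) = seg ⟨-r, -r⟩ ⟨-r, r⟩ x
    rw [Complex.exp_add, Complex.exp_log (Complex.slitPlane_ne_zero (hs x)), Complex.exp_pi_mul_I]
    ring
  rw [theta_eq hL]
  have h1 : seg ⟨-r, -r⟩ ⟨-r, r⟩ (vx 1) = ⟨-r, r⟩ := by
    apply Complex.ext
    · rw [seg_re]; simp
    · rw [seg_im]; simp
  have h0 : seg ⟨-r, -r⟩ ⟨-r, r⟩ (vx 0) = ⟨-r, -r⟩ := by
    apply Complex.ext
    · rw [seg_re]; simp
    · rw [seg_im]; simp
  show kap (log (-seg ⟨-r, -r⟩ ⟨-r, r⟩ (vx 1)) + Real.pi * I) -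
    kap (log (-seg ⟨-r, -r⟩ ⟨-r, r⟩ (vx 0)) + Real.pi * I) = -1
  rw [h1, h0]
  have ha1 : (log (-(⟨-r, r⟩ : ℂ))).im < 0 := by
    rw [Complex.log_im, Complex.arg_neg_iff]
    simpa using hr
  have ha0 : 0 < (log (-(⟨-r, -r⟩ : ℂ))).im := by
    rw [Complex.log_im]
    have h2 : 0 ≤ (-(⟨-r, -r⟩ : ℂ)).im := by simpa using hr.le
    have h3 := Complex.arg_nonneg_iff.2 h2
    refine lt_of_le_of_ne h3 fun h4 => ?_
    have h5 := Complex.arg_eq_zero_iff.1 h4.symm
    have : (-(⟨-r, -r⟩ : ℂ)).im = r := by simp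
    rw [this] at h5
    linarith [h5.2]
  have hk1 : kap (log (-(⟨-r, r⟩ : ℂ)) + Real.pi * I) = 0 := by
    apply kap_zero
    · have := Complex.neg_pi_lt_log_im (-(⟨-r, r⟩ : ℂ))
      simp only [Complex.add_im, Complex.mul_im, Complex.ofReal_re, Complex.I_im, mul_one,
        Complex.ofReal_im, Complex.I_re, mul_zero, add_zero]
      linarith [Real.pi_pos]
    · simp only [Complex.add_im, Complex.mul_im, Complex.ofReal_re, Complex.I_im, mul_one,
        Complex.ofReal_im, Complex.I_re, mul_zero, add_zero]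
      linarith
  have hk0 : kap (log (-(⟨-r, -r⟩ : ℂ)) + Real.pi * I) = 1 := by
    have h6 : log (-(⟨-r, -r⟩ : ℂ)) + Real.pi * I =
        (log (-(⟨-r, -r⟩ : ℂ)) - Real.pi * I) + ((1 : ℤ) : ℂ) * (2 * Real.pi * I) := by
      push_cast
      ring
    rw [h6, kap_add, kap_zero]
    · rfl
    · simp only [Complex.sub_im, Complex.mul_im, Complex.ofReal_re, Complex.I_im, mul_one,
        Complex.ofReal_im, Complex.I_re, mul_zero, add_zero]
      linarith
    · have := Complex.log_im_le_pi (-(⟨-r, -r⟩ : ℂ))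
      simp only [Complex.sub_im, Complex.mul_im, Complex.ofReal_re, Complex.I_im, mul_one,
        Complex.ofReal_im, Complex.I_re, mul_zero, add_zero]
      linarith [Real.pi_pos]
  rw [hk1, hk0]
  norm_num

/-- the value of the winding cocycle on the square `[-r, r]²` -/
theorem omega_sq (r : ℝ) (hr : 0 < r) :
    omega (mk (tri ⟨-r, -r⟩ ⟨r, -r⟩ ⟨r, r⟩)) - omega (mk (tri ⟨-r, -r⟩ ⟨-r, r⟩ ⟨r, r⟩)) = 1 := by
  unfold omega
  rw [cobdry1, cobdry1, tri_face0, tri_face1, tri_face2, tri_face0, tri_face1, tri_face2,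
    theta_neg r hr]
  have h1 : theta (mk (seg ⟨r, -r⟩ ⟨r, r⟩)) = 0 := by
    apply theta_slit
    intro x
    left
    rw [mp_mk, seg_re]
    have := dl_sum x
    simp only
    nlinarith
  have h2 : theta (mk (seg ⟨-r, -r⟩ ⟨r, -r⟩)) = 0 := by
    apply theta_slit
    intro x
    right
    rw [mp_mk, seg_im]
    have := dl_sum x
    simp only
    nlinarith
  have h3 : theta (mk (seg ⟨-r, r⟩ ⟨r, r⟩)) = 0 := by
    apply theta_slit
    intro x
    right
    rw [mp_mk, seg_im]
    have := dl_sum x
    simp only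
    nlinarith
  rw [h1, h2, h3]
  ring

/-! ### the plane with the sup norm and the open square -/

open Crest.Agent.R185.Att (B)

/-- the plane -/
abbrev P : Type := Fin 2 → ℝ

/-- the plane as `ℂ` -/
def toC : C(P, ℂ) := ⟨fun x => (x 0 : ℂ) + (x 1 : ℂ) * I, by fun_prop⟩

theorem toC_apply (x : P) : toC x = ⟨x 0, x 1⟩ := by
  show (x 0 : ℂ) + (x 1 : ℂ) * I = ⟨x 0, x 1⟩
  exact (Complex.mk_eq_add_mul_I _ _).symm

theorem toC_eq_zero {x : P} (h : toC x = 0) : x = 0 := by
  rw [toC_apply] at h
  have h0 := congrArg Complex.re h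
  have h1 := congrArg Complex.im h
  simp only [Complex.zero_re, Complex.zero_im] at h0 h1
  funext i
  fin_cases i
  · exact h0
  · exact h1

/-- affine triangle in the plane -/
def triP (p q r : P) : C(Dl 2, P) :=
  ⟨fun x => x.1 0 • p + x.1 1 • q + x.1 2 • r, by
    have h : ∀ i : Fin 3, Continuous fun x : Dl 2 => x.1 i := fun i =>
      (continuous_apply i).comp continuous_subtype_val
    exact (((h 0).smul continuous_const).add ((h 1).smul continuous_const)).add
      ((h 2).smul continuous_const)⟩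

theorem toC_triP (p q r : P) : toC.comp (triP p q r) = tri (toC p) (toC q) (toC r) := by
  ext x : 1
  show toC (x.1 0 • p + x.1 1 • q + x.1 2 • r) =
    (x.1 0 : ℂ) * toC p + (x.1 1 : ℂ) * toC q + (x.1 2 : ℂ) * toC r
  simp only [toC_apply]
  apply Complex.ext <;> simp

/-- the integral winding 2-cocycle on the plane -/
def omegaP (s : SingSimplex P 2) : ℤ := omega (pu toC s)

theorem omegaP_cocycle : cochainCobdry omegaP = 0 := by
  funext s
  exact (cobdry_pu toC omega s).trans (congrFun omega_cocycle _)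

theorem omegaP_zero (s : SingSimplex P 2) (h : ∀ x, mp s x ≠ 0) : omegaP s = 0 :=
  omega_zero _ fun x hx => h x (toC_eq_zero hx)

theorem omegaP_sq (r : ℝ) (hr : 0 < r) :
    omegaP (mk (triP ![-r, -r] ![r, -r] ![r, r])) -
      omegaP (mk (triP ![-r, -r] ![-r, r] ![r, r])) = 1 := by
  have h : ∀ p q r : P, pu toC (mk (triP p q r)) = mk (tri (toC p) (toC q) (toC r)) := by
    intro p q r
    unfold pu
    rw [mp_mk, toC_triP]
  unfold omegaP
  rw [h, h]
  simp only [toC_apply]
  exact omega_sq r hr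

/-- `B m → (Fin m → ℝ)` -/
def bp (m : ℕ) : C(B m, Fin m → ℝ) := ⟨Subtype.val, continuous_subtype_val⟩

/-- the winding 2-cocycle on the open square -/
def w2 (s : SingSimplex (B 2) 2) : ℤ := omegaP (pu (bp 2) s)

theorem w2_cocycle : cochainCobdry w2 = 0 := by
  funext s
  exact (cobdry_pu (bp 2) omegaP s).trans (congrFun omegaP_cocycle _)

theorem w2_zero (s : SingSimplex (B 2) 2) (h : ∀ x, (mp s x : Fin 2 → ℝ) ≠ 0) : w2 s = 0 :=
  omegaP_zero _ h

theorem triP_mem {p q r : P} {K : Set P} (hK : Convex ℝ K) (hp : p ∈ K) (hq : q ∈ K) (hr : r ∈ K)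
    (x : Dl 2) : triP p q r x ∈ K := by
  have h := x.2.2
  rw [Fin.sum_univ_three] at h
  have h0 := dl_nonneg x 0
  have h1 := dl_nonneg x 1
  have h2 := dl_nonneg x 2
  have := hK.sum_mem (t := Finset.univ) (w := fun i : Fin 3 => x.1 i) (z := ![p, q, r])
    (fun i _ => dl_nonneg x i) (by rw [Fin.sum_univ_three]; exact h) (by
      intro i _
      fin_cases i
      · exact hp
      · exact hq
      · exact hr)
  rw [Fin.sum_univ_three] at this
  exact this

theorem pt_mem_ball {r a b : ℝ} (hr1 : r < 1) (ha : |a| = r) (hb : |b| = r) :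
    (![a, b] : P) ∈ Metric.ball (0 : P) 1 := by
  rw [mem_ball_zero_iff, pi_norm_lt_iff one_pos]
  intro i
  fin_cases i
  · show ‖a‖ < 1
    rw [Real.norm_eq_abs, ha]; exact hr1
  · show ‖b‖ < 1
    rw [Real.norm_eq_abs, hb]; exact hr1

/-- affine triangle in the open square -/
def triB (p q r : B 2) : C(Dl 2, B 2) :=
  ⟨fun x => ⟨triP p.1 q.1 r.1 x, triP_mem (convex_ball 0 1) p.2 q.2 r.2 x⟩,
    (triP p.1 q.1 r.1).continuous.subtype_mk _⟩

/-- corner of the inner square -/
def cB (r : ℝ) (hr1 : r < 1) (a b : ℝ) (ha : |a| = r) (hb : |b| = r) : B 2 :=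
  ⟨![a, b], pt_mem_ball hr1 ha hb⟩

theorem w2_sq (p00 p10 p01 p11 : B 2) (r : ℝ) (hr : 0 < r) (h00 : p00.1 = ![-r, -r])
    (h10 : p10.1 = ![r, -r]) (h01 : p01.1 = ![-r, r]) (h11 : p11.1 = ![r, r]) :
    w2 (mk (triB p00 p10 p11)) - w2 (mk (triB p00 p01 p11)) = 1 := by
  have h : ∀ p q r : B 2, pu (bp 2) (mk (triB p q r)) = mk (triP p.1 q.1 r.1) := by
    intro p q r
    unfold pu
    rw [mp_mk]
    rfl
  unfold w2
  rw [h, h, h00, h10, h01, h11]
  exact omegaP_sq r hr

/-! ### the 1-cocycle on the open interval -/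



open Classical in
/-- the jump function -/
def jump (x : B 1) : ℤ := if 0 ≤ x.1 0 then 1 else 0

/-- the 1-cocycle on the open interval with value 1 across 0 -/
def w1 : SingSimplex (B 1) 1 → ℤ := cochainCobdry fun s : SingSimplex (B 1) 0 => jump (mp s (vx 0))





/-- the centre of `B m` -/
def o (m : ℕ) : B m := ⟨0, by simp⟩

theorem w2_zero' (s : SingSimplex (B 2) 2) (h : o 2 ∉ Set.range (mp s)) : w2 s = 0 :=
  w2_zero s fun x hx => h ⟨x, Subtype.ext hx⟩


end

end Crest.Agent.R251.Om
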