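import Crest.Agent.R251.LB972
import Crest.Agent.R251.PC752
import Crest.Agent.R185.Att1
import Crest.Agent.R251.Sm82C
import Mathlib
import Crest.Agent.R251.Om239_Mg
import Crest.Agent.R251.Fin711c
import Crest.Agent.R251.L679
import Crest.Agent.R251.Mod19
import Crest.Agent.R251.Cay337
import Crest.Agent.R251.Pr963b
import Crest.Agent.R251.Mod19c
import Crest.Agent.R251.Fin711
import Crest.Agent.R251.Orb679b
import Crest.Agent.R251.Coh539A
import Crest.Agent.R251.LBg664
import Crest.Agent.R251.Kr34a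
import Crest.Agent.R185.Base3
import Crest.Agent.R251.Joint19
import Crest.Agent.R251.Ar348C
import Crest.Agent.R251.Ar348D

-- ▼ part R251/LB972b
section

/-!
# R251 (S0388), block LB2 (helper972): the value of a singular 2-cocycle on a closed 2-cell

A 2-cocycle `u` on the affine triangles of a convex space `Z` is a coboundary on triples of points;
the value on an outer quadrilateral equals the value on an inner one if the four trapezoids between
them contribute zero.  With `lemmaB`: the value of `u_b` on the closed cell `(g, j)` is `g • b j`.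
-/

set_option autoImplicit false
set_option linter.unusedSimpArgs false

noncomputable section

open CategoryTheory Simplicial Opposite Set
open Crest.GeometryTopology.DeckCochains
open Crest.Agent.R251.PC
open scoped unitInterval

namespace Crest.Agent.R251.LB

section quad

variable {Z : Type} [TopologicalSpace Z] [Cvx Z]
variable {E : Type} [TopologicalSpace E] {M : Type} [AddCommGroup M]
  (u : SingSimplex E 2 → M) (f : C(Z, E))

/-- lower triangle minus upper triangle of the quadrilateral with corners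
`a = 00, b = 10, c = 01, d = 11` -/
def quad (a b c d : Z) : M := u (lin f ![a, b, d]) - u (lin f ![a, c, d])

/-- **the outer quadrilateral equals the inner one**, if the four trapezoids contribute `0` -/
theorem quad_eq_inner (hu : cochainCobdry u = 0) (P Q : Bool → Bool → Z)
    (h1 : u (lin f ![P false false, P true false, Q true false]) = 0)
    (h2 : u (lin f ![P false false, Q false false, Q true false]) = 0)
    (h3 : u (lin f ![P true false, P true true, Q true true]) = 0)
    (h4 : u (lin f ![P true false, Q true false, Q true true]) = 0)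
    (h5 : u (lin f ![P false true, P true true, Q true true]) = 0)
    (h6 : u (lin f ![P false true, Q false true, Q true true]) = 0)
    (h7 : u (lin f ![P false false, P false true, Q false true]) = 0)
    (h8 : u (lin f ![P false false, Q false false, Q false true]) = 0) :
    quad u f (P false false) (P true false) (P false true) (P true true) =
      quad u f (Q false false) (Q true false) (Q false true) (Q true true) := by
  set o := P false false
  set β : Z → Z → M := fun p q => u (lin f ![o, p, q]) with hβ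
  have key : ∀ p q r : Z, u (lin f ![p, q, r]) = β q r - β p r + β p q := by
    intro p q r
    have := cocycle_tet hu f o p q r
    simp only [hβ]
    rw [← sub_eq_zero, ← this]
    abel
  simp only [quad]
  simp only [key] at h1 h2 h3 h4 h5 h6 h7 h8 ⊢
  linear_combination (norm := abel) h1 - h2 + (h3 - h4) - (h5 - h6) - (h7 - h8)

end quad

/-- lower minus upper triangle of a singular square -/
def ar {E : Type} [TopologicalSpace E] {M : Type} [AddCommGroup M]
    (u : SingSimplex E 2 → M) (f : C(I × I, E)) : M :=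
  u (lin f ![((0 : I), (0 : I)), (1, 0), (1, 1)]) - u (lin f ![((0 : I), (0 : I)), (0, 1), (1, 1)])

/-! ### the inner square of the model cell -/

/-- the closed disc model: the open sup-norm unit square -/
abbrev B2 : Type := Crest.Agent.R185.Att.B 2

/-- the centre of the open square -/
def b0 : B2 := ⟨0, Metric.mem_ball_self one_pos⟩

/-- the affine triangle of `B 2` with vertices `(-1/2,-1/2), (1/2,-1/2), (1/2,1/2)` -/
def lowB : C(Dn 2, B2) where
  toFun s := ⟨![(-s 0 + s 1 + s 2) / 2, (-s 0 - s 1 + s 2) / 2], by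
    have h0 : 0 ≤ s 0 := s.2.1 0
    have h1 : 0 ≤ s 1 := s.2.1 1
    have h2 : 0 ≤ s 2 := s.2.1 2
    have hs : s 0 + s 1 + s 2 = 1 := by
      have := s.2.2
      rwa [Fin.sum_univ_three] at this
    rw [mem_ball_zero_iff, pi_norm_lt_iff one_pos]
    intro i
    fin_cases i
    · show ‖(-s 0 + s 1 + s 2) / 2‖ < 1
      rw [Real.norm_eq_abs, abs_lt]
      constructor <;> linarith
    · show ‖(-s 0 - s 1 + s 2) / 2‖ < 1
      rw [Real.norm_eq_abs, abs_lt]
      constructor <;> linarith⟩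
  continuous_toFun := by
    have hc : ∀ i : Fin 3, Continuous fun s : Dn 2 => s i :=
      fun i => (continuous_apply i).comp continuous_subtype_val
    have h0 := hc 0
    have h1 := hc 1
    have h2 := hc 2
    refine Continuous.subtype_mk (continuous_pi fun i => ?_) _
    fin_cases i
    · exact ((h0.neg.add h1).add h2).div_const 2
    · exact ((h0.neg.sub h1).add h2).div_const 2

/-- the affine triangle of `B 2` with vertices `(-1/2,-1/2), (-1/2,1/2), (1/2,1/2)` -/
def upB : C(Dn 2, B2) where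
  toFun s := ⟨![(-s 0 - s 1 + s 2) / 2, (-s 0 + s 1 + s 2) / 2], by
    have h0 : 0 ≤ s 0 := s.2.1 0
    have h1 : 0 ≤ s 1 := s.2.1 1
    have h2 : 0 ≤ s 2 := s.2.1 2
    have hs : s 0 + s 1 + s 2 = 1 := by
      have := s.2.2
      rwa [Fin.sum_univ_three] at this
    rw [mem_ball_zero_iff, pi_norm_lt_iff one_pos]
    intro i
    fin_cases i
    · show ‖(-s 0 - s 1 + s 2) / 2‖ < 1
      rw [Real.norm_eq_abs, abs_lt]
      constructor <;> linarith
    · show ‖(-s 0 + s 1 + s 2) / 2‖ < 1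
      rw [Real.norm_eq_abs, abs_lt]
      constructor <;> linarith⟩
  continuous_toFun := by
    have hc : ∀ i : Fin 3, Continuous fun s : Dn 2 => s i :=
      fun i => (continuous_apply i).comp continuous_subtype_val
    have h0 := hc 0
    have h1 := hc 1
    have h2 := hc 2
    refine Continuous.subtype_mk (continuous_pi fun i => ?_) _
    fin_cases i
    · exact ((h0.neg.sub h1).add h2).div_const 2
    · exact ((h0.neg.add h1).add h2).div_const 2

theorem lowB_apply (s : Dn 2) :
    (lowB s : Fin 2 → ℝ) = ![(-s 0 + s 1 + s 2) / 2, (-s 0 - s 1 + s 2) / 2] := rfl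

theorem upB_apply (s : Dn 2) :
    (upB s : Fin 2 → ℝ) = ![(-s 0 - s 1 + s 2) / 2, (-s 0 + s 1 + s 2) / 2] := rfl

/-! ### value on the closed cell -/

/-- the point `1/4` of the unit interval -/
def qu : I := ⟨1 / 4, by norm_num, by norm_num⟩

/-- the point `3/4` of the unit interval -/
def tq : I := ⟨3 / 4, by norm_num, by norm_num⟩

/-- the open square inside `I × I` -/
def inSq (s : I × I) : Prop := (0 : ℝ) < s.1 ∧ (s.1 : ℝ) < 1 ∧ (0 : ℝ) < s.2 ∧ (s.2 : ℝ) < 1

theorem aff3_fst (a b c : I × I) (s : Dn 2) :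
    (((aff ![a, b, c] : C(Dn 2, I × I)) s).1 : ℝ) = s 0 * a.1 + s 1 * b.1 + s 2 * c.1 := by
  rw [aff_fst]
  refine (affI_apply _ s).trans ?_
  rw [Fin.sum_univ_three]
  rfl

theorem aff3_snd (a b c : I × I) (s : Dn 2) :
    (((aff ![a, b, c] : C(Dn 2, I × I)) s).2 : ℝ) = s 0 * a.2 + s 1 * b.2 + s 2 * c.2 := by
  rw [aff_snd]
  refine (affI_apply _ s).trans ?_
  rw [Fin.sum_univ_three]
  rfl

section value

variable {G E J : Type} [Group G] [TopologicalSpace E] [MulAction G E] (K : Cells G E J B2)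
variable {M : Type} [AddCommGroup M] [DistribMulAction G M]

/-- **LB2: the value of `u` on the closed cell.** -/
theorem ar_value (hc0 : K.c0 = b0) (w0 : SingSimplex B2 2 → ℤ)
    (hw1 : w0 (sx lowB) - w0 (sx upB) = 1) (b : J → M) (u : SingSimplex E 2 → M)
    (hu : cochainCobdry u = 0)
    (hmiss : ∀ s : SingSimplex E 2, range (un s) ⊆ K.ctrᶜ → u s = 0)
    (hchart : ∀ (g : G) (j : J) (τ : C(Dn 2, B2)),
      u (sx ((K.chart g j).comp τ)) = w0 (sx τ) • (g • b j))
    (g : G) (j : J) (f : C(I × I, E))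
    (hf : ∀ (s : I × I) (x : B2), (x : Fin 2 → ℝ) = ![2 * (s.1 : ℝ) - 1, 2 * (s.2 : ℝ) - 1] →
      f s = K.chart g j x)
    (hb : ∀ s : I × I, ¬ inSq s → f s ∉ K.ctr) :
    ar u f = g • b j := by
  have hne : ∀ s : I × I, ¬ ((s.1 : ℝ) = 1 / 2 ∧ (s.2 : ℝ) = 1 / 2) → f s ∉ K.ctr := by
    intro s hs
    by_cases hin : inSq s
    · obtain ⟨a1, a2, a3, a4⟩ := hin
      have hx : (![2 * (s.1 : ℝ) - 1, 2 * (s.2 : ℝ) - 1] : Fin 2 → ℝ) ∈
          Metric.ball (0 : Fin 2 → ℝ) 1 := by
        rw [mem_ball_zero_iff, pi_norm_lt_iff one_pos]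
        intro i
        fin_cases i
        · show ‖2 * (s.1 : ℝ) - 1‖ < 1
          rw [Real.norm_eq_abs, abs_lt]
          constructor <;> linarith
        · show ‖2 * (s.2 : ℝ) - 1‖ < 1
          rw [Real.norm_eq_abs, abs_lt]
          constructor <;> linarith
      rw [hf s ⟨_, hx⟩ rfl, K.mem_ctr_chart, hc0]
      intro h
      apply hs
      have h1 := congrArg (fun y : B2 => (y : Fin 2 → ℝ) 0) h
      have h2 := congrArg (fun y : B2 => (y : Fin 2 → ℝ) 1) h
      have h1' : 2 * (s.1 : ℝ) - 1 = 0 := h1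
      have h2' : 2 * (s.2 : ℝ) - 1 = 0 := h2
      constructor <;> linarith
    · exact hb s hin
  -- triangles missing the centre
  have hz : ∀ a b' c : I × I, (∀ s : Dn 2, ¬ ((((aff ![a, b', c] : C(Dn 2, I × I)) s).1 : ℝ) = 1 / 2 ∧
      (((aff ![a, b', c] : C(Dn 2, I × I)) s).2 : ℝ) = 1 / 2)) → u (lin f ![a, b', c]) = 0 := by
    intro a b' c h
    apply hmiss
    rintro _ ⟨s, rfl⟩
    exact hne _ (h s)
  have hsum : ∀ s : Dn 2, 0 ≤ s 0 ∧ 0 ≤ s 1 ∧ 0 ≤ s 2 ∧ s 0 + s 1 + s 2 = 1 := fun s =>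
    ⟨s.2.1 0, s.2.1 1, s.2.1 2, by
      have := s.2.2
      rwa [Fin.sum_univ_three] at this⟩
  let P : Bool → Bool → I × I := fun x y => (cond x 1 0, cond y 1 0)
  let Q : Bool → Bool → I × I := fun x y => (cond x tq qu, cond y tq qu)
  have hq := quad_eq_inner u f hu P Q
    (hz _ _ _ fun s h => by
      have h2 := h.2
      rw [aff3_snd] at h2
      obtain ⟨p0, p1, p2, p3⟩ := hsum s
      simp only [P, Q, cond, qu, tq, Icc.coe_zero, Icc.coe_one] at h2
      linarith)
    (hz _ _ _ fun s h => by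
      have h2 := h.2
      rw [aff3_snd] at h2
      obtain ⟨p0, p1, p2, p3⟩ := hsum s
      simp only [P, Q, cond, qu, tq, Icc.coe_zero, Icc.coe_one] at h2
      linarith)
    (hz _ _ _ fun s h => by
      have h2 := h.1
      rw [aff3_fst] at h2
      obtain ⟨p0, p1, p2, p3⟩ := hsum s
      simp only [P, Q, cond, qu, tq, Icc.coe_zero, Icc.coe_one] at h2
      linarith)
    (hz _ _ _ fun s h => by
      have h2 := h.1
      rw [aff3_fst] at h2
      obtain ⟨p0, p1, p2, p3⟩ := hsum s
      simp only [P, Q, cond, qu, tq, Icc.coe_zero, Icc.coe_one] at h2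
      linarith)
    (hz _ _ _ fun s h => by
      have h2 := h.2
      rw [aff3_snd] at h2
      obtain ⟨p0, p1, p2, p3⟩ := hsum s
      simp only [P, Q, cond, qu, tq, Icc.coe_zero, Icc.coe_one] at h2
      linarith)
    (hz _ _ _ fun s h => by
      have h2 := h.2
      rw [aff3_snd] at h2
      obtain ⟨p0, p1, p2, p3⟩ := hsum s
      simp only [P, Q, cond, qu, tq, Icc.coe_zero, Icc.coe_one] at h2
      linarith)
    (hz _ _ _ fun s h => by
      have h2 := h.1
      rw [aff3_fst] at h2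
      obtain ⟨p0, p1, p2, p3⟩ := hsum s
      simp only [P, Q, cond, qu, tq, Icc.coe_zero, Icc.coe_one] at h2
      linarith)
    (hz _ _ _ fun s h => by
      have h2 := h.1
      rw [aff3_fst] at h2
      obtain ⟨p0, p1, p2, p3⟩ := hsum s
      simp only [P, Q, cond, qu, tq, Icc.coe_zero, Icc.coe_one] at h2
      linarith)
  have e1 : ar u f = quad u f (P false false) (P true false) (P false true) (P true true) := rfl
  rw [e1, hq]
  have l1 : u (lin f ![Q false false, Q true false, Q true true]) = w0 (sx lowB) • (g • b j) := by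
    rw [← hchart]
    have e : f.comp (aff ![Q false false, Q true false, Q true true]) =
        (K.chart g j).comp lowB := by
      ext1 s
      refine hf _ (lowB s) ?_
      rw [lowB_apply, aff3_fst, aff3_snd]
      obtain ⟨p0, p1, p2, p3⟩ := hsum s
      simp only [Q, cond, qu, tq]
      congr 1
      · linarith
      · congr 1
        linarith
    exact congrArg (fun τ => u (sx τ)) e
  have l2 : u (lin f ![Q false false, Q false true, Q true true]) = w0 (sx upB) • (g • b j) := by
    rw [← hchart]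
    have e : f.comp (aff ![Q false false, Q false true, Q true true]) =
        (K.chart g j).comp upB := by
      ext1 s
      refine hf _ (upB s) ?_
      rw [upB_apply, aff3_fst, aff3_snd]
      obtain ⟨p0, p1, p2, p3⟩ := hsum s
      simp only [Q, cond, qu, tq]
      congr 1
      · linarith
      · congr 1
        linarith
    exact congrArg (fun τ => u (sx τ)) e
  rw [quad, l1, l2, ← sub_smul, hw1, one_smul]

end value

end Crest.Agent.R251.LB
end
end

-- ▼ part R251/LB972c
section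

/-!
# R251 (S0388), block LB (helper972): Lemma B without hypotheses

`SmallVanish` from helper82's `small_vanish`; `lemmaB'` (all `n`), `exists_uB` (`n = 2`, with the
value on the closed cells).
-/

set_option autoImplicit false

noncomputable section

open CategoryTheory Simplicial Opposite Set
open Crest.GeometryTopology.DeckCochains
open Crest.Agent.R251.PC
open scoped unitInterval

namespace Crest.Agent.R251.LB

section

variable {G E : Type} [Group G] [TopologicalSpace E] [MulAction G E] [ContinuousConstSMul G E]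
variable {M : Type} [AddCommGroup M] [DistribMulAction G M]

/-- C1 in the form used by `lemmaB` -/
theorem smallVanish (U : Set (Set E)) (hU : ∀ V ∈ U, IsOpen V) (hc : ⋃₀ U = univ) (n : ℕ) :
    SmallVanish G E M n U := by
  intro φ hφ heq h0
  obtain ⟨ψ, h1, -, h3, h4⟩ := Sm.small_vanish U hU
    (fun x => by
      have : x ∈ ⋃₀ U := hc ▸ mem_univ x
      exact this) φ hφ h0
  refine ⟨ψ, h1, fun g s => ?_, h3⟩
  exact h4 ((Homeomorph.smul g : E ≃ₜ E) : C(E, E)) (DistribSMul.toAddMonoidHom M g)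
    (fun s => heq g s) s

variable {J B : Type} [TopologicalSpace B]

/-- **Lemma B**, all degrees -/
theorem lemmaB' (K : Cells G E J B) {n : ℕ} (w0 : SingSimplex B n → ℤ) (b : J → M)
    (hw0 : cochainCobdry w0 = 0) (hw : ∀ τ : C(Dn n, B), K.c0 ∉ range τ → w0 (sx τ) = 0) :
    ∃ u : SingSimplex E n → M, cochainCobdry u = 0 ∧
      (∀ (g : G) (s : SingSimplex E n), u (tr g s) = g • u s) ∧
      (∀ s : SingSimplex E n, range (un s) ⊆ K.ctrᶜ → u s = 0) ∧
      (∀ (g : G) (j : J) (τ : C(Dn n, B)),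
        u (sx ((K.chart g j).comp τ)) = w0 (sx τ) • (g • b j)) :=
  lemmaB K w0 b (smallVanish K.cov K.cov_open K.cov_univ n) hw0 hw

/-- **Lemma B for 2-cells**, with the value on the closed cells: `w0` is the winding 2-cocycle on
the open square `B 2`. -/
theorem exists_uB (K : Cells G E J B2) (hc0 : K.c0 = b0) (w0 : SingSimplex B2 2 → ℤ)
    (hw0 : cochainCobdry w0 = 0) (hw : ∀ τ : C(Dn 2, B2), b0 ∉ range τ → w0 (sx τ) = 0)
    (hw1 : w0 (sx lowB) - w0 (sx upB) = 1) (b : J → M) :
    ∃ u : SingSimplex E 2 → M, cochainCobdry u = 0 ∧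
      (∀ (g : G) (s : SingSimplex E 2), u (tr g s) = g • u s) ∧
      (∀ s : SingSimplex E 2, range (un s) ⊆ K.ctrᶜ → u s = 0) ∧
      (∀ (g : G) (j : J) (f : C(I × I, E)),
        (∀ (s : I × I) (x : B2), (x : Fin 2 → ℝ) = ![2 * (s.1 : ℝ) - 1, 2 * (s.2 : ℝ) - 1] →
          f s = K.chart g j x) →
        (∀ s : I × I, ¬ inSq s → f s ∉ K.ctr) → ar u f = g • b j) := by
  obtain ⟨u, h1, h2, h3, h4⟩ := lemmaB' K w0 b hw0 (by rw [hc0]; exact hw)
  exact ⟨u, h1, h2, h3, fun g j f hf hb => ar_value K hc0 w0 hw1 b u h1 h3 h4 g j f hf hb⟩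

end

end Crest.Agent.R251.LB
end
end

-- ▼ part R251/YJ971c
section

/-!
Row 251 (S0388), the Y-side joint, part c (helper971): the cell cocycles on the cover of a
two-dimensional complex (helper972's Lemma B with helper239's winding cocycle), and `YCore`.
-/

set_option autoImplicit false

open scoped unitInterval
open Topology
open Crest.GeometryTopology.DeckCochains

namespace Crest.Agent.R251.YJ

open Crest.Agent.R197 Crest.Agent.R197.TwoCx Crest.Agent.R251

/-- helper239's winding cocycle has value one on helper972's inner square -/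
theorem w2_lowB_upB : Om.w2 (LB.sx LB.lowB) - Om.w2 (LB.sx LB.upB) = 1 := by
  have hr : (1 / 2 : ℝ) < 1 := by norm_num
  have ha : |(-(1 / 2) : ℝ)| = 1 / 2 := by rw [abs_neg, abs_of_pos (by norm_num)]
  have hb : |((1 / 2) : ℝ)| = 1 / 2 := abs_of_pos (by norm_num)
  have key := Om.w2_sq (Om.cB (1 / 2) hr (-(1 / 2)) (-(1 / 2)) ha ha)
    (Om.cB (1 / 2) hr (1 / 2) (-(1 / 2)) hb ha) (Om.cB (1 / 2) hr (-(1 / 2)) (1 / 2) ha hb)
    (Om.cB (1 / 2) hr (1 / 2) (1 / 2) hb hb) (1 / 2) (by norm_num) rfl rfl rfl rfl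
  have e1 : Om.triB (Om.cB (1 / 2) hr (-(1 / 2)) (-(1 / 2)) ha ha)
      (Om.cB (1 / 2) hr (1 / 2) (-(1 / 2)) hb ha) (Om.cB (1 / 2) hr (1 / 2) (1 / 2) hb hb) =
      LB.lowB := by
    ext x i
    fin_cases i
    · show x.1 0 * (-(1 / 2)) + x.1 1 * (1 / 2) + x.1 2 * (1 / 2) = (-x.1 0 + x.1 1 + x.1 2) / 2
      ring
    · show x.1 0 * (-(1 / 2)) + x.1 1 * (-(1 / 2)) + x.1 2 * (1 / 2) = (-x.1 0 - x.1 1 + x.1 2) / 2
      ring
  have e2 : Om.triB (Om.cB (1 / 2) hr (-(1 / 2)) (-(1 / 2)) ha ha)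
      (Om.cB (1 / 2) hr (-(1 / 2)) (1 / 2) ha hb) (Om.cB (1 / 2) hr (1 / 2) (1 / 2) hb hb) =
      LB.upB := by
    ext x i
    fin_cases i
    · show x.1 0 * (-(1 / 2)) + x.1 1 * (-(1 / 2)) + x.1 2 * (1 / 2) = (-x.1 0 - x.1 1 + x.1 2) / 2
      ring
    · show x.1 0 * (-(1 / 2)) + x.1 1 * (1 / 2) + x.1 2 * (1 / 2) = (-x.1 0 + x.1 1 + x.1 2) / 2
      ring
  rw [e1, e2] at key
  exact key

/-- **Lemma B with all inputs**, for any family of free 2-cells in helper972's form. -/
theorem exists_cocycle {G E J M : Type} [Group G] [TopologicalSpace E] [MulAction G E]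
    [ContinuousConstSMul G E] [AddCommGroup M] [DistribMulAction G M]
    (K : LB.Cells G E J LB.B2) (hc0 : K.c0 = LB.b0) (b : J → M) :
    ∃ u : SingSimplex E 2 → M, cochainCobdry u = 0 ∧
      (∀ (g : G) (s : SingSimplex E 2), u (LB.tr g s) = g • u s) ∧
      (∀ s : SingSimplex E 2, Set.range (LB.un s) ⊆ K.ctrᶜ → u s = 0) ∧
      (∀ (g : G) (j : J) (f : C(I × I, E)),
        (∀ (s : I × I) (x : LB.B2), (x : Fin 2 → ℝ) = ![2 * (s.1 : ℝ) - 1, 2 * (s.2 : ℝ) - 1] →
          f s = K.chart g j x) →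
        (∀ s : I × I, ¬ LB.inSq s → f s ∉ K.ctr) → LB.ar u f = g • b j) :=
  LB.exists_uB K hc0 Om.w2 Om.w2_cocycle (fun τ hτ => Om.w2_zero' _ (by
    have : Om.mp (LB.sx τ) = τ := Om.mp_mk τ
    rw [this]; exact hτ)) w2_lowB_upB b

section
variable {G E X : Type} [Group G] [TopologicalSpace E] [TopologicalSpace X] [MulAction G E]
  [ContinuousConstSMul G E] {q : E → X} (h : YC.GCov G q) (C : TwoCx X)

theorem cellCocycles (M : Type) [AddCommGroup M] [DistribMulAction G M] : CellCocycles h C M := by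
  intro b
  obtain ⟨u, h1, h2, h3, h4⟩ := exists_cocycle (YC.ycells h C) rfl b
  refine ⟨u, h1, h2, fun s hs => h3 s ?_, fun g j => ?_⟩
  · rintro _ ⟨x, rfl⟩
    exact YC.notMem_ctr_of_X1 h C (hs x)
  · refine h4 g j (YC.ftg h C g j) (fun s x hx => ?_) (fun s hs hc => ?_)
    · have hx0 : (x : Fin 2 → ℝ) 0 = 2 * (s.1 : ℝ) - 1 := by rw [hx]; rfl
      have hx1 : (x : Fin 2 → ℝ) 1 = 2 * (s.2 : ℝ) - 1 := by rw [hx]; rfl
      have h0 := (pi_norm_lt_iff one_pos).1 (mem_ball_zero_iff.1 x.2) 0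
      have h1' := (pi_norm_lt_iff one_pos).1 (mem_ball_zero_iff.1 x.2) 1
      rw [Real.norm_eq_abs, abs_lt, hx0] at h0
      rw [Real.norm_eq_abs, abs_lt, hx1] at h1'
      have hs : s ∈ Sint := by
        refine ⟨⟨?_, ?_⟩, ⟨?_, ?_⟩⟩
        · show (0 : ℝ) < s.1
          linarith
        · show (s.1 : ℝ) < 1
          linarith
        · show (0 : ℝ) < s.2
          linarith
        · show (s.2 : ℝ) < 1
          linarith
      rw [YC.ftg_eq_cb h C g j hs]
      show YC.cb h C g j (YC.sqB ⟨s, hs⟩) = YC.cb h C g j x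
      congr 1
      apply Subtype.ext
      rw [hx]
      rfl
    · have hm := (YC.ftg_mem_ctr_iff h C g j s).1 hc
      apply hs
      subst hm
      have h5 := YC.mid_mem
      exact ⟨h5.1.1, h5.1.2, h5.2.1, h5.2.2⟩

end

/-- **the Y side of S0388** -/
theorem ycore (K : Type) [Field K] : Fin.YCore K :=
  ycore_of (fun _ _ _ _ _ _ _ _ _ h C M _ _ => cellCocycles h C M)

end Crest.Agent.R251.YJ
end

-- ▼ part R251/Fin711d
section

/-!
R251 (helper711), block K3, fourth part: the `Y`-side plugged in; what is left is the sphere.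
-/

set_option autoImplicit false

open CategoryTheory
open Crest.GeometryTopology.DeckCochains

namespace Crest.Agent.R251.Fin

open Crest.Agent.R185.Att Crest.Agent.R251.Mod
open Crest.Agent.R251.Alg (GG gc gt mu mu_gc)

/-- S0388 from the sphere `f` and the two vanishing theorems -/
theorem statement_of_sphere (f : C(S 3, EE2))
    (hv : ∀ n : ℕ, 2 ≤ n → ∀ (M : Type) [AddCommGroup M] [DistribMulAction GG M], HV GG (EE3 f) M n)
    (hvμ : ∀ (ζ : ℂˣ) (hζ : ζ ^ 6 = 1), ζ ^ 3 ≠ 1 → ζ ^ 2 ≠ 1 → HV GG (EE3 f) (Tw (mu ζ hζ)) 1) :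
    Statement :=
  statement_of f hv hvμ (Crest.Agent.R251.YJ.ycore ℂ)

end Crest.Agent.R251.Fin
end

-- ▼ part R251/Coh539B
section

/-!
# R251 (S0388) (helper539): K2, part 1: Lemma Z

`lemmaZ`: for 2-cells (`m = 2`), an equivariant 2-cocycle of `GAtt G φ` which vanishes on the simplices
of `UU φ` and has zero holonomy on the cells is an equivariant coboundary.
-/

set_option autoImplicit false
set_option linter.unusedSectionVars false

open CategoryTheory Simplicial Opposite Set Metric Topology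
open scoped unitInterval
open Crest.GeometryTopology.DeckCochains
open Crest.Agent.R251.Pr Crest.Agent.R251.Orb
open Crest.Agent.R251.Mod (crI)
open Crest.Agent.R185.Base (cr)

namespace Crest.Agent.R251.Coh

noncomputable section

/-! ### loops -/

section loops

variable {F : Type} [TopologicalSpace F] {M : Type*} [AddCommGroup M]

/-- a point as a singular simplex -/
def ptx (x : F) : SingSimplex F 0 := Pr.sx (ContinuousMap.const _ x)


theorem face_ps_zero (γ : C(I, F)) : simplexFace 0 (PC.ps γ) = ptx (γ 1) := by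
  unfold PC.ps
  rw [PC.face_lin]
  unfold PC.lin ptx
  congr 1
  ext x
  have : (![(0 : I), 1] ∘ Fin.succAbove (0 : Fin 2)) = fun _ => 1 := by
    funext i; rw [Subsingleton.elim i 0]; rfl
  show γ (PC.aff (![(0 : I), 1] ∘ Fin.succAbove (0 : Fin 2)) x) = γ 1
  rw [this, PC.aff_const]

theorem face_ps_one (γ : C(I, F)) : simplexFace 1 (PC.ps γ) = ptx (γ 0) := by
  unfold PC.ps
  rw [PC.face_lin]
  unfold PC.lin ptx
  congr 1
  ext x
  have : (![(0 : I), 1] ∘ Fin.succAbove (1 : Fin 2)) = fun _ => 0 := by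
    funext i; rw [Subsingleton.elim i 0]; rfl
  show γ (PC.aff (![(0 : I), 1] ∘ Fin.succAbove (1 : Fin 2)) x) = γ 0
  rw [this, PC.aff_const]

/-- coboundary of a 0-cochain on a path -/
theorem cobdry0_ps (θ : SingSimplex F 0 → M) (γ : C(I, F)) :
    cochainCobdry θ (PC.ps γ) = θ (ptx (γ 1)) - θ (ptx (γ 0)) := by
  rw [cobdry_apply, Fin.sum_univ_two, face_ps_zero, face_ps_one]
  simp [sub_eq_add_neg]

/-- closed 1-cochains vanish on loops when `H^1 = 0` -/
theorem loop_eq_zero (hF : Van0 F M 0) {κ : SingSimplex F 1 → M} (hκ : cochainCobdry κ = 0)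
    (γ : C(I, F)) (h : γ 0 = γ 1) : κ (PC.ps γ) = 0 := by
  obtain ⟨θ, rfl⟩ := hF κ hκ
  rw [cobdry0_ps, h, sub_self]

/-- two 1-cochains with the same coboundary agree on the loops of a contractible space -/
theorem loop_eq [ContractibleSpace F] {κ κ' : SingSimplex F 1 → M}
    (h : cochainCobdry κ = cochainCobdry κ') (γ : C(I, F)) (hγ : γ 0 = γ 1) :
    κ (PC.ps γ) = κ' (PC.ps γ) := by
  have h1 := loop_eq_zero (van0_contractible (F := F) (M := M) 0) (κ := κ - κ')
    (by rw [Pr.cobdry_sub, h, sub_self]) γ hγ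
  exact sub_eq_zero.1 h1

end loops

/-- plain exactness on the circle -/
def CE (M : Type*) [AddCommGroup M] : Prop :=
  ∀ κ : SingSimplex (Crest.Agent.R185.Att.S 2) 1 → M, cochainCobdry κ = 0 → κ (PC.ps crI) = 0 →
    ∃ θ : SingSimplex (Crest.Agent.R185.Att.S 2) 0 → M, cochainCobdry θ = κ

section att

open Crest.Agent.R185.Att Crest.Agent.R251.DR

/-- radial square between the circle of radius `3/4` and the circle of radius `1` in `D 2` -/
def radSq : C(I × I, D 2) where
  toFun p := ⟨(3 / 4 + (p.1 : ℝ) / 4) • (cr p.2 : Fin 2 → ℝ), by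
    have h0 : (0 : ℝ) ≤ p.1 := p.1.2.1
    have h1 : (p.1 : ℝ) ≤ 1 := p.1.2.2
    rw [mem_closedBall_zero_iff, norm_smul, (cr p.2).norm_eq, mul_one,
      Real.norm_of_nonneg (by linarith)]
    linarith⟩
  continuous_toFun := by
    refine Continuous.subtype_mk ?_ _
    have h1 : Continuous fun p : I × I => (cr p.2 : Fin 2 → ℝ) :=
      continuous_subtype_val.comp (crI.continuous.comp continuous_snd)
    exact (by fun_prop : Continuous fun p : I × I => (3 / 4 + (p.1 : ℝ) / 4)).smul h1

theorem radSq_coe (p : I × I) : ((radSq p : D 2) : Fin 2 → ℝ) =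
    (3 / 4 + (p.1 : ℝ) / 4) • (cr p.2 : Fin 2 → ℝ) := rfl

theorem half_lt_radSq (p : I × I) : 1 / 2 < ‖((radSq p : D 2) : Fin 2 → ℝ)‖ := by
  have h0 : (0 : ℝ) ≤ p.1 := p.1.2.1
  rw [radSq_coe, norm_smul, (cr p.2).norm_eq, mul_one, Real.norm_of_nonneg (by linarith)]
  linarith

/-- the circle of radius `3/4` in the open ball -/
def c34 : C(I, B 2) := (⟨Subtype.val, continuous_subtype_val⟩ : C(Col 2, B 2)).comp
  ((colS 2).comp crI)

variable {G : Type} [Group G] {Z : Type} [TopologicalSpace Z] [MulAction G Z]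
  [ContinuousConstSMul G Z] {C : Type} {φ : C → C(S 2, Z)}
  {M : Type} [AddCommGroup M] [DistribMulAction G M]

theorem crI_zero_one : crI 0 = crI 1 :=
  (Crest.Agent.R185.Base.cpath.source.trans Crest.Agent.R185.Base.cpath.target.symm)


/-- **Lemma Z** -/
theorem lemmaZ (hCE : CE M) {ω : SingSimplex (GAtt G φ) 2 → M} (hω : EqC G ω)
    (hc : cochainCobdry ω = 0) (h0 : ∀ s, SIn (UU φ) s → ω s = 0)
    (hol : ∀ c, ∃ β : SingSimplex (D 2) 1 → M,
      cochainCobdry β = pull (⟨chr φ 1 c, continuous_chr 1 c⟩ : C(D 2, GAtt G φ)) ω ∧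
        β (PC.ps ((sd 2).comp crI)) = 0) :
    ∃ ψ : SingSimplex (GAtt G φ) 1 → M, EqC G ψ ∧ cochainCobdry ψ = ω := by
  obtain ⟨bV, hbV, h2⟩ := hvi_VV (G := G) (φ := φ) (M := M) 1 ω hω (fun s _ => congrFun hc s)
  obtain ⟨η, hη, h3⟩ := exists_eta_UV (G := G) (φ := φ) (κ := 0 - bV) (EqC.zero.sub hbV)
    (fun s hs => by
      rw [Pr.cobdry_sub, Pi.sub_apply, Pr.cobdry_zero, h2 s fun t => (hs t).2,
        h0 s fun t => (hs t).1]
      simp)
    (fun c => by
      refine hCE _ ?_ ?_
      · rw [cobdry_pull]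
        funext s
        have hs : SIn (UV G φ) (Pr.push ((incl (UV G φ)).comp
            (((orbUV G φ).inc 1 c).comp (colS 2))) s) := fun t => by
          rw [us_push]
          exact (((orbUV G φ).inc 1 c) (colS 2 (us s t))).2
        show cochainCobdry (0 - bV) _ = 0
        rw [Pr.cobdry_sub, Pi.sub_apply, Pr.cobdry_zero, h2 _ fun t => (hs t).2,
          h0 _ fun t => (hs t).1]
        simp
      · obtain ⟨β, hβ, hβ0⟩ := hol c
        -- the open ball
        let k : C(B 2, GAtt G φ) :=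
          (⟨chr φ 1 c, continuous_chr 1 c⟩ : C(D 2, GAtt G φ)).comp (bd 2)
        have e1 : cochainCobdry (pull k bV) = cochainCobdry (pull (bd 2) β) := by
          rw [cobdry_pull, cobdry_pull, hβ, pull_pull]
          funext s
          refine h2 _ fun t => ?_
          rw [us_push]
          show chr φ 1 c (bd 2 (us s t)) ∈ VV φ
          rw [chr_bd]
          exact inB_mem_VV _ _ _
        have e2 := loop_eq e1 c34 (by
          show _ = (((colS 2) (crI 1) : Col 2) : B 2)
          rw [← crI_zero_one]; rfl)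
        -- the collar of the closed ball
        have hcl : PC.ClosedOn β {x | 1 / 2 < ‖((x : D 2) : Fin 2 → ℝ)‖} := by
          intro τ hτ
          rw [hβ]
          refine h0 _ fun t => ?_
          rw [us_push]
          show chr φ 1 c _ ∈ UU φ
          rw [chr_mem_UU, us_sx]
          exact hτ t
        have e3 := hcl.square radSq half_lt_radSq
        have e4 : PC.horz radSq 1 = PC.horz radSq 0 := by
          ext1 s
          apply Subtype.ext
          show (3 / 4 + (s : ℝ) / 4) • (crI 1 : Fin 2 → ℝ) = (3 / 4 + (s : ℝ) / 4) • (crI 0 : Fin 2 → ℝ)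
          rw [crI_zero_one]
        have e5 : PC.vert radSq 1 = (sd 2).comp crI := by
          ext1 t
          apply Subtype.ext
          show (3 / 4 + ((1 : I) : ℝ) / 4) • (cr t : Fin 2 → ℝ) = (cr t : Fin 2 → ℝ)
          have : (3 / 4 + ((1 : I) : ℝ) / 4) = 1 := by
            show (3 / 4 + (1 : ℝ) / 4) = 1
            norm_num
          rw [this, one_smul]
        have e6 : PC.vert radSq 0 = (bd 2).comp c34 := by
          ext1 t
          apply Subtype.ext
          show (3 / 4 + ((0 : I) : ℝ) / 4) • (cr t : Fin 2 → ℝ) = (3 / 4 : ℝ) • (cr t : Fin 2 → ℝ)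
          have : (3 / 4 + ((0 : I) : ℝ) / 4) = (3 / 4 : ℝ) := by
            show (3 / 4 + (0 : ℝ) / 4) = (3 / 4 : ℝ)
            norm_num
          rw [this]
        rw [e4, e5, e6, hβ0, zero_add] at e3
        have e7 : β (PC.ps ((bd 2).comp c34)) = 0 := by
          have := congrArg (fun z => z - β (PC.ps (PC.horz radSq 0))) e3
          simpa using this
        have e8 : bV (PC.ps (k.comp c34)) = 0 := by
          have h := e2
          rw [pull_apply, pull_apply, PC.push_ps, PC.push_ps, e7] at h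
          exact h
        have e9 : ((incl (UV G φ)).comp (((orbUV G φ).inc 1 c).comp (colS 2))).comp crI =
            k.comp c34 := by
          ext1 t
          exact (chr_bd (φ := φ) 1 c _).symm
        rw [pull_apply, PC.push_ps, e9, Pi.sub_apply, Pi.zero_apply, e8, sub_zero])
  obtain ⟨ψ, h4, h5, -⟩ := glueP isOpen_UU isOpen_VV UU_union_VV invUU invVV hω hc 0 bV
    EqC.zero hbV η hη (fun s hs => by rw [Pr.cobdry_zero, h0 s hs]; rfl) h2
    (fun s hU hV => (h3 s (hU.inter hV)).symm)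
  exact ⟨ψ, h4, h5⟩

end att

end

end Crest.Agent.R251.Coh
end

-- ▼ part R251/Kr337a
section

/-!
# Row 251: equivariant 1-cocycles on the Cayley graph: values on edge paths

`der gen D0 l` is the value at the word `l` of the derivation with values `D0` on the generators.
-/

set_option autoImplicit false

open Set Metric Topology
open scoped unitInterval
open Crest.GeometryTopology.DeckCochains
open Crest.Agent.R185.Att
open Crest.Agent.R251.Pr (Dl sx us EqC push act)
open Crest.Agent.R251.PC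
open Crest.Agent.R251.Mod

namespace Crest.Agent.R251.Kr

noncomputable section

variable {G : Type} [Group G] {ι : Type} (gen : ι → G) {M : Type} [AddCommGroup M]
  [DistribMulAction G M]

/-- the value at a word of the derivation with values `D0` on the generators -/
def der (D0 : ι → M) : List (ι × Bool) → M
  | [] => 0
  | (i, true) :: l => D0 i + gen i • der D0 l
  | (i, false) :: l => - ((gen i)⁻¹ • D0 i) + (gen i)⁻¹ • der D0 l

@[simp] theorem der_nil (D0 : ι → M) : der gen D0 [] = 0 := rfl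
@[simp] theorem der_true (D0 : ι → M) (i : ι) (l : List (ι × Bool)) :
    der gen D0 ((i, true) :: l) = D0 i + gen i • der gen D0 l := rfl
@[simp] theorem der_false (D0 : ι → M) (i : ι) (l : List (ι × Bool)) :
    der gen D0 ((i, false) :: l) = - ((gen i)⁻¹ • D0 i) + (gen i)⁻¹ • der gen D0 l := rfl



theorem smul_edge (g h : G) (i : ι) :
    smulC g (edge gen h i : C(I, Z2 gen)) = (edge gen (g * h) i : C(I, Z2 gen)) := by
  ext t
  exact smul_chr g h i (d1 t)

/-- values of an equivariant 1-cocycle on the edge paths -/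
theorem value_wpath {β : SingSimplex (Z2 gen) 1 → M} (hβ : cochainCobdry β = 0) (hE : EqC G β)
    {D0 : ι → M} (hD : ∀ i, β (ps (edge gen 1 i : C(I, Z2 gen))) = D0 i) :
    ∀ (l : List (ι × Bool)) (g : G), β (ps (wpath gen g l : C(I, Z2 gen))) = g • der gen D0 l := by
  have hc : ClosedOn β univ := closedOn_univ hβ
  have hedge : ∀ (g : G) (i : ι), β (ps (edge gen g i : C(I, Z2 gen))) = g • D0 i := by
    intro g i
    rw [← hD i, ← hE g]
    have := smul_edge gen g 1 i
    rw [mul_one] at this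
    rw [← this]
    rfl
  intro l
  induction l with
  | nil =>
    intro g
    rw [der_nil, smul_zero]
    exact hc.const (mem_univ (v gen g))
  | cons x l ih =>
    intro g
    obtain ⟨i, b⟩ := x
    cases b
    · let p : Path (v gen g) (v gen (g * (gen i)⁻¹)) :=
        (edge gen (g * (gen i)⁻¹) i).symm.cast (by rw [inv_mul_cancel_right]) rfl
      let q := wpath gen (g * (gen i)⁻¹) l
      have e : (wpath gen g ((i, false) :: l) : C(I, Z2 gen)) = (p.trans q : C(I, Z2 gen)) := rfl
      have e2 : (p : C(I, Z2 gen)) = ((edge gen (g * (gen i)⁻¹) i).symm : C(I, Z2 gen)) := rfl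
      rw [e, hc.trans p q (fun _ => mem_univ _) (fun _ => mem_univ _), e2,
        hc.symm (edge gen (g * (gen i)⁻¹) i) (fun _ => mem_univ _), hedge, ih, der_false, smul_add,
        smul_neg, mul_smul, mul_smul]
    · let q := wpath gen (g * gen i) l
      have e : (wpath gen g ((i, true) :: l) : C(I, Z2 gen)) =
        ((edge gen g i).trans q : C(I, Z2 gen)) := rfl
      rw [e, hc.trans (edge gen g i) q (fun _ => mem_univ _) (fun _ => mem_univ _), hedge, ih,
        der_true, smul_add, mul_smul]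

/-- values on the closed edge loops -/
theorem value_wloop {β : SingSimplex (Z2 gen) 1 → M} (hβ : cochainCobdry β = 0) (hE : EqC G β)
    {D0 : ι → M} (hD : ∀ i, β (ps (edge gen 1 i : C(I, Z2 gen))) = D0 i)
    (l : List (ι × Bool)) (h : val gen l = 1) :
    β (ps (wloop gen l h : C(I, Z2 gen))) = der gen D0 l := by
  have := value_wpath gen hβ hE hD l 1
  rw [one_smul] at this
  exact this

end

end Crest.Agent.R251.Kr
end

-- ▼ part R251/Kr337b
section

/-!
# Row 251: equivariant 1-cocycles on the Cayley graph with prescribed values on the edges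
-/

set_option autoImplicit false

open Set Metric Topology
open scoped unitInterval
open Crest.GeometryTopology.DeckCochains
open Crest.Agent.R185.Att
open Crest.Agent.R251.Pr (Dl EqC push act)
open Crest.Agent.R251.PC
open Crest.Agent.R251.Mod

namespace Crest.Agent.R251.Kr

noncomputable section

/-! ### small vanishing in 972's form -/

theorem smallVanish_of {G E M : Type} [Group G] [TopologicalSpace E] [MulAction G E]
    [ContinuousConstSMul G E] [AddCommGroup M] [DistribMulAction G M] (n : ℕ) (U : Set (Set E))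
    (hU : ∀ V ∈ U, IsOpen V) (hc : ⋃₀ U = univ) : LB.SmallVanish G E M n U := by
  intro φ hφ heq h0
  obtain ⟨ψ, h1, -, h3, h4⟩ := Sm.small_vanish U hU
    (fun x => by have : x ∈ ⋃₀ U := hc ▸ mem_univ x
                 exact this) φ hφ h0
  refine ⟨ψ, h1, fun g s => ?_, h3⟩
  exact h4 ((Homeomorph.smul g : E ≃ₜ E) : C(E, E)) (DistribSMul.toAddMonoidHom M g)
    (fun s => heq g s) s

/-! ### the cocycle of the model cell `B 1` -/

/-- the step function -/
def th (x : B 1) : ℤ := if 0 ≤ (x : Fin 1 → ℝ) 0 then 1 else 0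

/-- its 0-cochain -/
def wz : SingSimplex (B 1) 0 → ℤ := fun s => th (LB.un s (stdSimplex.vertex 0))

/-- the coboundary -/
def w1 : SingSimplex (B 1) 1 → ℤ := cochainCobdry wz

theorem w1_cobdry : cochainCobdry w1 = 0 := LB.cobdry_cobdry _

theorem face_vertex {n : ℕ} (i : Fin (n + 2)) (j : Fin (n + 1)) :
    LB.face i (stdSimplex.vertex j : LB.Dn n) = stdSimplex.vertex (i.succAbove j) :=
  stdSimplex.map_vertex _ _

theorem w1_sx (τ : C(LB.Dn 1, B 1)) :
    w1 (LB.sx τ) = th (τ (stdSimplex.vertex 1)) - th (τ (stdSimplex.vertex 0)) := by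
  have h : w1 (LB.sx τ) = ∑ i : Fin 2, ((-1 : ℤ) ^ (i : ℕ)) • wz (LB.sx (τ.comp (LB.face i))) := rfl
  rw [h, Fin.sum_univ_two]
  have h0 : wz (LB.sx (τ.comp (LB.face 0))) = th (τ (stdSimplex.vertex 1)) := by
    rw [wz, LB.un_sx, ContinuousMap.comp_apply, face_vertex]; rfl
  have h1 : wz (LB.sx (τ.comp (LB.face 1))) = th (τ (stdSimplex.vertex 0)) := by
    rw [wz, LB.un_sx, ContinuousMap.comp_apply, face_vertex]; rfl
  rw [h0, h1]
  simp [sub_eq_add_neg]

theorem w1_miss {c0 : B 1} (hc0 : (c0 : Fin 1 → ℝ) = 0) (τ : C(LB.Dn 1, B 1))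
    (h : c0 ∉ range τ) : w1 (LB.sx τ) = 0 := by
  have hne : ∀ s, (τ s : Fin 1 → ℝ) 0 ≠ 0 := by
    intro s hs
    apply h
    refine ⟨s, Subtype.ext ?_⟩
    rw [hc0]
    funext i
    rw [Subsingleton.elim i 0, hs]; rfl
  have hcont : Continuous fun s => (τ s : Fin 1 → ℝ) 0 :=
    (continuous_apply 0).comp (continuous_subtype_val.comp τ.continuous)
  have hpre : IsPreconnected (range fun s : LB.Dn 1 => (τ s : Fin 1 → ℝ) 0) := by
    haveI : PreconnectedSpace (LB.Dn 1) :=
      isPreconnected_iff_preconnectedSpace.1 (convex_stdSimplex ℝ (Fin 2)).isPreconnected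
    exact isPreconnected_range hcont
  have key : ∀ s t : LB.Dn 1, 0 ≤ (τ s : Fin 1 → ℝ) 0 → 0 ≤ (τ t : Fin 1 → ℝ) 0 := by
    intro s t hs
    by_contra ht
    have h2 := hpre.ordConnected.out (mem_range_self t) (mem_range_self s)
    obtain ⟨r, hr⟩ := h2 ⟨(not_le.1 ht).le, hs⟩
    exact hne r hr
  rw [w1_sx]
  have : th (τ (stdSimplex.vertex 1)) = th (τ (stdSimplex.vertex 0)) := by
    unfold th
    by_cases h0 : 0 ≤ (τ (stdSimplex.vertex 0) : Fin 1 → ℝ) 0
    · rw [if_pos h0, if_pos (key _ _ h0)]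
    · rw [if_neg h0, if_neg (fun h1 => h0 (key _ _ h1))]
  rw [this, sub_self]

/-! ### the value on the edge -/

variable {G : Type} [Group G] {ι : Type} (gen : ι → G) {M : Type} [AddCommGroup M]
  [DistribMulAction G M]

theorem chr_eq_inB {m : ℕ} {C : Type} {Z : Type} [TopologicalSpace Z] [MulAction G Z]
    {φ : C → C(S m, Z)} {g g' : G} {i i' : C} {x : D m} {y : B m}
    (h : chr φ g i x = inB φ g' i' y) : g = g' ∧ i = i' ∧ (x : Fin m → ℝ) = y := by
  induction x using D.cases' with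
  | hB x =>
    rw [chr_bd, inB_inj] at h
    obtain ⟨rfl, rfl, rfl⟩ := h
    exact ⟨rfl, rfl, rfl⟩
  | hS x =>
    rw [chr_sd] at h
    exact absurd h inZ_ne_inB

/-- `1/3`, `2/3` -/
def p1 : I := ⟨1 / 3, by norm_num, by norm_num⟩
def p2 : I := ⟨2 / 3, by norm_num, by norm_num⟩

/-- the middle segment -/
def sgm : C(LB.Dn 1, B 1) := ⟨fun s => ⟨fun _ => 2 * ((aff ![p1, p2] s : I) : ℝ) - 1, by
  rw [mem_ball_zero_iff, pi_norm_const, Real.norm_eq_abs, abs_lt, affI_apply, Fin.sum_univ_two]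
  have h : s 0 + s 1 = 1 := by
    have := s.2.2
    rwa [Fin.sum_univ_two] at this
  have h0 := s.2.1 0
  have h1 := s.2.1 1
  have e0 : ((![p1, p2] 0 : I) : ℝ) = 1 / 3 := rfl
  have e1 : ((![p1, p2] 1 : I) : ℝ) = 2 / 3 := rfl
  have h0' : 0 ≤ s 0 := h0
  have h1' : 0 ≤ s 1 := h1
  rw [e0, e1]
  constructor <;> nlinarith⟩, by
  refine Continuous.subtype_mk (continuous_pi fun _ => ?_) _
  exact (continuous_const.mul (continuous_subtype_val.comp (aff ![p1, p2]).continuous)).sub
    continuous_const⟩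

theorem w1_sgm : w1 (LB.sx sgm) = 1 := by
  rw [w1_sx]
  have h1 : th (sgm (stdSimplex.vertex 1)) = 1 := by
    unfold th
    rw [if_pos]
    show 0 ≤ 2 * ((aff ![p1, p2] (stdSimplex.vertex 1) : I) : ℝ) - 1
    rw [aff_vertex]
    show (0 : ℝ) ≤ 2 * (2 / 3) - 1
    norm_num
  have h0 : th (sgm (stdSimplex.vertex 0)) = 0 := by
    unfold th
    rw [if_neg]
    show ¬ 0 ≤ 2 * ((aff ![p1, p2] (stdSimplex.vertex 0) : I) : ℝ) - 1
    rw [aff_vertex]
    show ¬ (0 : ℝ) ≤ 2 * (1 / 3) - 1
    norm_num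
  rw [h1, h0]; norm_num

theorem edge_value (K : LB.Cells G (Z2 gen) ι (B 1)) (hK : ∀ g j x, K.chart g j x = inB (φ1 gen) g j x)
    (hc0 : (K.c0 : Fin 1 → ℝ) = 0) {β : SingSimplex (Z2 gen) 1 → M} {D0 : ι → M}
    (hβ : cochainCobdry β = 0) (h0 : ∀ s, range (LB.un s) ⊆ K.ctrᶜ → β s = 0)
    (h1 : ∀ (g : G) (j : ι) (τ : C(LB.Dn 1, B 1)),
      β (LB.sx ((K.chart g j).comp τ)) = w1 (LB.sx τ) • (g • D0 j)) (g : G) (i : ι) :
    β (ps (edge gen g i : C(I, Z2 gen))) = g • D0 i := by
  have hc : ClosedOn β univ := closedOn_univ hβ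
  let f : C(I, Z2 gen) := (edge gen g i : C(I, Z2 gen))
  have hf : ∀ t : I, f t = chr (φ1 gen) g i (d1 t) := fun t => rfl
  have e1 : β (ps f) = β (lin f ![(0 : I), p1]) + (β (lin f ![p1, p2]) + β (lin f ![p2, 1])) := by
    have h2 := hc.tri' (Z := I) f (fun _ => mem_univ _) 0 p1 1
    have h3 := hc.tri' (Z := I) f (fun _ => mem_univ _) p1 p2 1
    rw [h3] at h2
    exact h2
  have hz : ∀ a b : I, (∀ s : Dl 1, ((aff ![a, b] s : I) : ℝ) ≠ 1 / 2) → β (lin f ![a, b]) = 0 := by
    intro a b hab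
    apply h0
    rintro _ ⟨s, rfl⟩ hs
    obtain ⟨g', j', h⟩ := hs
    have h2 : chr (φ1 gen) g i (d1 (aff ![a, b] s)) = inB (φ1 gen) g' j' K.c0 := by
      rw [← hK]
      exact h
    obtain ⟨-, -, h3⟩ := chr_eq_inB h2
    rw [hc0] at h3
    have h4 := congrFun h3 0
    simp only [d1, Pi.zero_apply] at h4
    exact hab s (by linarith)
  have ha : β (lin f ![(0 : I), p1]) = 0 := by
    apply hz
    intro s
    rw [affI_apply, Fin.sum_univ_two]
    have h : s 0 + s 1 = 1 := by
      have := s.2.2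
      rwa [Fin.sum_univ_two] at this
    have h0' : 0 ≤ s 0 := s.2.1 0
    have h1' : 0 ≤ s 1 := s.2.1 1
    have e0 : ((![(0 : I), p1] 0 : I) : ℝ) = 0 := rfl
    have e1 : ((![(0 : I), p1] 1 : I) : ℝ) = 1 / 3 := rfl
    rw [e0, e1]
    intro hh
    nlinarith
  have hb : β (lin f ![p2, (1 : I)]) = 0 := by
    apply hz
    intro s
    rw [affI_apply, Fin.sum_univ_two]
    have h : s 0 + s 1 = 1 := by
      have := s.2.2
      rwa [Fin.sum_univ_two] at this
    have h0' : 0 ≤ s 0 := s.2.1 0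
    have h1' : 0 ≤ s 1 := s.2.1 1
    have e0 : ((![p2, (1 : I)] 0 : I) : ℝ) = 2 / 3 := rfl
    have e1 : ((![p2, (1 : I)] 1 : I) : ℝ) = 1 := rfl
    rw [e0, e1]
    intro hh
    nlinarith
  have hm : β (lin f ![p1, p2]) = g • D0 i := by
    have e : lin f ![p1, p2] = LB.sx ((K.chart g i).comp sgm) := by
      show LB.sx (f.comp (aff ![p1, p2])) = LB.sx ((K.chart g i).comp sgm)
      congr 1
      ext s
      rw [ContinuousMap.comp_apply, ContinuousMap.comp_apply, hK, hf, ← chr_bd]
      rfl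
    rw [e, h1, w1_sgm, one_smul]
  show β (ps f) = _
  rw [e1, ha, hb, hm, zero_add, add_zero]

/-- **KR1**, from an instance of `Cells` for the Cayley graph -/
theorem kr1_of (K : LB.Cells G (Z2 gen) ι (B 1)) (hK : ∀ g j x, K.chart g j x = inB (φ1 gen) g j x)
    (hc0 : (K.c0 : Fin 1 → ℝ) = 0) (D0 : ι → M) :
    ∃ β : SingSimplex (Z2 gen) 1 → M, cochainCobdry β = 0 ∧ EqC G β ∧
      (∀ (g : G) (l : List (ι × Bool)),
        β (ps (wpath gen g l : C(I, Z2 gen))) = g • der gen D0 l) ∧
      (∀ (l : List (ι × Bool)) (h : val gen l = 1),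
        β (ps (wloop gen l h : C(I, Z2 gen))) = der gen D0 l) := by
  obtain ⟨β, h1, h2, h3, h4⟩ := LB.lemmaB K w1 D0
    (smallVanish_of 1 K.cov K.cov_open K.cov_univ) w1_cobdry (fun τ h => w1_miss hc0 τ h)
  have hE : EqC G β := fun g s => h2 g s
  have hD : ∀ i, β (ps (edge gen 1 i : C(I, Z2 gen))) = D0 i := by
    intro i
    rw [edge_value gen K hK hc0 h1 h3 h4, one_smul]
  exact ⟨β, h1, hE, fun g l => value_wpath gen h1 hE hD l g, fun l h => value_wloop gen h1 hE hD l h⟩

end

end Crest.Agent.R251.Kr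
end

-- ▼ part R251/KD10
section

/-!
# Row 251: the link between the derivations of `Alg449` and the recursion on words of `Kr337a`
-/

set_option autoImplicit false
set_option linter.unusedSectionVars false

open Crest.Agent.R251.Alg (FF fc ft wr wU rels GG gc gt mu muF exists_deriv_wr)
open Crest.Agent.R251.Mod (gn wdd mk_wdd RR)
open Crest.Agent.R251.Fin (Tw)

namespace Crest.Agent.R251.KD10

variable {K : Type} [Field K]

section gen
variable {ι G : Type} [Group G] {gen : ι → G} {μ : G →* Kˣ}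


/-- a function on words with the recursion of the Fox derivative is the derivation -/
theorem rec_eq {D : FreeGroup ι → K}
    (hD : ∀ a b, D (a * b) = D a + (μ (FreeGroup.lift gen a) : K) * D b)
    {δ : List (ι × Bool) → Tw μ} (h0 : δ [] = 0)
    (ht : ∀ i l, δ ((i, true) :: l) = (show Tw μ from D (FreeGroup.of i)) + gen i • δ l)
    (hf : ∀ i l, δ ((i, false) :: l) =
      -((gen i)⁻¹ • (show Tw μ from D (FreeGroup.of i))) + (gen i)⁻¹ • δ l)
    (l : List (ι × Bool)) : δ l = (show Tw μ from D (FreeGroup.mk l)) := by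
  have h1 : D 1 = 0 := by
    have := hD 1 1
    simpa using this
  induction l with
  | nil =>
    rw [h0]
    exact h1.symm
  | cons p l ih =>
    obtain ⟨i, b⟩ := p
    cases b with
    | true =>
      rw [ht, ih]
      have e : FreeGroup.mk ((i, true) :: l) = FreeGroup.of i * FreeGroup.mk l := by
        rw [FreeGroup.of, FreeGroup.mul_mk]; rfl
      rw [e, hD, FreeGroup.lift_apply_of]
      rfl
    | false =>
      rw [hf, ih]
      have e : FreeGroup.mk ((i, false) :: l) = (FreeGroup.of i)⁻¹ * FreeGroup.mk l := by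
        rw [FreeGroup.of, FreeGroup.inv_mk, FreeGroup.mul_mk]; rfl
      have h2 : D (FreeGroup.of i)⁻¹ = -(((μ (gen i))⁻¹ : Kˣ) : K) * D (FreeGroup.of i) := by
        have h3 := hD (FreeGroup.of i)⁻¹ (FreeGroup.of i)
        rw [inv_mul_cancel, h1, map_inv, FreeGroup.lift_apply_of, map_inv] at h3
        linear_combination -h3
      rw [e, hD, map_inv, FreeGroup.lift_apply_of, h2]
      change -((((μ ((gen i)⁻¹)) : Kˣ) : K) * D (FreeGroup.of i)) +
        (((μ ((gen i)⁻¹)) : Kˣ) : K) * D (FreeGroup.mk l) = _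
      rw [map_inv]
      change _ = -(((μ (gen i))⁻¹ : Kˣ) : K) * D (FreeGroup.of i) +
        (((μ (gen i))⁻¹ : Kˣ) : K) * D (FreeGroup.mk l)
      ring

end gen

/-- **the hypothesis of KR5** for `M = Tw μ`: there are edge values `D0` such that the Fox
derivative of the relator `r` is `b` (and that of `U` is `0`) -/
theorem exists_D0 (ζ : Kˣ) (hζ : ζ ^ 6 = 1) (h3 : ζ ^ 3 ≠ 1) (h2 : ζ ^ 2 ≠ 1)
    (b : Tw (mu ζ hζ)) :
    ∃ D0 : Fin 2 → Tw (mu ζ hζ), ∀ δ : List (Fin 2 × Bool) → Tw (mu ζ hζ), δ [] = 0 →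
      (∀ i l, δ ((i, true) :: l) = D0 i + gn i • δ l) →
      (∀ i l, δ ((i, false) :: l) = -((gn i)⁻¹ • D0 i) + (gn i)⁻¹ • δ l) →
      δ (wdd 0) = b ∧ δ (wdd 1) = 0 := by
  obtain ⟨D, hD, hU, hr⟩ := exists_deriv_wr ζ hζ h3 h2 (show K from b)
  have hD' : ∀ a b, D (a * b) = D a + ((mu ζ hζ) (FreeGroup.lift gn a) : K) * D b := by
    intro a b
    rw [hD, Mod.lift_gn]
    rfl
  refine ⟨fun i => (show Tw (mu ζ hζ) from D (FreeGroup.of i)), fun δ h0 ht hf => ?_⟩
  have key := rec_eq (gen := gn) (μ := mu ζ hζ) hD' h0 ht hf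
  constructor
  · rw [key, mk_wdd]
    exact hr
  · rw [key, mk_wdd]
    exact hU

end Crest.Agent.R251.KD10
end

-- ▼ part R251/L3_416
section

/-!
# R251: (L3) restriction to the old space is injective on cohomology below the cell dimension

* `sv : Coh.SV` : 82's small simplices theorem in 539's form.
* `exists_bU` : a cocycle of `GAtt G φ` whose restriction to `Z` is an equivariant coboundary is one on `UU`.
* `exists_cobdry_of_restrict` (L3).
-/

set_option autoImplicit false
set_option linter.unusedSectionVars false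

open CategoryTheory Simplicial Opposite Set Metric Topology
open scoped unitInterval
open Crest.GeometryTopology.DeckCochains
open Crest.Agent.R251.Pr Crest.Agent.R251.Orb

namespace Crest.Agent.R251.L3

/-- 82's theorem in 539's form -/
theorem sv : Coh.SV := by
  intro E _ U V hU hV hUV M _ n φ hφ h0
  have hin : ∀ {k : ℕ} {A : Set E} (s : SingSimplex E k), Sm.InSet A s ↔ Coh.In A s := fun s => by
    unfold Sm.InSet Coh.In
    rw [range_subset_iff]
    exact Iff.rfl
  have hsm : ∀ {k : ℕ} (s : SingSimplex E k), Sm.IsSmall {U, V} s ↔ Coh.In U s ∨ Coh.In V s :=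
    fun s => by
      unfold Sm.IsSmall
      constructor
      · rintro ⟨W, hW, hs⟩
        rcases hW with rfl | hW
        · exact Or.inl ((hin s).1 hs)
        · rw [mem_singleton_iff] at hW; subst hW; exact Or.inr ((hin s).1 hs)
      · rintro (h | h)
        · exact ⟨U, by simp, (hin s).2 h⟩
        · exact ⟨V, by simp, (hin s).2 h⟩
  obtain ⟨ψ, h1, -, h3, h4⟩ := Sm.small_vanish {U, V}
    (by rintro W (rfl | hW)
        · exact hU
        · rw [mem_singleton_iff] at hW; subst hW; exact hV)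
    (fun x => by
      have hx : x ∈ U ∪ V := hUV ▸ mem_univ x
      rcases hx with hx | hx
      · exact ⟨U, by simp, hx⟩
      · exact ⟨V, by simp, hx⟩) φ hφ (fun s hs => h0 s ((hsm s).1 hs))
  refine ⟨ψ, h1, fun s hs => h3 s ((hsm s).2 hs), fun g a _ _ hg s => ?_⟩
  exact h4 (g : C(E, E)) a (fun s => hg s) s

section att

open Crest.Agent.R185.Att Crest.Agent.R251.DR

variable {G : Type} [Group G] {Z : Type} [TopologicalSpace Z] [MulAction G Z]
  [ContinuousConstSMul G Z] {m : ℕ} {C : Type} {φ : C → C(S m, Z)}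
  {M : Type} [AddCommGroup M] [DistribMulAction G M] {n : ℕ}

variable (G φ) in
/-- the inclusion of the old space -/
def inZc : C(Z, GAtt G φ) := ⟨fun z => inZ φ z, continuous_inZ⟩

theorem exists_bU {ω : SingSimplex (GAtt G φ) (n + 1) → M} (hω : EqC G ω)
    (hc : cochainCobdry ω = 0) {ψ : SingSimplex Z n → M} (hψ : EqC G ψ)
    (h : cochainCobdry ψ = pull (inZc G φ) ω) :
    ∃ b : SingSimplex (GAtt G φ) n → M, EqC G b ∧
      ∀ s, SIn (UU φ) s → cochainCobdry b s = ω s := by
  have hi : EqM G (incl (UU φ : Set (GAtt G φ))) := fun _ _ => rfl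
  have hωU : EqC G (pull (incl (UU φ : Set (GAtt G φ))) ω) := hω.pull hi
  have hcU : cochainCobdry (pull (incl (UU φ : Set (GAtt G φ))) ω) = 0 := by
    rw [cobdry_pull, hc]; rfl
  obtain ⟨χ, hχ, hχ2⟩ := exists_cobdry_of_homotopy (H := hU G φ) hωU hcU eqH_hU
  rw [end0_hU, end1_hU, pull_id] at hχ2
  have e1 : pull (inU.comp (rU G φ)) (pull (incl (UU φ : Set (GAtt G φ))) ω) =
      cochainCobdry (pull (rU G φ) ψ) := by
    rw [cobdry_pull, h, pull_pull, pull_pull]
    rfl
  refine ⟨ext0 (pull (rU G φ) ψ - χ), EqC.ext0 coe_smul_UU ((hψ.pull eqM_rU).sub hχ), ?_⟩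
  rw [← pull_incl_eq_iff, ← cobdry_pull, pull_ext0, Pr.cobdry_sub, hχ2, e1]
  abel

/-- **(L3)**: an equivariant cocycle in degree `n + 2` whose restriction to the old space is an
equivariant coboundary, is an equivariant coboundary if `H^(n+1)(S m; M) = 0`. -/
theorem exists_cobdry_of_restrict (hS : Van0 (S m) M n)
    {ω : SingSimplex (GAtt G φ) (n + 2) → M} (hω : EqC G ω) (hc : cochainCobdry ω = 0)
    {ψ : SingSimplex Z (n + 1) → M} (hψ : EqC G ψ) (h : cochainCobdry ψ = pull (inZc G φ) ω) :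
    ∃ χ : SingSimplex (GAtt G φ) (n + 1) → M, EqC G χ ∧ cochainCobdry χ = ω := by
  obtain ⟨bU, hbU, hbU2⟩ := exists_bU hω hc hψ h
  obtain ⟨bV, hbV, hbV2⟩ := hvi_VV (φ := φ) (n + 1) ω hω (fun s _ => by rw [hc]; rfl)
  obtain ⟨η, hη, hη2⟩ := hvi_UV (φ := φ) hS (bU - bV) (hbU.sub hbV) (fun s hs => by
    have h1 : SIn (UU φ) s := hs.mono inter_subset_left
    have h2 : SIn (VV φ) s := hs.mono inter_subset_right
    have h3 : cochainCobdry (bU - bV) s = cochainCobdry bU s - cochainCobdry bV s :=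
      congrFun (Pr.cobdry_sub bU bV) s
    rw [h3, hbU2 s h1, hbV2 s h2, sub_self])
  obtain ⟨χ, hχ, hχ2, -, -⟩ := Coh.glue (G := G) sv (isOpen_UU (φ := φ) (G := G))
    (isOpen_VV (φ := φ) (G := G)) UU_union_VV (fun g x => smul_mem_UU) (fun g x => smul_mem_VV)
    hω hc bU bV hbU hbV η hη hbU2 hbV2 (fun s h1 h2 => (hη2 s (SIn.inter h1 h2)).symm)
  exact ⟨χ, hχ, hχ2⟩

end att

end Crest.Agent.R251.L3
end

-- ▼ part R251/MV963
section

/-! # R251: Mayer-Vietoris for equivariant singular cochains, raw form (helper963)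

All cochains live on the big space `E`; "on `U`" means "on the singular simplices with image in `U`". -/

set_option autoImplicit false
set_option linter.unusedSectionVars false

open CategoryTheory Simplicial Opposite Set Topology
open Crest.GeometryTopology.DeckCochains

namespace Crest.Agent.R251.Pr

noncomputable section

section

variable {E E' E'' : Type} [TopologicalSpace E] [TopologicalSpace E'] [TopologicalSpace E'']
  {M : Type*} [AddCommGroup M]

theorem face_face {n : ℕ} (s : SingSimplex E (n + 2)) (i j : Fin (n + 2)) (h : j ≤ i) :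
    simplexFace j (simplexFace i.succ s) = simplexFace i (simplexFace j.castSucc s) := by
  have h1 := SimplicialObject.δ_comp_δ (TopCat.toSSet.obj (TopCat.of E)) h
  exact congrArg (fun f => (ConcreteCategory.hom f) s) h1

theorem cobdry_cobdry {n : ℕ} (φ : SingSimplex E n → M) :
    cochainCobdry (cochainCobdry φ) = 0 := by
  funext s
  let A : Fin (n + 3) → Fin (n + 2) → M := fun i j =>
    ((-1 : ℤ) ^ (i : ℕ)) • ((-1 : ℤ) ^ (j : ℕ)) • φ (simplexFace j (simplexFace i s))
  have e0 : cochainCobdry (cochainCobdry φ) s = ∑ i, ∑ j, A i j := by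
    simp only [cobdry_apply, Finset.smul_sum, A]
  rw [e0, Finset.sum_comm]
  have h1 : ∀ j : Fin (n + 2), ∑ i : Fin (n + 3), A i j =
      (∑ i : Fin (n + 2), if j ≤ i then A i.succ j else 0) +
      ∑ i : Fin (n + 2), if i ≤ j then A i.castSucc j else 0 := by
    intro j
    have e1 : ∑ i : Fin (n + 3), A i j = (∑ i : Fin (n + 3), if j.castSucc < i then A i j else 0) +
        ∑ i : Fin (n + 3), if i ≤ j.castSucc then A i j else 0 := by
      rw [← Finset.sum_add_distrib]
      refine Finset.sum_congr rfl fun i _ => ?_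
      by_cases h : j.castSucc < i
      · rw [if_pos h, if_neg (not_le.2 h), add_zero]
      · rw [if_neg h, if_pos (not_lt.1 h), zero_add]
    rw [e1]
    congr 1
    · rw [Fin.sum_univ_succ, if_neg (by simp), zero_add]
      refine Finset.sum_congr rfl fun i _ => ?_
      by_cases h : j ≤ i
      · rw [if_pos h, if_pos (Fin.castSucc_lt_succ_iff.2 h)]
      · rw [if_neg h, if_neg (fun h' => h (Fin.castSucc_lt_succ_iff.1 h'))]
    · rw [Fin.sum_univ_castSucc, if_neg (not_le.2 (Fin.castSucc_lt_last j)), add_zero]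
      refine Finset.sum_congr rfl fun i _ => ?_
      by_cases h : i ≤ j
      · rw [if_pos h, if_pos (Fin.castSucc_le_castSucc_iff.2 h)]
      · rw [if_neg h, if_neg (fun h' => h (Fin.castSucc_le_castSucc_iff.1 h'))]
  rw [Finset.sum_congr rfl fun j _ => h1 j, Finset.sum_add_distrib]
  have h2 : (∑ j : Fin (n + 2), ∑ i : Fin (n + 2), if i ≤ j then A i.castSucc j else 0) =
      ∑ j : Fin (n + 2), ∑ i : Fin (n + 2), if j ≤ i then A j.castSucc i else 0 := by
    rw [Finset.sum_comm]
  rw [h2, ← Finset.sum_add_distrib]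
  refine Finset.sum_eq_zero fun j _ => ?_
  rw [← Finset.sum_add_distrib]
  refine Finset.sum_eq_zero fun i _ => ?_
  by_cases h : j ≤ i
  · rw [if_pos h, if_pos h]
    simp only [A, Fin.val_succ, Fin.val_castSucc, face_face s i j h, smul_smul]
    rw [← add_smul]
    have : ((-1 : ℤ) ^ ((i : ℕ) + 1) * (-1) ^ (j : ℕ) + (-1) ^ (j : ℕ) * (-1) ^ (i : ℕ)) = 0 := by
      ring
    rw [this, zero_smul]
  · rw [if_neg h, if_neg h, add_zero]

/-! ### simplices in a subset -/

/-- the simplex lies in `U` -/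
def InS (U : Set E) {n : ℕ} (s : SingSimplex E n) : Prop := ∀ x, us s x ∈ U


theorem InS.face {U : Set E} {n : ℕ} {s : SingSimplex E (n + 1)} (h : InS U s)
    (i : Fin (n + 2)) : InS U (simplexFace i s) := fun x => by
  rw [us_face]; exact h _

theorem InS.mono {U V : Set E} (hUV : U ⊆ V) {n : ℕ} {s : SingSimplex E n} (h : InS U s) :
    InS V s := fun x => hUV (h x)



theorem InS.push {U : Set E} {V : Set E'} {n : ℕ} {s : SingSimplex E n} (h : InS U s)
    {f : C(E, E')} (hf : ∀ x ∈ U, f x ∈ V) : InS V (push f s) := fun x => by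
  rw [us_push]; exact hf _ (h x)


/-- the prism operator on simplices in `U` only sees the simplices in `V`, if the homotopy maps
`U × I` into `V` -/
theorem prism_congr_on {U : Set E} {V : Set E'} (H : C(E × unitInterval, E'))
    (hH : ∀ x ∈ U, ∀ t, H (x, t) ∈ V) {n : ℕ} {φ χ : SingSimplex E' (n + 1) → M}
    (h : ∀ s, InS V s → φ s = χ s) {s : SingSimplex E n} (hs : InS U s) :
    prism H φ s = prism H χ s := by
  refine prism_congr H φ χ s fun τ hτ => h _ fun x => ?_
  rw [us_sx]
  obtain ⟨⟨y, t⟩, ⟨⟨z, hz⟩, -⟩, e⟩ := hτ ⟨x, rfl⟩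
  rw [← e]
  refine hH _ ?_ _
  have : us s z = y := hz
  rw [← this]
  exact hs z

theorem prism_eq_zero_on {U : Set E} {V : Set E'} (H : C(E × unitInterval, E'))
    (hH : ∀ x ∈ U, ∀ t, H (x, t) ∈ V) {n : ℕ} {φ : SingSimplex E' (n + 1) → M}
    (h : ∀ s, InS V s → φ s = 0) {s : SingSimplex E n} (hs : InS U s) :
    prism H φ s = 0 := by
  rw [prism_congr_on H hH (χ := 0) h hs, prism_zero]
  rfl

/-! ### pull back along a map defined on a subset only -/

/-- compose a simplex in `U` with a map defined on `U` -/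
def cor {U : Set E} {n : ℕ} (s : SingSimplex E n) (h : InS U s) : SingSimplex U n :=
  sx ⟨fun x => ⟨us s x, h x⟩, (us s).continuous.subtype_mk h⟩





theorem cor_face {U : Set E} {n : ℕ} (s : SingSimplex E (n + 1)) (h : InS U s)
    (i : Fin (n + 2)) : simplexFace i (cor s h) = cor (simplexFace i s) (h.face i) := by
  unfold cor
  rw [face_sx]
  congr 1

open Classical in
/-- extension by zero of a cochain of a subspace -/
def ext0 {U : Set E} {n : ℕ} (ψ : SingSimplex U n → M) : SingSimplex E n → M :=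
  fun s => if h : InS U s then ψ (cor s h) else 0

theorem ext0_of_in {U : Set E} {n : ℕ} (ψ : SingSimplex U n → M) {s : SingSimplex E n}
    (h : InS U s) : ext0 ψ s = ψ (cor s h) := dif_pos h

theorem ext0_of_not {U : Set E} {n : ℕ} (ψ : SingSimplex U n → M) {s : SingSimplex E n}
    (h : ¬ InS U s) : ext0 ψ s = 0 := dif_neg h


theorem cobdry_ext0 {U : Set E} {n : ℕ} (ψ : SingSimplex U n → M) {s : SingSimplex E (n + 1)}
    (h : InS U s) : cochainCobdry (ext0 ψ) s = cochainCobdry ψ (cor s h) := by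
  simp only [cobdry_apply]
  exact Finset.sum_congr rfl fun i _ => by rw [ext0_of_in ψ (h.face i), cor_face]

end

/-! ### group actions -/

section

variable {G : Type} [Group G] {E E' E'' : Type} [TopologicalSpace E] [TopologicalSpace E']
  [TopologicalSpace E''] [MulAction G E] [MulAction G E'] [MulAction G E'']
  [ContinuousConstSMul G E] [ContinuousConstSMul G E'] [ContinuousConstSMul G E'']
  {M : Type*} [AddCommGroup M] [DistribMulAction G M]

/-- invariant subsets -/
def Inv (G : Type) [Group G] {E : Type} [MulAction G E] (U : Set E) : Prop :=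
  ∀ (g : G) (x : E), x ∈ U → g • x ∈ U



theorem push_act_act {n : ℕ} (g h : G) (s : SingSimplex E n) :
    push (act g) (push (act h) s) = push (act (g * h)) s := by
  rw [push_push]
  congr 1
  ext x
  exact (mul_smul g h x).symm

theorem push_act_one {n : ℕ} (s : SingSimplex E n) : push (act (1 : G)) s = s := by
  have : act (1 : G) = ContinuousMap.id E := by ext x; exact one_smul G x
  rw [this, push_id]

theorem Inv.inS {U : Set E} (hU : Inv G U) (g : G) {n : ℕ} (s : SingSimplex E n) :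
    InS U (push (act g) s) ↔ InS U s := by
  constructor
  · intro h
    have := InS.push h (f := act g⁻¹) (V := U) fun x hx => hU g⁻¹ x hx
    rwa [push_act_act, inv_mul_cancel, push_act_one] at this
  · intro h
    exact h.push fun x hx => hU g x hx

open Classical in
/-- cut off to simplices in `U` -/
theorem EqC.ite {U : Set E} (hU : Inv G U) {n : ℕ} {φ ψ : SingSimplex E n → M} (hφ : EqC G φ)
    (hψ : EqC G ψ) : EqC G (fun s => if InS U s then φ s else ψ s) := fun g s => by
  by_cases h : InS U s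
  · have h' := (hU.inS g s).2 h
    simp only [if_pos h, if_pos h', hφ g s]
  · have h' : ¬ InS U (push (act g) s) := fun h' => h ((hU.inS g s).1 h')
    simp only [if_neg h, if_neg h', hψ g s]

/-- vanishing in degree `n + 1` on the invariant subset `U` of `E` -/
def HVon (G : Type) [Group G] {E : Type} [TopologicalSpace E] [MulAction G E]
    [ContinuousConstSMul G E] (U : Set E) (n : ℕ) (M : Type*) [AddCommGroup M]
    [DistribMulAction G M] : Prop :=
  ∀ φ : SingSimplex E (n + 1) → M, EqC G φ → (∀ s, InS U s → cochainCobdry φ s = 0) →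
    ∃ ψ : SingSimplex E n → M, EqC G ψ ∧ ∀ s, InS U s → cochainCobdry ψ s = φ s


/-- general transfer: a `G`-space `Z` with an equivariant map `i : Z → E`, a map `r` on `U` to `Z`
and an equivariant homotopy of `E`, preserving `U`, from the identity to `i ∘ r` on `U` -/
theorem HVon.of_deform {Z : Type} [TopologicalSpace Z] [MulAction G Z] [ContinuousConstSMul G Z]
    {U : Set E} (hU : Inv G U) {n : ℕ} (hZ : HV G Z n M) (i : C(Z, E)) (hi : EqM G i)
    (hiU : ∀ z, i z ∈ U)
    (r : U → Z) (hr : Continuous r)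
    (hrG : ∀ (g : G) (x : U) (y : U), (y : E) = g • (x : E) → r y = g • r x)
    (H : C(E × unitInterval, E)) (hH : EqH G H) (H0 : ∀ x ∈ U, H (x, 0) = x)
    (HU : ∀ x ∈ U, ∀ t, H (x, t) ∈ U) (H1 : ∀ x : U, H (x, 1) = i (r x)) : HVon G U n M := by
  intro φ hφ hc
  obtain ⟨χ, hχ, hχ'⟩ := hZ (Pr.pull i φ) (hφ.pull hi) (by
    rw [cobdry_pull]
    funext s
    refine hc _ fun x => ?_
    rw [us_push]
    exact hiU _)
  -- pull back of χ along r, extended by zero
  let rC : C(U, Z) := ⟨r, hr⟩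
  let ψ0 : SingSimplex E n → M := ext0 (Pr.pull rC χ)
  have hψ0 : EqC G ψ0 := by
    intro g s
    by_cases h : InS U s
    · have h' := (hU.inS g s).2 h
      simp only [ψ0, ext0_of_in _ h, ext0_of_in _ h', pull_apply]
      rw [← hχ g]
      congr 1
      rw [push_push]
      unfold cor
      rw [push_sx, push_sx]
      congr 1
      ext x
      simp only [ContinuousMap.comp_apply, ContinuousMap.coe_mk, act_apply, rC]
      apply hrG
      simp only [us_push]
      rfl
    · have h' : ¬ InS U (push (act g) s) := fun h' => h ((hU.inS g s).1 h')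
      simp only [ψ0, ext0_of_not _ h, ext0_of_not _ h', smul_zero]
  refine ⟨ψ0 - Pr.prism H φ, hψ0.sub (hφ.prism hH), fun s hs => ?_⟩
  have e1 : cochainCobdry ψ0 s = φ (push (end1 H) s) := by
    rw [show ψ0 = ext0 (Pr.pull rC χ) from rfl, cobdry_ext0 _ hs, cobdry_pull, hχ', pull_pull,
      pull_apply]
    congr 1
    conv_rhs => rw [← sx_us s]
    unfold cor
    rw [push_sx, push_sx]
    congr 1
    ext x
    exact (H1 ⟨us s x, hs x⟩).symm
  have e2 : push (end0 H) s = s := by
    conv_rhs => rw [← sx_us s]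
    rw [← sx_us s, push_sx, us_sx]
    congr 1
    ext x
    exact H0 _ (hs x)
  have e3 := congrFun (cobdry_prism H φ) s
  rw [Pi.add_apply, Pi.sub_apply, pull_apply, pull_apply, e2,
    prism_eq_zero_on H HU hc hs, add_zero] at e3
  rw [cobdry_sub, Pi.sub_apply, e1, e3]
  abel

/-- a subset which is the image of an equivariant embedding -/
theorem HVon.of_embedding {Z : Type} [TopologicalSpace Z] [MulAction G Z] [ContinuousConstSMul G Z]
    {U : Set E} (hU : Inv G U) {n : ℕ} (hZ : HV G Z n M) (i : C(Z, E)) (hi : EqM G i)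
    (hemb : IsEmbedding i) (hrange : range i = U) : HVon G U n M := by
  have hex : ∀ x : U, ∃ z, i z = x := fun x => by
    have : (x : E) ∈ range i := by rw [hrange]; exact x.2
    exact this
  choose r hr using hex
  refine HVon.of_deform hU hZ i hi (fun z => hrange ▸ ⟨z, rfl⟩) r ?_ ?_
    ⟨fun p => p.1, continuous_fst⟩ (fun g x t => rfl) (fun x _ => rfl) (fun x hx _ => hx)
    (fun x => (hr x).symm)
  · rw [hemb.continuous_iff]
    have : (i ∘ r : U → E) = Subtype.val := by funext x; exact hr x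
    rw [this]
    exact continuous_subtype_val
  · intro g x y hxy
    apply hemb.injective
    rw [hr, hi, hr, hxy]


/-! ### Mayer-Vietoris -/





end

end

end Crest.Agent.R251.Pr
namespace Crest.Agent.R251.Pr.HV
end Crest.Agent.R251.Pr.HV
end

-- ▼ part R251/Kr337c
section

/-!
# Row 251: `H^2_G` of the Cayley complex (KR4) and of its subcomplexes (KR5)
-/

set_option autoImplicit false

open Set Metric Topology
open scoped unitInterval
open Crest.GeometryTopology.DeckCochains
open Crest.Agent.R185.Att Crest.Agent.R185.Base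
open Crest.Agent.R251.Pr (Dl EqC EqM push pull act HV InS)
open Crest.Agent.R251.PC
open Crest.Agent.R251.Mod
open Crest.Agent.R251.Orb (Van0 van0_of_const)

namespace Crest.Agent.R251.Kr

noncomputable section

variable {G : Type} [Group G] {ι : Type} (gen : ι → G) {M : Type} [AddCommGroup M]
  [DistribMulAction G M]

/-- singular simplices of a discrete space are constant -/
theorem const_of_discrete {F : Type} [TopologicalSpace F] [DiscreteTopology F] (m : ℕ)
    (τ : C(Dl m, F)) : ∃ x, τ = ContinuousMap.const _ x := by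
  haveI : PreconnectedSpace (Dl m) :=
    isPreconnected_iff_preconnectedSpace.1 (convex_stdSimplex ℝ (Fin (m + 1))).isPreconnected
  refine ⟨τ (stdSimplex.vertex 0), ?_⟩
  ext s
  exact PreconnectedSpace.constant inferInstance τ.continuous

theorem hv_Z1 (n : ℕ) : HV G (Z1 G) n M := Pr.HV.of_const const_of_discrete

theorem van0_S1 (n : ℕ) : Van0 (S 1) M n := van0_of_const const_of_discrete

theorem hv_Z2 (n : ℕ) : HV G (Z2 gen) (n + 1) M := Orb.L1 (hv_Z1 (n + 1)) (van0_S1 n)

/-- **KR1** -/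
theorem kr1 (D0 : ι → M) :
    ∃ β : SingSimplex (Z2 gen) 1 → M, cochainCobdry β = 0 ∧ EqC G β ∧
      (∀ (g : G) (l : List (ι × Bool)),
        β (ps (wpath gen g l : C(I, Z2 gen))) = g • der gen D0 l) ∧
      (∀ (l : List (ι × Bool)) (h : val gen l = 1),
        β (ps (wloop gen l h : C(I, Z2 gen))) = der gen D0 l) :=
  kr1_of gen (LBg.gcells (φ1 gen)) (fun _ _ _ => rfl) rfl D0

/-- detection of 1-cocycles on the circle by their period -/
def Det2 (M : Type) [AddCommGroup M] : Prop :=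
  ∀ φ : SingSimplex (S 2) 1 → M, cochainCobdry φ = 0 → φ (ps crI) = 0 →
    ∃ θ : SingSimplex (S 2) 0 → M, cochainCobdry θ = φ

variable {κ : Type} (wd : κ → List (ι × Bool)) (hwd : ∀ j, val gen (wd j) = 1)

/-- **KR4** -/
theorem kr4 (hdet : Det2 M) (hD : ∀ b : κ → M, ∃ D0 : ι → M, ∀ j, der gen D0 (wd j) = b j) :
    HV G (Z3 gen wd hwd) 1 M := by
  refine Orb.L2 (hv_Z2 gen 0) fun k hk => ?_
  obtain ⟨D0, hD0⟩ := hD fun j => k j (ps crI)
  obtain ⟨β, h1, h2, -, h3⟩ := kr1 gen D0
  refine ⟨β, h2, h1, fun j => hdet _ ?_ ?_⟩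
  · rw [Pr.cobdry_sub, hk, Pr.cobdry_pull, h1]
    funext s
    exact sub_zero _
  · rw [Pi.sub_apply, Pr.pull_apply, push_ps]
    have e : (φ2 gen wd hwd j).comp crI = (wloop gen (wd j) (hwd j) : C(I, Z2 gen)) := by
      ext t
      exact circ_cr (wloop gen (wd j) (hwd j)) t
    rw [e, h3, hD0, sub_self]

/-! ### subcomplexes -/

variable (J : Set κ)

/-- the subcomplex with the 2-cells in `J` -/
abbrev ZJ : Type := Z3 gen (fun j : J => wd j) (fun j => hwd j)

/-- the inclusion on points -/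
def eJ0 : ZJ gen wd hwd J → Z3 gen wd hwd :=
  Sum.elim (fun z => inZ (φ2 gen wd hwd) z) (fun p => inB (φ2 gen wd hwd) p.1 p.2.1 p.2.2)

@[simp] theorem eJ0_inZ (z : Z2 gen) :
    eJ0 gen wd hwd J (inZ (φ2 gen (fun j : J => wd j) (fun j => hwd j)) z) =
      inZ (φ2 gen wd hwd) z := rfl

@[simp] theorem eJ0_inB (g : G) (j : J) (x : B 2) :
    eJ0 gen wd hwd J (inB (φ2 gen (fun j : J => wd j) (fun j => hwd j)) g j x) =
      inB (φ2 gen wd hwd) g j x := rfl

theorem eJ0_chr (g : G) (j : J) (x : D 2) :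
    eJ0 gen wd hwd J (chr (φ2 gen (fun j : J => wd j) (fun j => hwd j)) g j x) =
      chr (φ2 gen wd hwd) g j x := by
  induction x using D.cases' with
  | hB x => rw [chr_bd, chr_bd, eJ0_inB]
  | hS x => rw [chr_sd, chr_sd, eJ0_inZ]; rfl

/-- the inclusion -/
def eJ : C(ZJ gen wd hwd J, Z3 gen wd hwd) := ⟨eJ0 gen wd hwd J, by
  rw [R185.Att.continuous_iff]
  refine ⟨continuous_inZ, fun g c => ?_⟩
  have : eJ0 gen wd hwd J ∘ chr (φ2 gen (fun j : J => wd j) (fun j => hwd j)) g c =
      chr (φ2 gen wd hwd) g c := by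
    funext x; exact eJ0_chr gen wd hwd J g c x
  rw [this]
  exact continuous_chr g (c : κ)⟩

theorem eJ_smul : EqM G (eJ gen wd hwd J) := by
  intro g p
  induction p using GAtt.cases' with
  | hZ z => rfl
  | hB h c x => rfl

theorem eJ_injective : Function.Injective (eJ gen wd hwd J) := by
  intro p q h
  induction p using GAtt.cases' with
  | hZ z =>
    induction q using GAtt.cases' with
    | hZ w => exact congrArg _ (inZ_inj.1 h)
    | hB g c x => exact absurd h inZ_ne_inB
  | hB g c x =>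
    induction q using GAtt.cases' with
    | hZ w => exact absurd h inB_ne_inZ
    | hB g' c' x' =>
      obtain ⟨rfl, h2, rfl⟩ := inB_inj.1 h
      have h3 : c = c' := Subtype.ext h2
      subst h3; rfl

theorem range_eJ : range (eJ gen wd hwd J) = Sk gen wd hwd J := by
  ext p
  constructor
  · rintro ⟨p, rfl⟩
    induction p using GAtt.cases' with
    | hZ z => exact Or.inl ⟨z, rfl⟩
    | hB g c x =>
      refine Or.inr ?_
      simp only [mem_iUnion]
      exact ⟨g, c, c.2, bd 2 x, chr_bd _ _ _⟩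
  · rintro (⟨z, rfl⟩ | h)
    · exact ⟨inZ _ z, rfl⟩
    · simp only [mem_iUnion] at h
      obtain ⟨g, j, hj, x, rfl⟩ := h
      exact ⟨chr _ g ⟨j, hj⟩ x, eJ0_chr gen wd hwd J g ⟨j, hj⟩ x⟩

theorem isClosedEmbedding_eJ : IsClosedEmbedding (eJ gen wd hwd J) := by
  refine .of_continuous_injective_isClosedMap (eJ gen wd hwd J).continuous
    (eJ_injective gen wd hwd J) ?_
  intro A hA
  rw [R185.Att.isClosed_iff] at hA ⊢
  obtain ⟨hA1, hA2⟩ := hA
  have e1 : (inZ (φ2 gen wd hwd)) ⁻¹' (eJ gen wd hwd J '' A) =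
      (inZ (φ2 gen (fun j : J => wd j) (fun j => hwd j))) ⁻¹' A := by
    ext z
    constructor
    · rintro ⟨p, hp, h⟩
      have : p = inZ _ z := eJ_injective gen wd hwd J h
      rw [this] at hp; exact hp
    · intro hz
      exact ⟨_, hz, rfl⟩
  refine ⟨by rw [e1]; exact hA1, fun g c => ?_⟩
  by_cases hc : c ∈ J
  · have e2 : chr (φ2 gen wd hwd) g c ⁻¹' (eJ gen wd hwd J '' A) =
        chr (φ2 gen (fun j : J => wd j) (fun j => hwd j)) g ⟨c, hc⟩ ⁻¹' A := by
      ext x
      constructor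
      · rintro ⟨p, hp, h⟩
        have : p = chr _ g ⟨c, hc⟩ x :=
          eJ_injective gen wd hwd J (h.trans (eJ0_chr gen wd hwd J g ⟨c, hc⟩ x).symm)
        rw [this] at hp; exact hp
      · intro hx
        exact ⟨_, hx, eJ0_chr gen wd hwd J g ⟨c, hc⟩ x⟩
    rw [e2]
    exact hA2 g ⟨c, hc⟩
  · have e3 : chr (φ2 gen wd hwd) g c ⁻¹' (eJ gen wd hwd J '' A) =
        sd 2 '' ((fun x : S 2 => g • φ2 gen wd hwd c x) ⁻¹'
          (inZ (φ2 gen (fun j : J => wd j) (fun j => hwd j)) ⁻¹' A)) := by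
      ext x
      constructor
      · rintro ⟨p, hp, h⟩
        induction x using D.cases' with
        | hB x =>
          rw [chr_bd] at h
          induction p using GAtt.cases' with
          | hZ z => exact absurd h inZ_ne_inB
          | hB g' c' x' =>
            obtain ⟨-, h2, -⟩ := inB_inj.1 h
            exact absurd (h2 ▸ c'.2) hc
        | hS x =>
          rw [chr_sd] at h
          refine ⟨x, ?_, rfl⟩
          have : p = inZ _ (g • φ2 gen wd hwd c x) := eJ_injective gen wd hwd J h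
          rw [this] at hp; exact hp
      · rintro ⟨x, hx, rfl⟩
        rw [mem_preimage, chr_sd]
        exact ⟨_, hx, rfl⟩
    rw [e3]
    have hcont : Continuous fun x : S 2 => g • φ2 gen wd hwd c x :=
      (φ2 gen wd hwd c).continuous.const_smul g
    exact ((hA1.preimage hcont).isCompact.image (sd 2).continuous).isClosed

theorem inv_Sk : Pr.Inv G (Sk gen wd hwd J) := by
  intro g x hx
  rw [← range_eJ] at hx ⊢
  obtain ⟨p, rfl⟩ := hx
  exact ⟨g • p, eJ_smul gen wd hwd J g p⟩

/-- **KR5**: `H^2_G` of the subcomplex `Sk J` -/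
theorem kr5_hVon (hdet : Det2 M)
    (hD : ∀ b : J → M, ∃ D0 : ι → M, ∀ j : J, der gen D0 (wd j) = b j) :
    Pr.HVon G (Sk gen wd hwd J) 1 M :=
  Pr.HVon.of_embedding (inv_Sk gen wd hwd J) (kr4 gen (fun j : J => wd j) (fun j => hwd j) hdet hD)
    (eJ gen wd hwd J) (eJ_smul gen wd hwd J) (isClosedEmbedding_eJ gen wd hwd J).isEmbedding
    (range_eJ gen wd hwd J)

/-- **KR5**, the form for K2 -/
theorem kr5 (hdet : Det2 M)
    (hD : ∀ b : J → M, ∃ D0 : ι → M, ∀ j : J, der gen D0 (wd j) = b j)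
    (ω : SingSimplex (Z3 gen wd hwd) 2 → M) (hω : EqC G ω) (hc : cochainCobdry ω = 0) :
    ∃ ψ : SingSimplex (Z3 gen wd hwd) 1 → M, EqC G ψ ∧
      cochainCobdry (ω - cochainCobdry ψ) = 0 ∧ EqC G (ω - cochainCobdry ψ) ∧
      ∀ s, InS (Sk gen wd hwd J) s → (ω - cochainCobdry ψ) s = 0 := by
  obtain ⟨ψ, h1, h2⟩ := kr5_hVon gen wd hwd J hdet hD ω hω (fun s _ => congrFun hc s)
  refine ⟨ψ, h1, ?_, hω.sub h1.cobdry, fun s hs => ?_⟩
  · rw [Pr.cobdry_sub, hc, Pr.cobdry_cobdry, sub_zero]
  · rw [Pi.sub_apply, h2 s hs, sub_self]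

end

end Crest.Agent.R251.Kr
end

-- ▼ part R251/Kr337d
section

/-!
# Row 251: KR4, KR5 without the hypothesis `Det2`, and KR5 for the row (`J = {0}`, `M = Tw μ`)
-/

set_option autoImplicit false

open Set Metric Topology
open scoped unitInterval
open Crest.GeometryTopology.DeckCochains
open Crest.Agent.R185.Att Crest.Agent.R185.Base
open Crest.Agent.R251.Pr (Dl EqC EqM push pull act HV InS)
open Crest.Agent.R251.PC
open Crest.Agent.R251.Mod
open Crest.Agent.R251.Alg (GG mu)
open Crest.Agent.R251.Fin (Tw)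

namespace Crest.Agent.R251.Kr

noncomputable section

/-- a 1-cocycle on the circle of period zero is a coboundary -/
theorem det2 {M : Type} [AddCommGroup M] : Det2 M := fun φ h h0 => K34.detect2 φ h h0

section gen
variable {G : Type} [Group G] {ι : Type} (gen : ι → G) {M : Type} [AddCommGroup M]
  [DistribMulAction G M] {κ : Type} (wd : κ → List (ι × Bool)) (hwd : ∀ j, val gen (wd j) = 1)


/-- **KR5** -/
theorem kr5' (J : Set κ) (hD : ∀ b : J → M, ∃ D0 : ι → M, ∀ j : J, der gen D0 (wd j) = b j)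
    (ω : SingSimplex (Z3 gen wd hwd) 2 → M) (hω : EqC G ω) (hc : cochainCobdry ω = 0) :
    ∃ ψ : SingSimplex (Z3 gen wd hwd) 1 → M, EqC G ψ ∧
      cochainCobdry (ω - cochainCobdry ψ) = 0 ∧ EqC G (ω - cochainCobdry ψ) ∧
      ∀ s, InS (Sk gen wd hwd J) s → (ω - cochainCobdry ψ) s = 0 :=
  kr5 gen wd hwd J det2 hD ω hω hc

end gen

section row
variable {K : Type} [Field K]

theorem hD_row (ζ : Kˣ) (hζ : ζ ^ 6 = 1) (h3 : ζ ^ 3 ≠ 1) (h2 : ζ ^ 2 ≠ 1)
    (b : ({0} : Set (Fin 2)) → Tw (mu ζ hζ)) :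
    ∃ D0 : Fin 2 → Tw (mu ζ hζ), ∀ j : ({0} : Set (Fin 2)), der gn D0 (wdd j) = b j := by
  obtain ⟨D0, hD0⟩ := KD10.exists_D0 ζ hζ h3 h2 (b ⟨0, rfl⟩)
  refine ⟨D0, ?_⟩
  rintro ⟨j, hj⟩
  obtain rfl : j = 0 := hj
  exact (hD0 (der gn D0) rfl (fun _ _ => rfl) (fun _ _ => rfl)).1

/-- **KR5 for the row**: an equivariant 2-cocycle on `EE2` with values in `Tw μ` can be made zero
on the simplices in `Kr` (the Cayley complex with the cells of the relator `r` only) -/
theorem kr5_row (ζ : Kˣ) (hζ : ζ ^ 6 = 1) (h3 : ζ ^ 3 ≠ 1) (h2 : ζ ^ 2 ≠ 1)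
    (ω : SingSimplex EE2 2 → Tw (mu ζ hζ)) (hω : EqC GG ω) (hc : cochainCobdry ω = 0) :
    ∃ ψ : SingSimplex EE2 1 → Tw (mu ζ hζ), EqC GG ψ ∧
      cochainCobdry (ω - cochainCobdry ψ) = 0 ∧ EqC GG (ω - cochainCobdry ψ) ∧
      ∀ s, InS Mod.Kr s → (ω - cochainCobdry ψ) s = 0 :=
  kr5' gn wdd hwdd {0} (hD_row ζ hζ h3 h2) ω hω hc

end row

end

end Crest.Agent.R251.Kr
end

-- ▼ part R251/S3_416
section

/-!
# R251: (s3) `H^1(S 3; M) = 0`

* `van0_zero_of_cover`: a space covered by two open sets with vanishing `H^1` and path connected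
  intersection has vanishing `H^1`.
* `van0_S3 : Van0 (S 3) M 0`.
-/

set_option autoImplicit false
set_option linter.unusedSectionVars false

open CategoryTheory Simplicial Opposite Set Metric Topology
open scoped unitInterval
open Crest.GeometryTopology.DeckCochains
open Crest.Agent.R251.Pr (Dl sx us face sx_surj face_sx us_sx sx_us push pull cobdry_pull)
open Crest.Agent.R251.Orb (Van0 van0_contractible SIn HVi incl sin_push_incl pull_incl_eq_iff pull_ext0
  ext0 us_injective)

namespace Crest.Agent.R251.L3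

section gen

variable {X : Type} [TopologicalSpace X] {M : Type} [AddCommGroup M]

theorem dl0_eq (x y : Dl 0) : x = y := by
  apply Subtype.ext
  funext i
  have hx : ∑ i, x i = 1 := x.2.2
  have hy : ∑ i, y i = 1 := y.2.2
  have hi : i = 0 := Fin.ext (Nat.lt_one_iff.1 i.isLt)
  subst hi
  have h1 : x 0 = 1 := by simpa using hx
  have h2 : y 0 = 1 := by simpa using hy
  exact h1.trans h2.symm

/-- the point of `Dl 0` -/
noncomputable def d0 : Dl 0 := stdSimplex.vertex 0

/-- 0-simplices are determined by their point -/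
theorem zero_ext {s t : SingSimplex X 0} (h : us s d0 = us t d0) : s = t := by
  apply us_injective
  ext1 x
  rw [dl0_eq x d0]; exact h

/-- the 0-simplex at a point -/
noncomputable def pt0 (x : X) : SingSimplex X 0 := sx (ContinuousMap.const _ x)

theorem us_pt0 (x : X) (t : Dl 0) : us (pt0 x) t = x := by
  unfold pt0; rw [us_sx]; rfl

theorem eq_pt0 (s : SingSimplex X 0) : s = pt0 (us s d0) := zero_ext (us_pt0 _ _).symm


theorem sin_zero {A : Set X} {s : SingSimplex X 0} : SIn A s ↔ us s d0 ∈ A :=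
  ⟨fun h => h d0, fun h t => by rw [dl0_eq t d0]; exact h⟩

/-- the coboundary of a 0-cochain on a path -/
theorem cobdry_zero_ps (ψ : SingSimplex X 0 → M) (γ : C(I, X)) :
    cochainCobdry ψ (PC.ps γ) = ψ (pt0 (γ 1)) - ψ (pt0 (γ 0)) := by
  unfold cochainCobdry
  rw [Fin.sum_univ_two]
  have h0 : simplexFace (0 : Fin 2) (PC.ps γ) = pt0 (γ 1) := by
    unfold PC.ps
    rw [PC.face_lin]
    apply zero_ext
    rw [PC.us_lin, us_pt0]
    show γ (PC.Cvx.aff _ d0) = _
    congr 1
    have : (![(0 : I), 1] ∘ (0 : Fin 2).succAbove : Fin 1 → I) = fun _ => 1 := by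
      funext i; fin_cases i; rfl
    rw [this]
    exact PC.Cvx.aff_const _ _
  have h1 : simplexFace (1 : Fin 2) (PC.ps γ) = pt0 (γ 0) := by
    unfold PC.ps
    rw [PC.face_lin]
    apply zero_ext
    rw [PC.us_lin, us_pt0]
    show γ (PC.Cvx.aff _ d0) = _
    congr 1
    have : (![(0 : I), 1] ∘ (1 : Fin 2).succAbove : Fin 1 → I) = fun _ => 0 := by
      funext i; fin_cases i; rfl
    rw [this]
    exact PC.Cvx.aff_const _ _
  rw [h0, h1]
  simp [sub_eq_add_neg]

theorem us_ps (γ : C(I, X)) (t : Dl 1) : us (PC.ps γ) t = γ (PC.Cvx.aff ![(0 : I), 1] t) := by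
  unfold PC.ps
  rw [PC.us_lin]; rfl

/-- `H^1` of a union of two open sets with vanishing `H^1` and path connected intersection -/
theorem van0_zero_of_cover {A B : Set X} (hA : IsOpen A) (hB : IsOpen B) (hAB : A ∪ B = univ)
    (vA : Van0 A M 0) (vB : Van0 B M 0)
    (hp : ∀ x ∈ A ∩ B, ∀ y ∈ A ∩ B, JoinedIn (A ∩ B) x y) : Van0 X M 0 := by
  classical
  intro φ hc
  have key : ∀ {A : Set X}, Van0 A M 0 → ∃ a : SingSimplex X 0 → M,
      ∀ s : SingSimplex X 1, SIn A s → cochainCobdry a s = φ s := by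
    intro A vA
    obtain ⟨a', ha'⟩ := vA (pull (incl A) φ) (by rw [cobdry_pull, hc]; rfl)
    refine ⟨ext0 a', ?_⟩
    rw [← pull_incl_eq_iff, ← cobdry_pull, pull_ext0, ha']
  obtain ⟨a, ha⟩ := key vA
  obtain ⟨b, hb⟩ := key vB
  -- the difference is constant on the intersection
  obtain ⟨k, hk⟩ : ∃ k : M, ∀ x ∈ A ∩ B, a (pt0 x) - b (pt0 x) = k := by
    by_cases hne : (A ∩ B).Nonempty
    · obtain ⟨x0, hx0⟩ := hne
      refine ⟨a (pt0 x0) - b (pt0 x0), fun x hx => ?_⟩
      obtain ⟨γ, hγ⟩ := hp x0 hx0 x hx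
      have h1 := ha (PC.ps γ.toContinuousMap) (fun t => by rw [us_ps]; exact (hγ _).1)
      have h2 := hb (PC.ps γ.toContinuousMap) (fun t => by rw [us_ps]; exact (hγ _).2)
      rw [cobdry_zero_ps] at h1 h2
      have e1 : γ.toContinuousMap 1 = x := γ.target
      have e0 : γ.toContinuousMap 0 = x0 := γ.source
      rw [e1, e0] at h1 h2
      have h3 := h1.trans h2.symm
      rw [sub_eq_sub_iff_sub_eq_sub]
      exact h3
    · exact ⟨0, fun x hx => absurd ⟨x, hx⟩ hne⟩
  let ψ : SingSimplex X 0 → M := fun s => if SIn A s then a s else b s + k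
  have hψA : ∀ s : SingSimplex X 0, SIn A s → ψ s = a s := fun s h => if_pos h
  have hψB : ∀ s : SingSimplex X 0, SIn B s → ψ s = b s + k := fun s h => by
    by_cases h' : SIn A s
    · rw [hψA s h']
      have := hk _ ⟨sin_zero.1 h', sin_zero.1 h⟩
      rw [← eq_pt0] at this
      rw [← this]; abel
    · exact if_neg h'
  obtain ⟨χ, h1, -, -⟩ := sv X A B hA hB hAB M 0 (φ - cochainCobdry ψ)
    (by rw [Coh.cobdry_sub, hc, Coh.cobdry_cobdry, sub_zero])
    (by
      rintro s (h | h)
      · have hs : SIn A s := h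
        rw [Pi.sub_apply, Coh.cobdry_congr (fun i => hψA _ (hs.face i)), ha s hs, sub_self]
      · have hs : SIn B s := h
        have e : cochainCobdry ψ s = cochainCobdry (b + fun _ => k) s :=
          Coh.cobdry_congr (fun i => hψB _ (hs.face i))
        rw [Pi.sub_apply, e, Coh.cobdry_add, Pi.add_apply, hb s hs]
        have : cochainCobdry (fun _ : SingSimplex X 0 => k) s = 0 := by
          unfold cochainCobdry
          rw [Fin.sum_univ_two]; simp
        rw [this]; abel)
  exact ⟨ψ + χ, by rw [Coh.cobdry_add, h1]; abel⟩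

end gen

section sphere

open Crest.Agent.R185.Att Crest.Agent.R185.Base

variable {M : Type} [AddCommGroup M]

/-- the open cap `-1/2 < e * x 0` -/
def cap (k : ℕ) (e : ℝ) : Set (S (k + 1)) := {x | -1/2 < e * (x : Fin (k + 1) → ℝ) 0}

theorem isOpen_cap (k : ℕ) (e : ℝ) : IsOpen (cap k e) := by
  apply isOpen_lt continuous_const
  exact continuous_const.mul ((continuous_apply _).comp continuous_subtype_val)

theorem cap_union (k : ℕ) : cap k 1 ∪ cap k (-1) = univ := by
  refine eq_univ_of_forall fun x => ?_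
  rcases le_or_gt 0 ((x : Fin (k + 1) → ℝ) 0) with h | h
  · left; show (-1/2 : ℝ) < 1 * (x : Fin (k + 1) → ℝ) 0; linarith
  · right; show (-1/2 : ℝ) < -1 * (x : Fin (k + 1) → ℝ) 0; linarith

/-- the pole -/
def pole (k : ℕ) (e : ℝ) : Fin (k + 1) → ℝ := fun i => if i = 0 then e else 0

theorem norm_pole (k : ℕ) {e : ℝ} (he : |e| = 1) : ‖pole k e‖ = 1 := by
  apply le_antisymm
  · rw [pi_norm_le_iff_of_nonneg zero_le_one]
    intro i
    unfold pole
    split_ifs
    · rw [Real.norm_eq_abs, he]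
    · simp
  · have := norm_le_pi_norm (pole k e) 0
    rw [show pole k e 0 = e from if_pos rfl, Real.norm_eq_abs, he] at this
    exact this

/-- the straight segment from `x` to the pole -/
def vv (k : ℕ) (e : ℝ) (x : Fin (k + 1) → ℝ) (t : ℝ) : Fin (k + 1) → ℝ := (1 - t) • x + t • pole k e

theorem vv_zero_coord {k : ℕ} {e : ℝ} (x : Fin (k + 1) → ℝ) (t : ℝ) :
    vv k e x t 0 = (1 - t) * x 0 + t * e := by
  simp [vv, pole]

theorem vv_other {k : ℕ} {e : ℝ} (x : Fin (k + 1) → ℝ) (t : ℝ) {i : Fin (k + 1)} (hi : i ≠ 0) :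
    vv k e x t i = (1 - t) * x i := by
  simp [vv, pole, hi]

theorem cap_key {k : ℕ} {e : ℝ} (he : |e| = 1) {x : S (k + 1)} (hx : x ∈ cap k e) {t : ℝ}
    (h0 : 0 ≤ t) (h1 : t ≤ 1) :
    0 < ‖vv k e x t‖ ∧ -1/2 * ‖vv k e x t‖ < e * vv k e x t 0 := by
  have hee : e * e = 1 := by
    rw [← abs_mul_abs_self, he, one_mul]
  have hx' : -1/2 < e * (x : Fin (k + 1) → ℝ) 0 := hx
  have hc : |vv k e x t 0| ≤ ‖vv k e x t‖ := norm_le_pi_norm (vv k e x t) 0
  have hv : e * vv k e x t 0 = (1 - t) * (e * (x : Fin (k + 1) → ℝ) 0) + t := by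
    rw [vv_zero_coord]; linear_combination t * hee
  have habs : |e * vv k e x t 0| = |vv k e x t 0| := by rw [abs_mul, he, one_mul]
  rcases le_or_gt 0 (e * (x : Fin (k + 1) → ℝ) 0) with hp | hn
  · -- the point is in the upper half
    have h3 : 0 ≤ e * vv k e x t 0 := by
      rw [hv]; exact add_nonneg (mul_nonneg (by linarith) hp) h0
    have h4 : 0 < ‖vv k e x t‖ := by
      rcases eq_or_lt_of_le h0 with rfl | h0'
      · have : vv k e (x : Fin (k + 1) → ℝ) 0 = x := by simp [vv]
        rw [this, x.norm_eq]; exact one_pos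
      · have : 0 < e * vv k e x t 0 := by
          rw [hv]; exact add_pos_of_nonneg_of_pos (mul_nonneg (by linarith) hp) h0'
        calc (0 : ℝ) < |e * vv k e x t 0| := abs_pos.2 this.ne'
          _ = |vv k e x t 0| := habs
          _ ≤ _ := hc
    exact ⟨h4, by linarith⟩
  · -- the point is in the collar: another coordinate has absolute value one
    have hlt : |(x : Fin (k + 1) → ℝ) 0| < 1 := by
      have : |e * (x : Fin (k + 1) → ℝ) 0| = |(x : Fin (k + 1) → ℝ) 0| := by
        rw [abs_mul, he, one_mul]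
      rw [← this, abs_lt]; constructor <;> linarith
    obtain ⟨i, hi, hi1⟩ : ∃ i, i ≠ 0 ∧ |(x : Fin (k + 1) → ℝ) i| = 1 := by
      by_contra hcon
      push Not at hcon
      have hn1 : ‖(x : Fin (k + 1) → ℝ)‖ < 1 := by
        rw [pi_norm_lt_iff one_pos]
        intro i
        rw [Real.norm_eq_abs]
        by_cases h : i = 0
        · subst h; exact hlt
        · refine lt_of_le_of_ne ?_ (hcon i h)
          have := norm_le_pi_norm (x : Fin (k + 1) → ℝ) i
          rwa [x.norm_eq, Real.norm_eq_abs] at this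
      exact absurd x.norm_eq hn1.ne
    have h5 : 1 - t ≤ ‖vv k e x t‖ := by
      have := norm_le_pi_norm (vv k e x t) i
      rw [vv_other _ _ hi, Real.norm_eq_abs, abs_mul, hi1, mul_one, abs_of_nonneg (by linarith)] at this
      exact this
    rcases eq_or_lt_of_le h1 with rfl | h1'
    · have e1 : e * vv k e x 1 0 = 1 := by rw [hv]; ring
      have h6 : (1 : ℝ) ≤ ‖vv k e x 1‖ := by
        calc (1 : ℝ) = |e * vv k e x 1 0| := by rw [e1]; simp
          _ = _ := habs
          _ ≤ _ := hc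
      exact ⟨by linarith, by rw [e1]; linarith⟩
    · have h7 : 0 < ‖vv k e x t‖ := by linarith
      refine ⟨h7, ?_⟩
      rw [hv]
      nlinarith

/-- the contraction of the cap -/
noncomputable def capH (k : ℕ) {e : ℝ} (he : |e| = 1) : C(I × cap k e, cap k e) where
  toFun p := ⟨⟨‖vv k e (p.2 : S (k + 1)) p.1‖⁻¹ • vv k e (p.2 : S (k + 1)) p.1, by
      rw [mem_sphere_zero_iff_norm, norm_smul, norm_inv, norm_norm]
      exact inv_mul_cancel₀ (cap_key he p.2.2 p.1.2.1 p.1.2.2).1.ne'⟩, by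
      have h := cap_key he p.2.2 p.1.2.1 p.1.2.2
      show -1/2 < e * (‖vv k e (p.2 : S (k + 1)) p.1‖⁻¹ * vv k e (p.2 : S (k + 1)) p.1 0)
      rw [mul_left_comm, ← div_eq_inv_mul, lt_div_iff₀ h.1]
      exact h.2⟩
  continuous_toFun := by
    have hcont : Continuous fun p : I × cap k e => vv k e (p.2 : S (k + 1)) p.1 := by
      unfold vv
      have c1 : Continuous fun p : I × cap k e => ((p.2 : S (k + 1)) : Fin (k + 1) → ℝ) :=
        continuous_subtype_val.comp (continuous_subtype_val.comp continuous_snd)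
      have c2 : Continuous fun p : I × cap k e => (p.1 : ℝ) := continuous_subtype_val.comp continuous_fst
      exact ((continuous_const.sub c2).smul c1).add (c2.smul continuous_const)
    refine Continuous.subtype_mk (Continuous.subtype_mk ?_ _) _
    exact (hcont.norm.inv₀ fun p => (cap_key he p.2.2 p.1.2.1 p.1.2.2).1.ne').smul hcont

theorem pole_mem (k : ℕ) {e : ℝ} (he : |e| = 1) :
    (⟨pole k e, mem_sphere_zero_iff_norm.2 (norm_pole k he)⟩ : S (k + 1)) ∈ cap k e := by
  have hee : e * e = 1 := by rw [← abs_mul_abs_self, he, one_mul]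
  show -1/2 < e * pole k e 0
  rw [show pole k e 0 = e from if_pos rfl, hee]; norm_num

theorem contractible_cap (k : ℕ) {e : ℝ} (he : |e| = 1) : ContractibleSpace (cap k e) := by
  rw [contractible_iff_id_nullhomotopic]
  refine ⟨⟨⟨pole k e, mem_sphere_zero_iff_norm.2 (norm_pole k he)⟩, pole_mem k he⟩, ⟨⟨capH k he, ?_, ?_⟩⟩⟩
  · intro x
    apply Subtype.ext; apply Subtype.ext
    show ‖vv k e (x : S (k + 1)) ((0 : I) : ℝ)‖⁻¹ • vv k e (x : S (k + 1)) ((0 : I) : ℝ) = _
    have : vv k e ((x : S (k + 1)) : Fin (k + 1) → ℝ) ((0 : I) : ℝ) = x := by simp [vv]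
    rw [this, (x : S (k + 1)).norm_eq]
    simp
  · intro x
    apply Subtype.ext; apply Subtype.ext
    show ‖vv k e (x : S (k + 1)) ((1 : I) : ℝ)‖⁻¹ • vv k e (x : S (k + 1)) ((1 : I) : ℝ) = pole k e
    have : vv k e ((x : S (k + 1)) : Fin (k + 1) → ℝ) ((1 : I) : ℝ) = pole k e := by simp [vv]
    rw [this, norm_pole k he]
    simp

instance pathConnected_S2 : PathConnectedSpace (S 2) := by
  have hs : Function.Surjective (fun t : I => cr t) := fun s => cr_surj s
  have hI : PathConnectedSpace I :=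
    isPathConnected_iff_pathConnectedSpace.1 ((convex_Icc (0 : ℝ) 1).isPathConnected ⟨0, by simp⟩)
  exact hs.pathConnectedSpace (continuous_cr.comp continuous_subtype_val)

/-- the band `|x 0| < 1/2` of `S (k + 1)` from `S k` -/
noncomputable def band (k : ℕ) (p : Ioo (-1/2 : ℝ) (1/2) × S k) : S (k + 1) :=
  ⟨Fin.cons (p.1 : ℝ) (p.2 : Fin k → ℝ), by
    rw [mem_sphere_zero_iff_norm]
    apply le_antisymm
    · rw [pi_norm_le_iff_of_nonneg zero_le_one]
      intro i
      refine Fin.cases ?_ (fun j => ?_) i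
      · rw [Fin.cons_zero, Real.norm_eq_abs, abs_le]
        have := p.1.2; constructor <;> linarith [this.1, this.2]
      · rw [Fin.cons_succ]
        have := norm_le_pi_norm (p.2 : Fin k → ℝ) j
        rwa [p.2.norm_eq] at this
    · have h3 : ‖(p.2 : Fin k → ℝ)‖ ≤
          ‖(Fin.cons (p.1 : ℝ) (p.2 : Fin k → ℝ) : Fin (k + 1) → ℝ)‖ := by
        rw [pi_norm_le_iff_of_nonneg (norm_nonneg _)]
        intro j
        have := norm_le_pi_norm (Fin.cons (p.1 : ℝ) (p.2 : Fin k → ℝ) : Fin (k + 1) → ℝ) j.succ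
        rwa [Fin.cons_succ] at this
      have h4 := p.2.norm_eq
      linarith⟩

theorem continuous_band (k : ℕ) : Continuous (band k) := by
  apply Continuous.subtype_mk
  refine continuous_pi fun i => ?_
  refine Fin.cases ?_ (fun j => ?_) i
  · simp only [Fin.cons_zero]
    exact continuous_subtype_val.comp continuous_fst
  · simp only [Fin.cons_succ]
    exact (continuous_apply j).comp (continuous_subtype_val.comp continuous_snd)

theorem range_band (k : ℕ) : range (band k) = cap k 1 ∩ cap k (-1) := by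
  ext x
  constructor
  · rintro ⟨p, rfl⟩
    have h := p.1.2
    constructor
    · show -1/2 < 1 * (Fin.cons (p.1 : ℝ) (p.2 : Fin k → ℝ) : Fin (k + 1) → ℝ) 0
      rw [Fin.cons_zero]; linarith [h.1]
    · show -1/2 < -1 * (Fin.cons (p.1 : ℝ) (p.2 : Fin k → ℝ) : Fin (k + 1) → ℝ) 0
      rw [Fin.cons_zero]; linarith [h.2]
  · rintro ⟨h1, h2⟩
    have h1' : -1/2 < 1 * (x : Fin (k + 1) → ℝ) 0 := h1
    have h2' : -1/2 < -1 * (x : Fin (k + 1) → ℝ) 0 := h2
    have hy : ‖Fin.tail (x : Fin (k + 1) → ℝ)‖ = 1 := by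
      apply le_antisymm
      · rw [pi_norm_le_iff_of_nonneg zero_le_one]
        intro j
        have := norm_le_pi_norm (x : Fin (k + 1) → ℝ) j.succ
        rwa [x.norm_eq] at this
      · by_contra hcon
        push Not at hcon
        have hn1 : ‖(x : Fin (k + 1) → ℝ)‖ < 1 := by
          rw [pi_norm_lt_iff one_pos]
          intro i
          refine Fin.cases ?_ (fun j => ?_) i
          · rw [Real.norm_eq_abs, abs_lt]; constructor <;> linarith
          · exact lt_of_le_of_lt (norm_le_pi_norm (Fin.tail (x : Fin (k + 1) → ℝ)) j) hcon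
        exact absurd x.norm_eq hn1.ne
    refine ⟨(⟨(x : Fin (k + 1) → ℝ) 0, by constructor <;> linarith⟩,
      ⟨Fin.tail (x : Fin (k + 1) → ℝ), mem_sphere_zero_iff_norm.2 hy⟩), ?_⟩
    apply Subtype.ext
    exact Fin.cons_self_tail (x : Fin (k + 1) → ℝ)

theorem joined_band (k : ℕ) [PathConnectedSpace (S k)] {x y : S (k + 1)}
    (hx : x ∈ cap k 1 ∩ cap k (-1)) (hy : y ∈ cap k 1 ∩ cap k (-1)) :
    JoinedIn (cap k 1 ∩ cap k (-1)) x y := by
  have hI : PathConnectedSpace (Ioo (-1/2 : ℝ) (1/2)) :=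
    isPathConnected_iff_pathConnectedSpace.1 ((convex_Ioo _ _).isPathConnected ⟨0, by norm_num⟩)
  have h : IsPathConnected (range (band k)) := isPathConnected_range (continuous_band k)
  rw [range_band] at h
  exact h.joinedIn x hx y hy

/-- **(s3)** -/
theorem van0_S3 : Van0 (S 3) M 0 := by
  have h1 : ContractibleSpace (cap 2 1) := contractible_cap 2 (by simp)
  have h2 : ContractibleSpace (cap 2 (-1)) := contractible_cap 2 (by simp)
  exact van0_zero_of_cover (isOpen_cap 2 1) (isOpen_cap 2 (-1)) (cap_union 2)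
    (van0_contractible 0) (van0_contractible 0) (fun x hx y hy => joined_band 2 hx hy)

end sphere

end Crest.Agent.R251.L3
end

-- ▼ part R251/Joint19b
section

/-! # Row 251: the attaching sphere of the 3-cell -/

set_option autoImplicit false

open Set Metric Topology unitInterval
open Crest.Agent.R185.Att Crest.Agent.R185.Base
open Crest.GeometryTopology.DeckCochains

namespace Crest.Agent.R251.J19
open Crest.Agent.R251.Mod Crest.Agent.R251.Wl
open Crest.Agent.R251

noncomputable section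

/-- the tail `S 3 → D 2` -/
def tl3 : C(S 3, D 2) := (tl 2).comp (sd 3)



/-- away from the caps the tail is on the boundary circle -/
theorem norm_tl3 (x : S 3) (h : |(x : Fin 3 → ℝ) 0| < 1) : ‖(tl3 x : Fin 2 → ℝ)‖ = 1 := by
  refine le_antisymm (D.norm_le _) ?_
  by_contra h1
  rw [not_le] at h1
  have h2 : ‖(x : Fin 3 → ℝ)‖ < 1 := by
    rw [pi_norm_lt_iff one_pos]
    intro i
    refine Fin.cases ?_ (fun j => ?_) i
    · rwa [Real.norm_eq_abs]
    · exact lt_of_le_of_lt (norm_le_pi_norm (tl3 x : Fin 2 → ℝ) j) h1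
  rw [x.norm_eq] at h2
  exact lt_irrefl _ h2

variable {E : Type} [TopologicalSpace E]

/-- two discs with the same boundary give a sphere -/
theorem exists_glue (a b : C(D 2, E)) (h : ∀ y : S 2, a (sd 2 y) = b (sd 2 y)) :
    ∃ f : C(S 3, E), (∀ x : S 3, -1 < (x : Fin 3 → ℝ) 0 → f x = a (tl3 x)) ∧
      (∀ x : S 3, (x : Fin 3 → ℝ) 0 < 1 → f x = b (tl3 x)) := by
  have hb : ∀ x : S 3, |(x : Fin 3 → ℝ) 0| < 1 → a (tl3 x) = b (tl3 x) := fun x hx =>
    h ⟨tl3 x, mem_sphere_zero_iff_norm.2 (norm_tl3 x hx)⟩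
  have h0 : Continuous fun x : S 3 => (x : Fin 3 → ℝ) 0 :=
    (continuous_apply 0).comp continuous_subtype_val
  refine ⟨⟨fun x => if 0 ≤ (x : Fin 3 → ℝ) 0 then a (tl3 x) else b (tl3 x), ?_⟩, fun x hx => ?_,
    fun x hx => ?_⟩
  · refine Continuous.if_le (a.continuous.comp tl3.continuous) (b.continuous.comp tl3.continuous)
      continuous_const h0 fun x hx => hb x ?_
    rw [← hx, abs_zero]; exact one_pos
  · show (if _ then _ else _) = _
    split_ifs with h1
    · rfl
    · exact (hb x (abs_lt.2 ⟨hx, by linarith [not_le.1 h1]⟩)).symm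
  · show (if _ then _ else _) = _
    split_ifs with h1
    · exact hb x (abs_lt.2 ⟨by linarith, hx⟩)
    · rfl

/-- **the attaching sphere**: the `U`-cell and a disc of period zero in the Cayley complex -/
theorem exists_sphere : ∃ (h2 : C(D 2, EE2)) (f : C(S 3, EE2)),
    (∀ x : S 3, -1 < (x : Fin 3 → ℝ) 0 → f x = cU (tl3 x)) ∧
    (∀ x : S 3, (x : Fin 3 → ℝ) 0 < 1 → f x = h2 (tl3 x)) ∧
    ∀ (M : Type) [AddCommGroup M] (u : SingSimplex EE2 2 → M), Ar.AdmS inc u →
      ∀ β : SingSimplex (D 2) 1 → M, cochainCobdry β = Pr.pull h2 u → β (PC.ps Ar.cp) = 0 := by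
  obtain ⟨g, hg, hz⟩ := Ar.exists_disc_zero nz_U
  obtain ⟨f, hf1, hf2⟩ := exists_glue cU g fun y => by
    obtain ⟨t, rfl⟩ := cr_surj y
    rw [cU_sd, hg]
  exact ⟨g, f, hf1, hf2, hz⟩

end

end Crest.Agent.R251.J19
end

-- ▼ part R251/Coh539C
section

/-!
# R251 (S0388) (helper539): K2

`hvmu`: `H^2(EE3 f / GG; Tw μ) = 0` for the sphere `f` made of the `U`-cell and of a disc of area zero.
-/

set_option autoImplicit false
set_option linter.unusedSectionVars false

open CategoryTheory Simplicial Opposite Set Metric Topology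
open scoped unitInterval
open Crest.GeometryTopology.DeckCochains
open Crest.Agent.R251.Pr Crest.Agent.R251.Orb
open Crest.Agent.R251.Mod (crI EE1 EE2 EE3 gn wdd hwdd φ2 φ3 Kr Sk)
open Crest.Agent.R185.Base (cr)
open Crest.Agent.R185.Att Crest.Agent.R251.DR
open Crest.Agent.R251.Alg (GG mu)

namespace Crest.Agent.R251.Coh

noncomputable section

/-- the circle input of Lemma Z -/
theorem ce (M : Type) [AddCommGroup M] : CE M := fun κ h h0 => K34.detect2 κ h h0

variable {M : Type} [AddCommGroup M] [DistribMulAction GG M]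

/-- an equivariant 2-cocycle of `EE2` which vanishes on `Kr` and has zero holonomy on the `U`-cell is an
equivariant coboundary -/
theorem cob_of_hol {w : SingSimplex EE2 2 → M} (hw : EqC GG w) (hc : cochainCobdry w = 0)
    (h0 : ∀ s, InS Kr s → w s = 0) {β : SingSimplex (D 2) 1 → M}
    (hβ : cochainCobdry β = pull J19.cU w) (hβ0 : β (PC.ps Ar.cp) = 0) :
    ∃ ψ : SingSimplex EE2 1 → M, EqC GG ψ ∧ cochainCobdry ψ = w := by
  have hH : EqH GG (Hst GG (φ2 gn wdd hwdd)) := fun g p t => Hst_smul g p t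
  -- the pull back along the retraction
  set w2 : SingSimplex EE2 2 → M := pull (end1 (Hst GG (φ2 gn wdd hwdd))) w with hw2
  have e0 : end0 (Hst GG (φ2 gn wdd hwdd)) = ContinuousMap.id _ := by
    ext1 p; exact Hst_zero p
  have hp := cobdry_prism (Hst GG (φ2 gn wdd hwdd)) w
  rw [hc, prism_zero, add_zero, e0, pull_id] at hp
  have hE1 : EqM GG (end1 (Hst GG (φ2 gn wdd hwdd))) := fun g p => Hst_smul g p 1
  -- the radial stretch of the disc
  let ρ : C(D 2, D 2) := end1 (str 2)
  have hρ : ρ.comp Ar.cp = Ar.cp := by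
    ext1 t
    exact str_sd (cr t) 1
  have hchr : ∀ c : Fin 2, (end1 (Hst GG (φ2 gn wdd hwdd))).comp
      (⟨chr (φ2 gn wdd hwdd) 1 c, continuous_chr 1 c⟩ : C(D 2, EE2)) =
      (⟨chr (φ2 gn wdd hwdd) 1 c, continuous_chr 1 c⟩ : C(D 2, EE2)).comp ρ := by
    intro c
    ext1 x
    exact Hst_chr 1 c x 1
  obtain ⟨ψ, h4, h5⟩ := lemmaZ (φ := φ2 gn wdd hwdd) (ce M) (ω := w2) (hw.pull hE1)
    (by rw [hw2, cobdry_pull, hc]; rfl)
    (fun s hs => by
      refine h0 _ fun t => ?_
      rw [us_push]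
      obtain ⟨z, hz⟩ := Hst_one_mem (hs t)
      show Hst GG (φ2 gn wdd hwdd) (us s t, 1) ∈ Kr
      rw [hz]
      exact Or.inl ⟨z, rfl⟩)
    (fun c => by
      have e1 : pull (⟨chr (φ2 gn wdd hwdd) 1 c, continuous_chr 1 c⟩ : C(D 2, EE2)) w2 =
          pull ρ (pull (⟨chr (φ2 gn wdd hwdd) 1 c, continuous_chr 1 c⟩ : C(D 2, EE2)) w) := by
        rw [hw2, pull_pull, pull_pull, hchr c]
      rw [e1]
      fin_cases c
      · -- the relator `r`
        refine ⟨0, ?_, rfl⟩
        rw [Pr.cobdry_zero]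
        funext s
        symm
        refine h0 _ fun t => ?_
        rw [us_push, us_push]
        refine Or.inr (mem_iUnion.2 ⟨1, mem_iUnion.2 ⟨0, mem_iUnion.2 ⟨rfl, ?_⟩⟩⟩)
        exact ⟨_, rfl⟩
      · refine ⟨pull ρ β, ?_, ?_⟩
        · rw [cobdry_pull, hβ]
          rfl
        · show β (PC.ps (ρ.comp Ar.cp)) = 0
          rw [hρ, hβ0])
  refine ⟨ψ - prism (Hst GG (φ2 gn wdd hwdd)) w, h4.sub (hw.prism hH), ?_⟩
  rw [Pr.cobdry_sub, h5, hp]
  abel

/-- the pull back of a cocycle of the 3-complex to the sphere is a coboundary -/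
theorem pull_sphere {f : C(S 3, EE2)} {ω : SingSimplex (EE3 f) 2 → M} (hc : cochainCobdry ω = 0) :
    ∃ κ : SingSimplex (S 3) 1 → M,
      cochainCobdry κ = pull f (pull (inZc GG (φ3 f)) ω) := by
  let k : C(D 3, EE3 f) := ⟨chr (φ3 f) 1 (), continuous_chr 1 ()⟩
  obtain ⟨κ, hκ⟩ := van0_contractible (F := D 3) (M := M) 1 (pull k ω) (by
    rw [cobdry_pull, hc]; rfl)
  refine ⟨pull (sd 3) κ, ?_⟩
  rw [cobdry_pull, hκ, pull_pull, pull_pull]
  congr 1
  ext1 x
  show chr (φ3 f) 1 () (sd 3 x) = inZ (φ3 f) (f x)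
  rw [chr_sd, one_smul]
  rfl

/-- **K2**, general form: it is enough to make the cocycles zero on `Kr` -/
theorem hv1_of (h2 : C(D 2, EE2)) (f : C(S 3, EE2))
    (hA : ∀ x ∈ Ar.VA, f x = J19.cU (Ar.tS x)) (hB : ∀ x ∈ Ar.VB, f x = h2 (Ar.tS x))
    (hz : ∀ u : SingSimplex EE2 2 → M, Ar.AdmS J19.inc u → ∀ β : SingSimplex (D 2) 1 → M,
      cochainCobdry β = pull h2 u → β (PC.ps Ar.cp) = 0)
    (hKr : ∀ ω : SingSimplex EE2 2 → M, EqC GG ω → cochainCobdry ω = 0 →
      ∃ ψ : SingSimplex EE2 1 → M, EqC GG ψ ∧ cochainCobdry (ω - cochainCobdry ψ) = 0 ∧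
        EqC GG (ω - cochainCobdry ψ) ∧ ∀ s, InS Kr s → (ω - cochainCobdry ψ) s = 0) :
    HV GG (EE3 f) 1 M := by
  intro ω hω hc
  set w : SingSimplex EE2 2 → M := pull (inZc GG (φ3 f)) ω with hwdef
  have hw : EqC GG w := hω.pull eqM_inZc
  have hwc : cochainCobdry w = 0 := by rw [hwdef, cobdry_pull, hc]; rfl
  obtain ⟨ψ, hψ, h1c, h1e, h1z⟩ := hKr w hw hwc
  set w1 := w - cochainCobdry ψ with hw1
  -- the sphere
  obtain ⟨κ', hκ'⟩ := pull_sphere (f := f) hc
  have hκ : cochainCobdry (κ' - pull f ψ) = pull f w1 := by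
    rw [Pr.cobdry_sub, hκ', cobdry_pull, hw1]
    rfl
  obtain ⟨β₁, hβ₁⟩ := van0_contractible (F := D 2) (M := M) 1 (pull J19.cU w1) (by
    rw [cobdry_pull, h1c]; rfl)
  obtain ⟨β₂, hβ₂⟩ := van0_contractible (F := D 2) (M := M) 1 (pull h2 w1) (by
    rw [cobdry_pull, h1c]; rfl)
  have hadm : Ar.AdmS J19.inc w1 := ⟨h1c, fun s hs => h1z _ fun t => by
    have := hs t
    rw [J19.range_inc] at this
    rw [us_sx]
    exact this⟩
  have a1 := Ar.eq_of_primA hA hβ₁ (ψ := κ' - pull f ψ) (fun τ _ => by rw [hκ])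
  have a2 := Ar.eq_of_primB hB hβ₂ (ψ := κ' - pull f ψ) (fun τ _ => by rw [hκ])
  have a3 : β₁ (PC.ps Ar.cp) = 0 := by
    rw [← a1, a2]
    exact hz w1 hadm β₂ hβ₂
  obtain ⟨χ, hχ, hχ2⟩ := cob_of_hol h1e h1c h1z hβ₁ a3
  refine L3.exists_cobdry_of_restrict (G := GG) (φ := φ3 f) (n := 0) L3.van0_S3 hω hc
    (ψ := ψ + χ) (hψ.add hχ) ?_
  rw [Pr.cobdry_add, hχ2, hw1]
  show cochainCobdry ψ + (w - cochainCobdry ψ) = w
  abel

/-- **K2**: for the sphere of `J19.exists_sphere` -/
theorem hvmu (h2 : C(D 2, EE2)) (f : C(S 3, EE2))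
    (hA : ∀ x : S 3, -1 < (x : Fin 3 → ℝ) 0 → f x = J19.cU (J19.tl3 x))
    (hB : ∀ x : S 3, (x : Fin 3 → ℝ) 0 < 1 → f x = h2 (J19.tl3 x))
    (hz : ∀ (M : Type) [AddCommGroup M] (u : SingSimplex EE2 2 → M), Ar.AdmS J19.inc u →
      ∀ β : SingSimplex (D 2) 1 → M, cochainCobdry β = pull h2 u → β (PC.ps Ar.cp) = 0)
    {K : Type} [Field K] (ζ : Kˣ) (hζ : ζ ^ 6 = 1) (h3 : ζ ^ 3 ≠ 1) (h2' : ζ ^ 2 ≠ 1) :
    Fin.HV GG (EE3 f) (Fin.Tw (mu ζ hζ)) 1 :=
  hv1_of (M := Fin.Tw (mu ζ hζ)) h2 f hA hB (fun u hu β hβ => hz _ u hu β hβ)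
    (Kr.kr5_row ζ hζ h3 h2')

end

end Crest.Agent.R251.Coh
end

-- ▼ part R251/KH34
section

/-!
# R251 (S0388), block K1 (helper34): attaching one free orbit of 3-cells along a sphere
`f = top ∪ bot` : `H^3_G = 0`.
-/

set_option autoImplicit false
set_option linter.unusedSectionVars false

open CategoryTheory Simplicial Opposite Set Topology
open scoped unitInterval
open Crest.GeometryTopology.DeckCochains
open Crest.Agent.R185.Att Crest.Agent.R185.Base
open Crest.Agent.R251.PC Crest.Agent.R251.DR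
open Crest.Agent.R251.Mod (crI)
open Crest.Agent.R251.Pr (EqC HV us pull pull_apply cobdry_pull sx_surj)
open Crest.Agent.R251.Orb (Van0 SIn L2 incl ext0 pull_incl_eq_iff pull_ext0 van0_contractible us_injective)
open Crest.Agent.R251.Ar (cp)

namespace Crest.Agent.R251.KH34

noncomputable section

/-- the equator of `S 3` -/
def eq3 : C(I, S 3) where
  toFun t := ⟨Fin.cons (0 : ℝ) (crI t : Fin 2 → ℝ), by
    rw [mem_sphere_zero_iff_norm]
    apply le_antisymm
    · exact (norm_cons_le (0 : ℝ) (crI t : Fin 2 → ℝ)).2 ⟨by simp, (crI t).norm_eq.le⟩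
    · by_contra h
      have h2 := ((norm_cons_lt (0 : ℝ) (crI t : Fin 2 → ℝ)).1 (not_le.1 h)).2
      rw [(crI t).norm_eq] at h2
      exact lt_irrefl _ h2⟩
  continuous_toFun := by
    refine Continuous.subtype_mk (continuous_pi fun i => ?_) _
    refine Fin.cases ?_ (fun j => ?_) i
    · exact continuous_const
    · exact (continuous_apply j).comp (continuous_subtype_val.comp crI.continuous)

/-- the tail `S 3 → D 2` -/
def tlc : C(S 3, D 2) := (tl 2).comp (sd 3)

theorem tlc_eq3 : tlc.comp eq3 = cp := by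
  ext1 t
  apply Subtype.ext
  show Fin.tail (Fin.cons (0 : ℝ) (crI t : Fin 2 → ℝ) : Fin 3 → ℝ) = _
  rw [Fin.tail_cons]
  rfl

/-- the upper cap -/
def capA : Set (S 3) := setOf fun x : S 3 => -1 / 2 < (x : Fin 3 → ℝ) 0

/-- the lower cap -/
def capB : Set (S 3) := setOf fun x : S 3 => (x : Fin 3 → ℝ) 0 < 1 / 2

/-- detect3 (the form of #13798) -/
def Det3 (M : Type) [AddCommGroup M] : Prop :=
  ∀ κ : SingSimplex (S 3) 2 → M, cochainCobdry κ = 0 → ∀ βA βB : SingSimplex (S 3) 1 → M,
    (∀ s, SIn capA s → cochainCobdry βA s = κ s) →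
    (∀ s, SIn capB s → cochainCobdry βB s = κ s) →
    βA (ps eq3) = βB (ps eq3) → ∃ θ, cochainCobdry θ = κ

section
variable {M : Type} [AddCommGroup M]

theorem exists_prim {X : Type} [TopologicalSpace X] (A : Set X) [ContractibleSpace A] {n : ℕ}
    (κ : SingSimplex X (n + 1) → M) (hκ : cochainCobdry κ = 0) :
    ∃ β : SingSimplex X n → M, ∀ s, SIn A s → cochainCobdry β s = κ s := by
  obtain ⟨b, hb⟩ := van0_contractible (F := A) n (pull (incl A) κ) (by rw [cobdry_pull, hκ]; rfl)
  refine ⟨ext0 b, ?_⟩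
  rw [← pull_incl_eq_iff, ← cobdry_pull, pull_ext0, hb]

theorem exists_betas (κ : SingSimplex (S 3) 2 → M) (hκ : cochainCobdry κ = 0) :
    ∃ βA βB : SingSimplex (S 3) 1 → M,
      (∀ s, SIn capA s → cochainCobdry βA s = κ s) ∧
      (∀ s, SIn capB s → cochainCobdry βB s = κ s) := by
  haveI h1 : ContractibleSpace (L3.cap 2 1) := L3.contractible_cap 2 (by simp)
  haveI h2 : ContractibleSpace (L3.cap 2 (-1)) := L3.contractible_cap 2 (by simp)
  obtain ⟨βA, hA⟩ := exists_prim (L3.cap 2 1) κ hκ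
  obtain ⟨βB, hB⟩ := exists_prim (L3.cap 2 (-1)) κ hκ
  refine ⟨βA, βB, fun s hs => hA s (hs.mono ?_), fun s hs => hB s (hs.mono ?_)⟩
  · intro x hx
    show -1 / 2 < 1 * (x : Fin 3 → ℝ) 0
    rw [one_mul]; exact hx
  · intro x hx
    show -1 / 2 < -1 * (x : Fin 3 → ℝ) 0
    have : (x : Fin 3 → ℝ) 0 < 1 / 2 := hx
    linarith

instance : ContractibleSpace (D 2) :=
  (convex_closedBall (0 : Fin 2 → ℝ) 1).contractibleSpace ⟨0, by simp⟩

end

variable {G : Type} [Group G] {Z : Type} [TopologicalSpace Z] [MulAction G Z]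
  [ContinuousConstSMul G Z] {M : Type} [AddCommGroup M] [DistribMulAction G M]

theorem pull_congr_on {X : Type} [TopologicalSpace X] {Y : Type} [TopologicalSpace Y] {n : ℕ}
    {A : Set X} {f g : C(X, Y)} (h : ∀ x ∈ A, f x = g x) (u : SingSimplex Y n → M)
    {s : SingSimplex X n} (hs : SIn A s) : pull f u s = pull g u s := by
  rw [pull_apply, pull_apply]
  congr 1
  apply us_injective
  rw [Pr.us_push, Pr.us_push]
  ext1 t
  exact h _ (hs t)

theorem hv2_of (f : C(S 3, Z)) (top bot : C(D 2, Z))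
    (hA : ∀ x : S 3, -1 < (x : Fin 3 → ℝ) 0 → f x = top (tlc x))
    (hB : ∀ x : S 3, (x : Fin 3 → ℝ) 0 < 1 → f x = bot (tlc x))
    (hu : ∀ b : M, ∃ u : SingSimplex Z 2 → M, EqC G u ∧ cochainCobdry u = 0 ∧
      (∀ α : SingSimplex (D 2) 1 → M, cochainCobdry α = pull top u → α (ps cp) = b) ∧
      ∀ β : SingSimplex (D 2) 1 → M, cochainCobdry β = pull bot u → β (ps cp) = 0)
    (hdet : Det3 M) (hZ : HV G Z 2 M) : HV G (GAtt G (fun _ : Unit => f)) 2 M := by
  refine L2 hZ fun κ hκ => ?_
  obtain ⟨βA, βB, h1, h2⟩ := exists_betas (κ ()) (hκ ())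
  obtain ⟨u, hE, hc, hα, hβ⟩ := hu (βA (ps eq3) - βB (ps eq3))
  obtain ⟨α, hα1⟩ := van0_contractible (F := D 2) 1 (pull top u) (by rw [cobdry_pull, hc]; rfl)
  obtain ⟨β, hβ1⟩ := van0_contractible (F := D 2) 1 (pull bot u) (by rw [cobdry_pull, hc]; rfl)
  refine ⟨u, hE, hc, fun _ => hdet _ ?_ (βA - pull tlc α) (βB - pull tlc β) ?_ ?_ ?_⟩
  · rw [Pr.cobdry_sub, hκ, cobdry_pull, hc]
    show (0 : SingSimplex (S 3) 3 → M) - 0 = 0
    exact sub_zero _
  · intro s hs
    rw [Pr.cobdry_sub, Pi.sub_apply, Pi.sub_apply, h1 s hs, cobdry_pull, hα1, Pr.pull_pull]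
    congr 1
    exact pull_congr_on (fun x hx => (hA x (lt_trans (by norm_num) hx)).symm) u hs
  · intro s hs
    rw [Pr.cobdry_sub, Pi.sub_apply, Pi.sub_apply, h2 s hs, cobdry_pull, hβ1, Pr.pull_pull]
    congr 1
    exact pull_congr_on (fun x hx => (hB x (lt_trans hx (by norm_num))).symm) u hs
  · have e1 : pull tlc α (ps eq3) = βA (ps eq3) - βB (ps eq3) := by
      rw [← hα α hα1, ← tlc_eq3]; rfl
    have e2 : pull tlc β (ps eq3) = 0 := by
      rw [← hβ β hβ1, ← tlc_eq3]; rfl
    rw [Pi.sub_apply, Pi.sub_apply, e1, e2]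
    abel

end

end Crest.Agent.R251.KH34
end

-- ▼ part R251/Sph416
section

/-!
# R251: (s0) vanishing of the cohomology of the spheres `S m` in degrees `≥ m`

* `van0_succ_of_cover` : Mayer-Vietoris, plain form.
* `van0_S : 1 ≤ m → m ≤ n + 1 → Van0 (S m) M n`.
-/

set_option autoImplicit false
set_option linter.unusedSectionVars false

open CategoryTheory Simplicial Opposite Set Metric Topology
open scoped unitInterval
open Crest.GeometryTopology.DeckCochains
open Crest.Agent.R251.Pr (Dl sx us face sx_surj face_sx us_sx sx_us push pull cobdry_pull)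
open Crest.Agent.R251.Orb (Van0 van0_contractible SIn HVi incl sin_push_incl pull_incl_eq_iff pull_ext0
  ext0 us_injective)

namespace Crest.Agent.R251.L3

section gen

variable {X : Type} [TopologicalSpace X] {M : Type} [AddCommGroup M]

/-- partial primitives on an open set with vanishing cohomology -/
theorem exists_prim {A : Set X} {n : ℕ} (vA : Van0 A M n) (φ : SingSimplex X (n + 1) → M)
    (hc : ∀ s, SIn A s → cochainCobdry φ s = 0) :
    ∃ a : SingSimplex X n → M, ∀ s, SIn A s → cochainCobdry a s = φ s := by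
  obtain ⟨a', ha'⟩ := vA (pull (incl A) φ) (by
    rw [cobdry_pull]
    exact (pull_incl_eq_iff (φ' := (0 : SingSimplex X (n + 2) → M))).2 hc)
  refine ⟨ext0 a', ?_⟩
  rw [← pull_incl_eq_iff, ← cobdry_pull, pull_ext0, ha']

/-- Mayer-Vietoris vanishing -/
theorem van0_succ_of_cover {A B : Set X} (hA : IsOpen A) (hB : IsOpen B) (hAB : A ∪ B = univ)
    {n : ℕ} (vA : Van0 A M (n + 1)) (vB : Van0 B M (n + 1))
    (vAB : Van0 (A ∩ B : Set X) M n) : Van0 X M (n + 1) := by
  classical
  intro φ hc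
  obtain ⟨a, ha⟩ := exists_prim vA φ (fun s _ => by rw [hc]; rfl)
  obtain ⟨b, hb⟩ := exists_prim vB φ (fun s _ => by rw [hc]; rfl)
  obtain ⟨η, hη⟩ := exists_prim vAB (a - b) (fun s hs => by
    have h1 : SIn A s := hs.mono inter_subset_left
    have h2 : SIn B s := hs.mono inter_subset_right
    rw [Coh.cobdry_sub, Pi.sub_apply, ha s h1, hb s h2, sub_self])
  let ψ : SingSimplex X (n + 1) → M := fun s => if SIn A s then a s else b s + cochainCobdry η s
  have hψA : ∀ s : SingSimplex X (n + 1), SIn A s → ψ s = a s := fun s h => if_pos h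
  have hψB : ∀ s : SingSimplex X (n + 1), SIn B s → ψ s = (b + cochainCobdry η) s := fun s h => by
    by_cases h' : SIn A s
    · rw [hψA s h', Pi.add_apply, hη s (SIn.inter h' h), Pi.sub_apply]; abel
    · exact if_neg h'
  obtain ⟨χ, h1, -, -⟩ := sv X A B hA hB hAB M (n + 1) (φ - cochainCobdry ψ)
    (by rw [Coh.cobdry_sub, hc, Coh.cobdry_cobdry, sub_zero])
    (by
      rintro s (h | h)
      · have hs : SIn A s := h
        rw [Pi.sub_apply, Coh.cobdry_congr (fun i => hψA _ (hs.face i)), ha s hs, sub_self]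
      · have hs : SIn B s := h
        rw [Pi.sub_apply, Coh.cobdry_congr (fun i => hψB _ (hs.face i)), Coh.cobdry_add,
          Pi.add_apply, Coh.cobdry_cobdry, hb s hs, Pi.zero_apply, add_zero, sub_self])
  exact ⟨ψ + χ, by rw [Coh.cobdry_add, h1]; abel⟩

end gen

section sphere

open Crest.Agent.R185.Att Crest.Agent.R185.Base

variable {M : Type} [AddCommGroup M]

theorem band_mem (k : ℕ) (p : Ioo (-1/2 : ℝ) (1/2) × S k) :
    band k p ∈ cap k 1 ∩ cap k (-1) := by
  rw [← range_band]; exact ⟨p, rfl⟩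

/-- the projection of the band to the smaller sphere -/
noncomputable def bandPr (k : ℕ) : C((cap k 1 ∩ cap k (-1) : Set (S (k + 1))), S k) where
  toFun x := ⟨Fin.tail ((x : S (k + 1)) : Fin (k + 1) → ℝ), by
    have h : (x : S (k + 1)) ∈ range (band k) := by rw [range_band]; exact x.2
    obtain ⟨p, hp⟩ := h
    rw [← hp]
    show Fin.tail (Fin.cons (p.1 : ℝ) (p.2 : Fin k → ℝ) : Fin (k + 1) → ℝ) ∈ _
    rw [Fin.tail_cons]
    exact p.2.2⟩
  continuous_toFun := by
    refine Continuous.subtype_mk (continuous_pi fun j => ?_) _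
    exact (continuous_apply j.succ).comp (continuous_subtype_val.comp continuous_subtype_val)

/-- the equator -/
noncomputable def bandIn (k : ℕ) : C(S k, (cap k 1 ∩ cap k (-1) : Set (S (k + 1)))) where
  toFun y := ⟨band k (⟨0, by norm_num⟩, y), band_mem k _⟩
  continuous_toFun := by
    refine Continuous.subtype_mk ((continuous_band k).comp (Continuous.prodMk ?_ ?_)) _
    · exact continuous_const
    · exact continuous_id

/-- the deformation of the band onto the equator -/
noncomputable def bandH (k : ℕ) :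
    C(I × (cap k 1 ∩ cap k (-1) : Set (S (k + 1))), (cap k 1 ∩ cap k (-1) : Set (S (k + 1)))) where
  toFun p := ⟨band k (⟨(1 - (p.1 : ℝ)) * ((p.2 : S (k + 1)) : Fin (k + 1) → ℝ) 0, by
      have h1 : (-1/2 : ℝ) < 1 * ((p.2 : S (k + 1)) : Fin (k + 1) → ℝ) 0 := p.2.2.1
      have h2 : (-1/2 : ℝ) < -1 * ((p.2 : S (k + 1)) : Fin (k + 1) → ℝ) 0 := p.2.2.2
      have h3 := p.1.2.1
      have h4 := p.1.2.2
      have h5 : abs (((p.2 : S (k + 1)) : Fin (k + 1) → ℝ) 0) < 1/2 := by
        rw [abs_lt]; constructor <;> linarith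
      have h6 : abs ((1 - (p.1 : ℝ)) * ((p.2 : S (k + 1)) : Fin (k + 1) → ℝ) 0) < 1/2 := by
        rw [abs_mul, abs_of_nonneg (by linarith : (0 : ℝ) ≤ 1 - (p.1 : ℝ))]
        exact lt_of_le_of_lt (mul_le_of_le_one_left (abs_nonneg _) (by linarith)) h5
      rw [abs_lt] at h6
      constructor <;> linarith [h6.1, h6.2]⟩, bandPr k p.2), band_mem k _⟩
  continuous_toFun := by
    refine Continuous.subtype_mk ((continuous_band k).comp (Continuous.prodMk ?_ ?_)) _
    · refine Continuous.subtype_mk ?_ _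
      exact (continuous_const.sub (continuous_subtype_val.comp continuous_fst)).mul
        ((continuous_apply 0).comp (continuous_subtype_val.comp
          (continuous_subtype_val.comp continuous_snd)))
    · exact (bandPr k).continuous.comp continuous_snd

/-- the band is homotopy equivalent to the smaller sphere -/
noncomputable def bandEquiv (k : ℕ) :
    ContinuousMap.HomotopyEquiv (cap k 1 ∩ cap k (-1) : Set (S (k + 1))) (S k) where
  toFun := bandPr k
  invFun := bandIn k
  left_inv := by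
    refine ⟨ContinuousMap.Homotopy.symm ⟨bandH k, ?_, ?_⟩⟩
    · intro x
      apply Subtype.ext; apply Subtype.ext
      show (Fin.cons ((1 - ((0 : I) : ℝ)) * ((x : S (k + 1)) : Fin (k + 1) → ℝ) 0)
        (Fin.tail ((x : S (k + 1)) : Fin (k + 1) → ℝ)) : Fin (k + 1) → ℝ) =
          ((x : S (k + 1)) : Fin (k + 1) → ℝ)
      rw [show ((1 - ((0 : I) : ℝ)) * ((x : S (k + 1)) : Fin (k + 1) → ℝ) 0) =
        ((x : S (k + 1)) : Fin (k + 1) → ℝ) 0 by simp]
      exact Fin.cons_self_tail _
    · intro x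
      apply Subtype.ext; apply Subtype.ext
      show (Fin.cons ((1 - ((1 : I) : ℝ)) * ((x : S (k + 1)) : Fin (k + 1) → ℝ) 0)
        (Fin.tail ((x : S (k + 1)) : Fin (k + 1) → ℝ)) : Fin (k + 1) → ℝ) =
          (Fin.cons (0 : ℝ) (Fin.tail ((x : S (k + 1)) : Fin (k + 1) → ℝ)) : Fin (k + 1) → ℝ)
      congr 1
      simp
  right_inv := by
    have : (bandPr k).comp (bandIn k) = ContinuousMap.id _ := by
      ext1 y
      apply Subtype.ext
      show Fin.tail (Fin.cons (0 : ℝ) (y : Fin k → ℝ) : Fin (k + 1) → ℝ) = _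
      rw [Fin.tail_cons]; rfl
    rw [this]

theorem van0_S_succ {k n : ℕ} (h : Van0 (S k) M n) : Van0 (S (k + 1)) M (n + 1) := by
  have h1 : ContractibleSpace (cap k 1) := contractible_cap k (by simp)
  have h2 : ContractibleSpace (cap k (-1)) := contractible_cap k (by simp)
  exact van0_succ_of_cover (isOpen_cap k 1) (isOpen_cap k (-1)) (cap_union k)
    (van0_contractible _) (van0_contractible _) (Orb.Van0.of_equiv h (bandEquiv k))

theorem S1_coord (x : S 1) : (x : Fin 1 → ℝ) 0 = 1 ∨ (x : Fin 1 → ℝ) 0 = -1 := by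
  have h : ‖(x : Fin 1 → ℝ)‖ = 1 := x.norm_eq
  have h1 : (x : Fin 1 → ℝ) = fun _ => (x : Fin 1 → ℝ) 0 := by
    funext i; rw [Subsingleton.elim i 0]
  rw [h1, pi_norm_const, Real.norm_eq_abs] at h
  exact eq_or_eq_neg_of_abs_eq h

theorem van0_S1 (n : ℕ) : Van0 (S 1) M n := by
  have hf : Finite (S 1) := by
    refine Finite.of_injective (fun x : S 1 => decide (0 < (x : Fin 1 → ℝ) 0)) ?_
    intro x y h
    have h' : (0 < (x : Fin 1 → ℝ) 0) ↔ (0 < (y : Fin 1 → ℝ) 0) := by simpa using h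
    apply Subtype.ext
    funext i
    rw [Subsingleton.elim i 0]
    rcases S1_coord x with hx | hx <;> rcases S1_coord y with hy | hy <;> rw [hx, hy] at h' ⊢ <;>
      norm_num at h'
  have hd : DiscreteTopology (S 1) := Finite.instDiscreteTopology
  refine Orb.van0_of_const fun m τ => ?_
  have hc : ConnectedSpace (Dl m) := inferInstanceAs (ConnectedSpace (Orb.Dn m))
  have hx := fun t t' => PreconnectedSpace.constant (α := Dl m) inferInstance τ.continuous (x := t) (y := t')
  exact ⟨τ (stdSimplex.vertex 0), ContinuousMap.ext fun t => hx t _⟩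

/-- **(s0)** -/
theorem van0_S {m n : ℕ} (hm : 1 ≤ m) (hmn : m ≤ n + 1) : Van0 (S m) M n := by
  obtain ⟨k, rfl⟩ := Nat.exists_eq_add_of_le' hm
  clear hm
  induction k generalizing n with
  | zero => exact van0_S1 n
  | succ k ih =>
    obtain ⟨n', rfl⟩ : ∃ n', n = n' + 1 := ⟨n - 1, by omega⟩
    exact van0_S_succ (ih (by omega))

end sphere

end Crest.Agent.R251.L3
end

-- ▼ part R251/K1a391

/-!
# R251 (helper391): K1 in high degrees

`HV` of the Cayley complex in degrees `≥ 3` and of the 3-complex in degrees `≥ 4`.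
-/

set_option autoImplicit false

open Crest.Agent.R185.Att Crest.Agent.R251.Mod
open Crest.Agent.R251.Alg (GG)
open Crest.Agent.R251.Pr (HV)
open Crest.Agent.R251.Orb (Van0)

namespace Crest.Agent.R251.K1a

section gen

variable {G : Type} [Group G] {ι : Type} (gen : ι → G) {κ : Type} (wd : κ → List (ι × Bool))
  (hwd : ∀ j, val gen (wd j) = 1) {M : Type} [AddCommGroup M] [DistribMulAction G M]

/-- the Cayley complex has no cohomology above degree 2 (any presentation) -/
theorem hv_Z3 (n : ℕ) (hn : 2 ≤ n) : HV G (Z3 gen wd hwd) n M := by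
  obtain ⟨k, rfl⟩ : ∃ k, n = k + 1 := ⟨n - 1, by omega⟩
  exact Orb.L1 (Kr.hv_Z2 gen k) (L3.van0_S (by omega) (by omega))

/-- the 3-complex has no cohomology above degree 3 (any attaching map) -/
theorem hv_Z4 (f : C(S 3, Z3 gen wd hwd)) (n : ℕ) (hn : 3 ≤ n) : HV G (Z4 f) n M := by
  obtain ⟨k, rfl⟩ : ∃ k, n = k + 1 := ⟨n - 1, by omega⟩
  exact Orb.L1 (hv_Z3 gen wd hwd (k + 1) (by omega)) (L3.van0_S (by omega) (by omega))

end gen

variable {M : Type} [AddCommGroup M] [DistribMulAction GG M]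

/-- `H^{n+1}(EE2; M) = 0` for `n ≥ 2` -/
theorem hv_EE2 (n : ℕ) (hn : 2 ≤ n) : HV GG EE2 n M := hv_Z3 gn wdd hwdd n hn

/-- `H^{n+1}(EE3 f; M) = 0` for `n ≥ 3` -/
theorem hv_ge (f : C(S 3, EE2)) (n : ℕ) (hn : 3 ≤ n) : HV GG (EE3 f) n M :=
  hv_Z4 gn wdd hwdd f n hn

end Crest.Agent.R251.K1a
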