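import Mathlib
import Crest.Agent.R123.HBasic
import Crest.Agent.R185.Att3
import Crest.Prelude.Def_DeckCochains
import Crest.Agent.R251.PC752
import Crest.Agent.R251.Pr963b
import Crest.Agent.R251.LBg664
import Crest.Agent.R251.Joint19
import Crest.Agent.R251.Ar348C
import Crest.Agent.R251.Ar348D
import Crest.Agent.R251.L679
import Crest.Agent.R251.Kr34a
import Crest.Agent.R251.K1a391_Mg

-- ▼ part R123/Defs
section

set_option autoImplicit false

noncomputable section

namespace Crest.Agent.R123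

open Real (smoothTransition)

/-- `ℂ × ℝ` with the euclidean norm. -/
abbrev E3 : Type := WithLp 2 (ℂ × ℝ)

instance finrankE3 : Fact (Module.finrank ℝ E3 = 2 + 1) := by
  constructor
  rw [(WithLp.linearEquiv 2 ℝ (ℂ × ℝ)).finrank_eq]
  simp

instance finrankC : Fact (Module.finrank ℝ ℂ = 1 + 1) := finrank_real_complex_fact'

abbrev S2 : Type := Metric.sphere (0 : E3) 1
abbrev S1 : Type := Metric.sphere (0 : ℂ) 1

/-- The manifold. -/
abbrev Mfd : Type := S2 × S2 × S2 × S1

/-- horizontal coordinate of a point of `S²` -/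
def ze (x : S2) : ℂ := (x : E3).fst
/-- height of a point of `S²` -/
def he (x : S2) : ℝ := (x : E3).snd

lemma ze_he (x : S2) : ‖ze x‖ ^ 2 + he x ^ 2 = 1 := by
  have h : ‖(x : E3)‖ = 1 := by simpa using x.2
  have := WithLp.prod_norm_sq_eq_of_L2 (x : E3)
  rw [h] at this
  simp only [ze, he]
  rw [← sq_abs (x : E3).snd, ← Real.norm_eq_abs]
  linarith

lemma mem_S2 (a : ℂ) (b : ℝ) (h : ‖a‖ ^ 2 + b ^ 2 = 1) :
    (WithLp.toLp 2 (a, b) : E3) ∈ Metric.sphere (0 : E3) 1 := by
  have := WithLp.prod_norm_sq_eq_of_L2 (WithLp.toLp 2 (a, b) : E3)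
  simp only [mem_sphere_zero_iff_norm]
  have h2 : ‖(WithLp.toLp 2 (a, b) : E3)‖ ^ 2 = 1 := by
    rw [this]; simp only [WithLp.toLp_fst, WithLp.toLp_snd, Real.norm_eq_abs, sq_abs]; exact h
  nlinarith [norm_nonneg (WithLp.toLp 2 (a, b) : E3)]

/-- the point of `S²` with given coordinates -/
def mkS2 (a : ℂ) (b : ℝ) (h : ‖a‖ ^ 2 + b ^ 2 = 1) : S2 := ⟨WithLp.toLp 2 (a, b), mem_S2 a b h⟩

@[simp] lemma ze_mkS2 (a : ℂ) (b : ℝ) (h) : ze (mkS2 a b h) = a := rfl
@[simp] lemma he_mkS2 (a : ℂ) (b : ℝ) (h) : he (mkS2 a b h) = b := rfl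

lemma S2_ext {x y : S2} (h1 : ze x = ze y) (h2 : he x = he y) : x = y := by
  apply Subtype.ext
  apply (WithLp.ofLp_injective 2)
  exact Prod.ext h1 h2

def north : S2 := mkS2 0 1 (by simp)

/-- inverse stereographic projection `ℂ → S²` (misses only `north`). -/
def jj (v : ℂ) : S2 := mkS2 (2 * v / (1 + ‖v‖ ^ 2 : ℝ)) ((‖v‖ ^ 2 - 1) / (1 + ‖v‖ ^ 2)) (by
  have : (0:ℝ) < 1 + ‖v‖ ^ 2 := by positivity
  rw [norm_div, norm_mul, Complex.norm_real, Real.norm_of_nonneg this.le]
  simp only [Complex.norm_ofNat]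
  field_simp
  ring)

/-- the squaring map `u ↦ u²` of the Riemann sphere -/
def sqS (x : S2) : S2 := mkS2 ((ze x) ^ 2 / ((1 + he x ^ 2 : ℝ) : ℂ)) (2 * he x / (1 + he x ^ 2)) (by
  have : (0:ℝ) < 1 + he x ^ 2 := by positivity
  have h := ze_he x
  have h2 : ‖ze x‖ ^ 2 = 1 - he x ^ 2 := by linarith
  rw [norm_div, norm_pow, Complex.norm_real, Real.norm_of_nonneg this.le, div_pow, h2]
  field_simp
  ring)

/-- make a point of `S²` out of a vector (junk value `north` if the norm is not one). -/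
def toS2 (a : ℂ) (b : ℝ) : S2 :=
  if h : ‖a‖ ^ 2 + b ^ 2 = 1 then mkS2 a b h else north

/-! ### the wild function -/

/-- radial bump: `0` for `‖v‖ ≤ 4` or `256 ≤ ‖v‖`, `1` for `8 ≤ ‖v‖ ≤ 64`. -/
def bump (v : ℂ) : ℝ :=
  smoothTransition ((‖v‖ ^ 2 - 16) / 48) * smoothTransition ((65536 - ‖v‖ ^ 2) / 61440)

def ghat (v : ℂ) : ℂ := ((bump v / 2048 : ℝ) : ℂ) * v

/-- The wild `C¹` function: `G(v⁴) = 64 (G(v) - ghat v)`, `G = 0` on the unit disc. -/
def G (v : ℂ) : ℂ := ∑' n : ℕ, ((1 / 64 : ℝ) ^ n : ℝ) • ghat (v ^ (4 ^ n))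

/-- `G` transported to the sphere (`GS (jj v) = G v`, `GS north = 0`). -/
def GS (x : S2) : ℂ := G (ze x / ((1 - he x : ℝ) : ℂ))

/-! ### cut-offs -/

/-- cut-off identity: `cut z = z` for `‖z‖ ≤ 1/8`, `‖cut z‖ ≤ 1/4`. -/
def cut (z : ℂ) : ℂ := ((1 - smoothTransition ((64 * ‖z‖ ^ 2 - 1) / 3) : ℝ) : ℂ) * z

/-- exit function; first part `0` for `‖w₁‖ ≤ 1/512`, full for `‖w₁‖ ≥ 1/256`; second part `0` for
`‖w₂‖ ≤ 1/4096`, full for `‖w₂‖ ≥ 1/1024`. -/
def ex (w₁ w₂ : ℂ) : ℂ :=
  ((16 * smoothTransition ((2 ^ 18 * ‖w₁‖ ^ 2 - 1) / 3) / ‖w₁‖ ^ 2 : ℝ) : ℂ) * w₁ ^ 2 +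
  ((16 * smoothTransition ((2 ^ 24 * ‖w₂‖ ^ 2 - 1) / 15) / ‖w₂‖ : ℝ) : ℂ) * w₂

/-- `KK h = 0` for `h ≤ 15/17` (`|u| ≤ 4`), `KK h = 1` for `h ≥ 255/257` (`|u| ≥ 16`). -/
def KK (h : ℝ) : ℝ := smoothTransition ((4369 * h - 3855) / 480)

/-! ### the clock -/

/-- one hour: rotation by `2π/12` -/
def hour (t : ℝ) : ℂ := Complex.exp (((Real.pi / 6 * t : ℝ) : ℂ) * Complex.I)

/-- cosine of the angular distance to hour 4 -/
def rho (z : ℂ) : ℝ := (z * (starRingEnd ℂ) (hour 4)).re

/-- `SZ z = 1` on hours `[1,7]`, `0` on hours `[-4,0]` -/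
def SZ (z : ℂ) : ℝ := smoothTransition (1 + 2 * rho z)
/-- `sz z = 1` on hours `[3,5]`, `0` off hours `(2,6)` -/
def sz (z : ℂ) : ℝ := smoothTransition (4 * rho z - 2)
def gam (z : ℂ) : ℝ := SZ z * (1 - SZ (z * hour (-1)))
/-- `psi z = 1` only at hour 5 -/
def psi (z : ℂ) : ℝ := (1 + (z * (starRingEnd ℂ) (hour 5)).re) / 2

/-- speed of the clock -/
def tau (p : Mfd) : ℝ :=
  1 - psi (p.2.2.2 : ℂ) * smoothTransition (-he p.1) * ((1 - he p.2.1) * (1 - he p.2.2.1) / 4)

/-! ### the map -/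

/-- On the Riemann sphere: `u ↦ (k₁/k₂) u² + e`. Unnormalised data. -/
def UX (k₁ k₂ : ℝ) (e a : ℂ) (b : ℝ) : ℂ :=
  ((k₁ * k₂ : ℝ) : ℂ) * (a / 2) ^ 2 + e * ((k₂ ^ 2 * ((1 - b) / 2) ^ 2 : ℝ) : ℂ)
def UY (k₁ k₂ : ℝ) (e a : ℂ) (b : ℝ) : ℝ :=
  k₁ ^ 2 * ((1 + b) / 2) ^ 2 + 2 * k₁ * k₂ * ((a / 2) ^ 2 * (starRingEnd ℂ) e).re
    + ‖e‖ ^ 2 * (k₂ ^ 2 * ((1 - b) / 2) ^ 2)
def UZ (k₂ b : ℝ) : ℝ := k₂ ^ 2 * ((1 - b) / 2) ^ 2

def UU (k₁ k₂ : ℝ) (e : ℂ) (x : S2) : S2 :=
  toS2 (2 * UX k₁ k₂ e (ze x) (he x) / ((UY k₁ k₂ e (ze x) (he x) + UZ k₂ (he x) : ℝ) : ℂ))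
    ((UY k₁ k₂ e (ze x) (he x) - UZ k₂ (he x)) / (UY k₁ k₂ e (ze x) (he x) + UZ k₂ (he x)))

/-- section over the southern hemisphere -/
def sec (ξ : ℂ) : S2 := toS2 ξ (-Real.sqrt (1 - ‖ξ‖ ^ 2))

def k1 (z : ℂ) (x : S2) : ℝ := 1 - sz z + sz z * KK (he x)
def k2 (z : ℂ) (x : S2) : ℝ := 1 - sz z * KK (he x)

def nextZ (t : ℝ) (z : S1) : S1 := ⟨z * hour t, by
  have h : ‖(z : ℂ)‖ = 1 := by simpa using z.2
  simp only [mem_sphere_zero_iff_norm, norm_mul, h, hour, Complex.norm_exp_ofReal_mul_I, mul_one]⟩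

def xi1 (p : Mfd) : ℂ :=
  (SZ (p.2.2.2 : ℂ) : ℂ) * cut (8 * ze p.2.2.1) + (gam (p.2.2.2 : ℂ) : ℂ) * GS (sqS p.1)
def xi2 (p : Mfd) : ℂ :=
  (SZ (p.2.2.2 : ℂ) : ℂ) * cut (8 * ze p.2.1) + (gam (p.2.2.2 : ℂ) : ℂ) * (GS (sqS (sqS p.1)) / 8)

/-- THE MAP. -/
def F (p : Mfd) : Mfd :=
  (UU (k1 (p.2.2.2 : ℂ) p.1) (k2 (p.2.2.2 : ℂ) p.1) (ex (ze p.2.1) (ze p.2.2.1)) p.1,
   sec (xi1 p), sec (xi2 p), nextZ (tau p) p.2.2.2)



end Crest.Agent.R123
end
end

-- ▼ part R123/HomAPI
section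

set_option autoImplicit false

noncomputable section

open CategoryTheory AlgebraicTopology Limits
open scoped Simplicial

namespace Crest.Agent.R123

/-- standard topological simplex -/
abbrev Dl (n : ℕ) : Type := stdSimplex ℝ (Fin (n + 1))

/-- face inclusion -/
def face {n : ℕ} (i : Fin (n + 2)) : C(Dl n, Dl (n + 1)) :=
  ⟨stdSimplex.map (Fin.succAbove i), stdSimplex.continuous_map _⟩

/-- singular chain complex with real coefficients -/
abbrev KC (X : Type) [TopologicalSpace X] : ChainComplex (ModuleCat.{0} ℝ) ℕ :=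
  ((singularChainComplexFunctor (ModuleCat.{0} ℝ)).obj (ModuleCat.of ℝ ℝ)).obj (TopCat.of X)


/-- singular homology functor, as in the statement S0163 -/
abbrev HH (n : ℕ) (X : Type) [TopologicalSpace X] : ModuleCat.{0} ℝ :=
  ((singularHomologyFunctor (ModuleCat.{0} ℝ) n).obj (ModuleCat.of ℝ ℝ)).obj (TopCat.of X)


/-- the singular simplex of Mathlib attached to a continuous map -/
def smp {X : Type} [TopologicalSpace X] {n : ℕ} (s : C(Dl n, X)) :
    (TopCat.toSSet.obj (TopCat.of X)) _⦋n⦌ :=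
  ((TopCat.of X).toSSetObjEquiv (.op ⦋n⦌)).symm s

/-- generator of the singular chains -/
def gen {X : Type} [TopologicalSpace X] {n : ℕ} (s : C(Dl n, X)) : (KC X).X n :=
  (SSet.ιChainComplex (R := ModuleCat.of ℝ ℝ) (X := TopCat.toSSet.obj (TopCat.of X)) (smp s)).hom
    (1 : ℝ)

section
variable {X Y : Type} [TopologicalSpace X] [TopologicalSpace Y]









end

end Crest.Agent.R123
end
end

-- ▼ part R123/Cone
section

set_option autoImplicit false

noncomputable section

namespace Crest.Agent.R123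

lemma Cone.continuous_eval {n : ℕ} (i : Fin (n + 1)) : Continuous (fun x : Dl n => x i) :=
  (continuous_apply i).comp continuous_subtype_val

lemma Cone.face_apply {n : ℕ} (i : Fin (n + 2)) (x : Dl n) (y : Fin (n + 2)) :
    (face i x : Dl (n + 1)) y = ∑ j : Fin (n + 1), if Fin.succAbove i j = y then x j else 0 := by
  have h : (face i x : Dl (n + 1)) y = FunOnFinite.linearMap ℝ ℝ (Fin.succAbove i) x y := rfl
  rw [h, FunOnFinite.linearMap_apply_apply, Finset.sum_filter]

/-- the cone over the unit circle loop: `x ↦ (x₁+x₂) exp(2πi x₂/(x₁+x₂))` -/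
def coneC : C(Dl 2, ℂ) where
  toFun x := ((x 1 + x 2 : ℝ) : ℂ) *
    Complex.exp (((2 * Real.pi * (x 2 / (x 1 + x 2)) : ℝ) : ℂ) * Complex.I)
  continuous_toFun := by
    rw [continuous_iff_continuousAt]
    intro x
    have h1 : Continuous (fun x : Dl 2 => x 1 + x 2) :=
      (Cone.continuous_eval 1).add (Cone.continuous_eval 2)
    by_cases hx : x 1 + x 2 = 0
    · rw [ContinuousAt]
      have e : ((x 1 + x 2 : ℝ) : ℂ) *
          Complex.exp (((2 * Real.pi * (x 2 / (x 1 + x 2)) : ℝ) : ℂ) * Complex.I) = 0 := by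
        rw [hx]; simp
      rw [e]
      rw [tendsto_zero_iff_norm_tendsto_zero]
      have h2 : (fun x : Dl 2 => ‖((x 1 + x 2 : ℝ) : ℂ) *
          Complex.exp (((2 * Real.pi * (x 2 / (x 1 + x 2)) : ℝ) : ℂ) * Complex.I)‖) =
          fun x : Dl 2 => |x 1 + x 2| := by
        funext y
        rw [norm_mul, Complex.norm_exp_ofReal_mul_I, mul_one, Complex.norm_real, Real.norm_eq_abs]
      rw [h2]
      have h3 : Filter.Tendsto (fun x : Dl 2 => |x 1 + x 2|) (nhds x) (nhds |x 1 + x 2|) :=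
        (h1.abs).continuousAt
      rwa [hx, abs_zero] at h3
    · have h2 : ContinuousAt (fun x : Dl 2 => x 2 / (x 1 + x 2)) x :=
        (Cone.continuous_eval 2).continuousAt.div h1.continuousAt hx
      have h3 : ContinuousAt (fun x : Dl 2 => ((x 1 + x 2 : ℝ) : ℂ)) x :=
        (Complex.continuous_ofReal.comp h1).continuousAt
      have h4 : ContinuousAt (fun x : Dl 2 =>
          (((2 * Real.pi * (x 2 / (x 1 + x 2)) : ℝ) : ℂ) * Complex.I)) x :=
        (Complex.continuous_ofReal.continuousAt.comp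
          (continuousAt_const.mul h2)).mul continuousAt_const
      exact h3.mul (Complex.continuous_exp.continuousAt.comp h4)

/-- the loop `x ↦ exp(2πi x₁)` -/
def loopC : C(Dl 1, ℂ) where
  toFun x := Complex.exp (((2 * Real.pi * x 1 : ℝ) : ℂ) * Complex.I)
  continuous_toFun := by
    have h1 := Cone.continuous_eval (n := 1) 1
    exact Complex.continuous_exp.comp ((Complex.continuous_ofReal.comp
      (continuous_const.mul h1)).mul continuous_const)



lemma Cone.continuous_ze : Continuous ze :=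
  (WithLp.continuous_fst 2 ℂ ℝ).comp continuous_subtype_val

lemma Cone.continuous_he : Continuous he :=
  (WithLp.continuous_snd 2 ℂ ℝ).comp continuous_subtype_val

lemma Cone.continuous_mkS2 {T : Type} [TopologicalSpace T] (a : T → ℂ) (b : T → ℝ)
    (h : ∀ t, ‖a t‖ ^ 2 + b t ^ 2 = 1) (ha : Continuous a) (hb : Continuous b) :
    Continuous (fun t => mkS2 (a t) (b t) (h t)) := by
  apply Continuous.subtype_mk
  exact (WithLp.prod_continuous_toLp 2 ℂ ℝ).comp (ha.prodMk hb)

def jjC : C(ℂ, S2) := ⟨jj, by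
  apply Cone.continuous_mkS2
  · apply Continuous.div
    · fun_prop
    · fun_prop
    · intro v
      have : (0:ℝ) < 1 + ‖v‖ ^ 2 := by positivity
      exact_mod_cast this.ne'
  · apply Continuous.div
    · fun_prop
    · fun_prop
    · intro v
      positivity⟩


/-- reflection of the sphere in the equator -/
def flip (x : S2) : S2 := mkS2 (ze x) (-he x) (by simpa using ze_he x)

def flipC : C(S2, S2) := ⟨flip, by
  have h1 := Cone.continuous_ze
  have h2 := Cone.continuous_he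
  apply Cone.continuous_mkS2
  · exact h1
  · exact h2.neg⟩

/-- lower and upper hemisphere -/
def DU : C(Dl 2, S2) := jjC.comp coneC
def DV : C(Dl 2, S2) := (flipC.comp jjC).comp coneC

lemma Cone.f00 (x : Dl 1) : (face 0 x : Dl 2) 1 = x 0 := by
  rw [Cone.face_apply]
  rw [Fin.sum_univ_two]
  simp [Fin.succAbove]

lemma Cone.f01 (x : Dl 1) : (face 0 x : Dl 2) 2 = x 1 := by
  rw [Cone.face_apply]
  rw [Fin.sum_univ_two]
  simp [Fin.succAbove]

lemma Cone.f11 (x : Dl 1) : (face 1 x : Dl 2) 1 = 0 := by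
  rw [Cone.face_apply]
  rw [Fin.sum_univ_two]
  have h1 : Fin.succAbove (1 : Fin 3) 0 ≠ 1 := by decide
  have h2 : Fin.succAbove (1 : Fin 3) 1 ≠ 1 := by decide
  rw [if_neg h1, if_neg h2, add_zero]

lemma Cone.f12 (x : Dl 1) : (face 1 x : Dl 2) 2 = x 1 := by
  rw [Cone.face_apply]
  rw [Fin.sum_univ_two]
  have h1 : Fin.succAbove (1 : Fin 3) 0 ≠ 2 := by decide
  have h2 : Fin.succAbove (1 : Fin 3) 1 = 2 := by decide
  rw [if_neg h1, if_pos h2, zero_add]

lemma Cone.f21 (x : Dl 1) : (face 2 x : Dl 2) 1 = x 1 := by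
  rw [Cone.face_apply]
  rw [Fin.sum_univ_two]
  have h1 : Fin.succAbove (2 : Fin 3) 0 ≠ 1 := by decide
  have h2 : Fin.succAbove (2 : Fin 3) 1 = 1 := by decide
  rw [if_neg h1, if_pos h2, zero_add]

lemma Cone.f22 (x : Dl 1) : (face 2 x : Dl 2) 2 = 0 := by
  rw [Cone.face_apply]
  rw [Fin.sum_univ_two]
  have h1 : Fin.succAbove (2 : Fin 3) 0 ≠ 2 := by decide
  have h2 : Fin.succAbove (2 : Fin 3) 1 ≠ 2 := by decide
  rw [if_neg h1, if_neg h2, zero_add]

lemma Cone.exp_two_pi : Complex.exp (((2 * Real.pi : ℝ) : ℂ) * Complex.I) = 1 := by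
  have := Complex.exp_two_pi_mul_I
  rw [← this]
  congr 1
  push_cast
  ring

lemma coneC_face0 : coneC.comp (face 0) = loopC := by
  ext x
  have hx := stdSimplex.add_eq_one x
  change (((face 0 x : Dl 2) 1 + (face 0 x : Dl 2) 2 : ℝ) : ℂ) *
    Complex.exp (((2 * Real.pi * ((face 0 x : Dl 2) 2 /
      ((face 0 x : Dl 2) 1 + (face 0 x : Dl 2) 2)) : ℝ) : ℂ) * Complex.I) =
    Complex.exp (((2 * Real.pi * x 1 : ℝ) : ℂ) * Complex.I)
  rw [Cone.f00, Cone.f01, hx]
  simp

lemma coneC_face12 : coneC.comp (face 1) = coneC.comp (face 2) := by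
  ext x
  change (((face 1 x : Dl 2) 1 + (face 1 x : Dl 2) 2 : ℝ) : ℂ) *
    Complex.exp (((2 * Real.pi * ((face 1 x : Dl 2) 2 /
      ((face 1 x : Dl 2) 1 + (face 1 x : Dl 2) 2)) : ℝ) : ℂ) * Complex.I) =
    (((face 2 x : Dl 2) 1 + (face 2 x : Dl 2) 2 : ℝ) : ℂ) *
    Complex.exp (((2 * Real.pi * ((face 2 x : Dl 2) 2 /
      ((face 2 x : Dl 2) 1 + (face 2 x : Dl 2) 2)) : ℝ) : ℂ) * Complex.I)
  rw [Cone.f11, Cone.f12, Cone.f21, Cone.f22, zero_add, add_zero, zero_div, mul_zero]
  by_cases h : x 1 = 0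
  · rw [h]; simp
  · rw [div_self h, mul_one, Cone.exp_two_pi]
    simp




lemma flip_jj_of_norm {v : ℂ} (h : ‖v‖ = 1) : flip (jj v) = jj v := by
  apply S2_ext
  · rfl
  · simp only [flip, jj, he_mkS2, h]
    norm_num



end Crest.Agent.R123
end
end

-- ▼ part R123/HopfLift
section

set_option autoImplicit false

noncomputable section

namespace Crest.Agent.R123

/-- projector onto the tautological line over `y ∈ S²`:
`½ [[1+h, ζ],[conj ζ, 1-h]]` -/
def proj (y : S2) (ξ : ℂ × ℂ) : ℂ × ℂ :=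
  ((((1 + he y : ℝ) : ℂ) * ξ.1 + ze y * ξ.2) / 2,
   ((starRingEnd ℂ) (ze y) * ξ.1 + ((1 - he y : ℝ) : ℂ) * ξ.2) / 2)

/-- `ξ` is a lift of `s : K → S²` : a nonvanishing section of the pulled back line bundle -/
def IsLift {K : Type} [TopologicalSpace K] (s : C(K, S2)) (ξ : C(K, ℂ × ℂ)) : Prop :=
  ∀ x, ξ x ≠ 0 ∧ proj (s x) (ξ x) = ξ x

/-! ### a homotopy principle -/

/-- If `K` is contractible and `P` is a property of maps `K → M` which holds for constant maps
and which is locally constant along homotopies, then it holds for all maps. -/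
theorem homotopy_principle {K : Type} [TopologicalSpace K] [CompactSpace K] [ContractibleSpace K]
    {M : Type*} [PseudoMetricSpace M] (P : C(K, M) → Prop) (s : C(K, M))
    (hconst : ∀ x : K, P (ContinuousMap.const K (s x)))
    (hloc : ∀ Γ : C(unitInterval, C(K, M)), (∀ t x, Γ t x ∈ Set.range s) →
      ∀ t, ∀ᶠ t' in nhds t, P (Γ t') ↔ P (Γ t)) : P s := by
  obtain ⟨y, ⟨H⟩⟩ := id_nullhomotopic K
  let H' : C(unitInterval × K, M) := s.comp H.toContinuousMap
  let Γ : C(unitInterval, C(K, M)) := H'.curry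
  have hΓ : ∀ t x, Γ t x = s (H (t, x)) := fun t x => rfl
  have h0 : Γ 0 = s := by
    ext x
    rw [hΓ, H.apply_zero]
    rfl
  have h1 : Γ 1 = ContinuousMap.const K (s y) := by
    ext x
    rw [hΓ, H.apply_one]
    rfl
  have hlc : IsLocallyConstant (fun t : unitInterval => P (Γ t)) := by
    rw [IsLocallyConstant.iff_eventually_eq]
    intro t
    filter_upwards [hloc Γ (fun t x => ⟨_, (hΓ t x).symm⟩) t] with t' ht'
    exact propext ht'
  have := hlc.apply_eq_of_preconnectedSpace 0 1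
  simp only [h0, h1] at this
  rw [this]
  exact hconst y

/-! ### logarithms -/

theorem log_step {K : Type} [TopologicalSpace K] (g g' : C(K, ℂ))
    (hg : ∀ x, g x ≠ 0) (hgg' : ∀ x, ‖g' x - g x‖ < ‖g x‖)
    (h : ∃ l : C(K, ℂ), ∀ x, Complex.exp (l x) = g x) :
    ∃ l : C(K, ℂ), ∀ x, Complex.exp (l x) = g' x := by
  obtain ⟨l, hl⟩ := h
  have hslit : ∀ x, g' x / g x ∈ Complex.slitPlane := by
    intro x
    have h1 : g' x / g x = 1 + (g' x - g x) / g x := by
      field_simp [hg x]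
      ring
    rw [h1]
    apply Complex.mem_slitPlane_of_norm_lt_one
    rw [norm_div, div_lt_one (norm_pos_iff.2 (hg x))]
    exact hgg' x
  refine ⟨⟨fun x => l x + Complex.log (g' x / g x), ?_⟩, ?_⟩
  · refine l.continuous.add (Continuous.clog ?_ hslit)
    exact g'.continuous.div g.continuous hg
  · intro x
    show Complex.exp (l x + Complex.log (g' x / g x)) = g' x
    rw [Complex.exp_add, Complex.exp_log, hl x]
    · field_simp [hg x]
    · exact Complex.slitPlane_ne_zero (hslit x)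

theorem exists_log {K : Type} [TopologicalSpace K] [CompactSpace K] [ContractibleSpace K]
    (r : C(K, ℂ)) (hr : ∀ x, r x ≠ 0) : ∃ l : C(K, ℂ), ∀ x, Complex.exp (l x) = r x := by
  have hne : Nonempty K := inferInstance
  refine homotopy_principle (fun g => ∃ l : C(K, ℂ), ∀ x, Complex.exp (l x) = g x) r ?_ ?_
  · intro y
    exact ⟨ContinuousMap.const K (Complex.log (r y)), fun x => Complex.exp_log (hr y)⟩
  · intro Γ hΓ t
    have hnz : ∀ t x, Γ t x ≠ 0 := by
      intro t x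
      obtain ⟨y, hy⟩ := hΓ t x
      rw [← hy]
      exact hr y
    obtain ⟨x₀, -, hx₀⟩ := isCompact_univ.exists_isMinOn (Set.univ_nonempty (α := K))
      ((Γ t).continuous.norm.continuousOn)
    set m : ℝ := ‖Γ t x₀‖ with hm
    have hmpos : 0 < m := norm_pos_iff.2 (hnz t x₀)
    have hmle : ∀ x, m ≤ ‖Γ t x‖ := fun x => hx₀ (Set.mem_univ x)
    have hcont : Filter.Tendsto Γ (nhds t) (nhds (Γ t)) := Γ.continuous.tendsto t
    have hball := hcont.eventually (Metric.ball_mem_nhds (Γ t) (half_pos hmpos))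
    filter_upwards [hball] with t' ht'
    have hd : ∀ x, ‖Γ t' x - Γ t x‖ < m / 2 := by
      intro x
      have h1 : dist (Γ t' x) (Γ t x) ≤ dist (Γ t') (Γ t) :=
        ContinuousMap.dist_apply_le_dist x
      rw [← dist_eq_norm]
      exact lt_of_le_of_lt h1 ht'
    constructor
    · intro h
      refine log_step (Γ t') (Γ t) (hnz t') ?_ h
      intro x
      have h1 := hd x
      have h2 := hmle x
      have h3 : ‖Γ t x‖ ≤ ‖Γ t' x‖ + ‖Γ t' x - Γ t x‖ := by
        have := norm_sub_le (Γ t' x) (Γ t' x - Γ t x)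
        simpa using this
      rw [norm_sub_rev]
      linarith
    · intro h
      refine log_step (Γ t) (Γ t') (hnz t) ?_ h
      intro x
      have h1 := hd x
      have h2 := hmle x
      linarith

/-! ### lifts to the line bundle -/

lemma he_ze_sq (y : S2) : ((he y : ℝ) : ℂ) ^ 2 + ze y * (starRingEnd ℂ) (ze y) = 1 := by
  have h := ze_he y
  rw [Complex.mul_conj, Complex.normSq_eq_norm_sq]
  have h2 : he y ^ 2 + ‖ze y‖ ^ 2 = 1 := by linarith
  exact_mod_cast h2

lemma proj_proj (y : S2) (ξ : ℂ × ℂ) : proj y (proj y ξ) = proj y ξ := by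
  have h := he_ze_sq y
  ext
  · simp only [proj]
    push_cast
    linear_combination (ξ.1 / 4) * h
  · simp only [proj]
    push_cast
    linear_combination (ξ.2 / 4) * h

lemma hopf_continuous_ze : Continuous (ze : S2 → ℂ) :=
  (WithLp.prod_continuous_ofLp 2 ℂ ℝ).fst.comp continuous_subtype_val

lemma hopf_continuous_he : Continuous (he : S2 → ℝ) :=
  (WithLp.prod_continuous_ofLp 2 ℂ ℝ).snd.comp continuous_subtype_val

lemma dist_sq_S2 (y y' : S2) :
    dist y y' ^ 2 = 2 - 2 * (he y * he y' + ((starRingEnd ℂ) (ze y') * ze y).re) := by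
  have h1 : dist y y' = dist (y : E3) (y' : E3) := rfl
  rw [h1, dist_eq_norm, WithLp.prod_norm_sq_eq_of_L2]
  have e1 : ((y : E3) - (y' : E3)).fst = ze y - ze y' := rfl
  have e2 : ((y : E3) - (y' : E3)).snd = he y - he y' := rfl
  rw [e1, e2, Real.norm_eq_abs, sq_abs]
  have h2 := ze_he y
  have h3 := ze_he y'
  rw [← Complex.normSq_eq_norm_sq] at h2 h3 ⊢
  rw [Complex.normSq_apply] at h2 h3 ⊢
  simp only [Complex.sub_re, Complex.sub_im, Complex.mul_re, Complex.conj_re, Complex.conj_im]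
  linarith

lemma exists_ne_zero_proj (y : S2) : ∃ ξ : ℂ × ℂ, ξ ≠ 0 ∧ proj y ξ = ξ := by
  by_cases hy : he y = -1
  · refine ⟨(0, 1), by simp, ?_⟩
    have hz : ze y = 0 := by
      have := ze_he y
      rw [hy] at this
      have h2 : ‖ze y‖ = 0 := by nlinarith [norm_nonneg (ze y)]
      exact norm_eq_zero.1 h2
    ext
    · simp [proj, hz]
    · simp only [proj, hz, hy]
      norm_num
  · refine ⟨(((1 + he y : ℝ) : ℂ), (starRingEnd ℂ) (ze y)), ?_, ?_⟩
    · intro h
      have h1 := congrArg Prod.fst h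
      simp only [Prod.fst_zero] at h1
      apply hy
      have : (1 + he y : ℝ) = 0 := by exact_mod_cast h1
      linarith
    · have h := he_ze_sq y
      ext
      · simp only [proj]
        push_cast
        linear_combination (1 / 2) * h
      · simp only [proj]
        push_cast
        ring

lemma proj_ne_zero {y y' : S2} (hyy' : dist y y' < 2) {ξ : ℂ × ℂ} (hξ : ξ ≠ 0)
    (h : proj y ξ = ξ) : proj y' ξ ≠ 0 := by
  intro h'
  have a1 := congrArg Prod.fst h
  have a2 := congrArg Prod.snd h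
  have b1 := congrArg Prod.fst h'
  have b2 := congrArg Prod.snd h'
  simp only [proj, Prod.fst_zero, Prod.snd_zero] at a1 a2 b1 b2
  set a := ξ.1 with ha
  set b := ξ.2 with hb
  set z := ze y with hz
  set z' := ze y' with hz'
  set p : ℝ := he y with hp
  set p' : ℝ := he y' with hp'
  push_cast at a1 a2 b1 b2
  -- conjugated equations
  have a1c := congrArg (starRingEnd ℂ) a1
  have a2c := congrArg (starRingEnd ℂ) a2
  have b1c := congrArg (starRingEnd ℂ) b1
  have b2c := congrArg (starRingEnd ℂ) b2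
  simp only [map_div₀, map_add, map_mul, map_sub, map_one, Complex.conj_conj, map_zero,
    Complex.conj_ofReal, map_ofNat] at a1c a2c b1c b2c
  set ac := (starRingEnd ℂ) a with hac
  set bc := (starRingEnd ℂ) b with hbc
  set zc := (starRingEnd ℂ) z with hzc
  set zc' := (starRingEnd ℂ) z' with hzc'
  have hN : (a * ac + b * bc) * (1 + p * p' + (zc' * z + z' * zc) / 2) = 0 := by
    linear_combination 2 * ac * b1 + 2 * bc * b2 + p' * (2 * ac * a1 - 2 * b * a2c) +
      (zc' / 2) * (2 * bc * a1 + 2 * a * a2c) + (z' / 2) * (2 * b * a1c + 2 * ac * a2)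
  have hNpos : a * ac + b * bc ≠ 0 := by
    rw [hac, hbc, Complex.mul_conj, Complex.mul_conj]
    intro h0
    have h1 : Complex.normSq a + Complex.normSq b = 0 := by exact_mod_cast h0
    have h2 := Complex.normSq_nonneg a
    have h3 := Complex.normSq_nonneg b
    have h4 : a = 0 := Complex.normSq_eq_zero.1 (by linarith)
    have h5 : b = 0 := Complex.normSq_eq_zero.1 (by linarith)
    exact hξ (Prod.ext h4 h5)
  have h1 : (1 + p * p' + (zc' * z + z' * zc) / 2 : ℂ) = 0 :=
    (mul_eq_zero.1 hN).resolve_left hNpos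
  have h2 : 1 + p * p' + (zc' * z).re = 0 := by
    have h3 := congrArg Complex.re h1
    have h4 : (z' * zc).re = (zc' * z).re := by
      rw [hzc, hzc']
      simp only [Complex.mul_re, Complex.conj_re, Complex.conj_im]
      ring
    simp only [Complex.add_re, Complex.one_re, Complex.zero_re, ← Complex.ofReal_mul,
      Complex.ofReal_re, Complex.div_ofNat_re, h4] at h3
    linarith
  have h5 := dist_sq_S2 y y'
  have h6 : dist y y' ^ 2 = 4 := by
    rw [h5]
    simp only [← hz, ← hz', ← hp, ← hp']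
    linarith
  nlinarith [dist_nonneg (x := y) (y := y')]

theorem exists_lift {K : Type} [TopologicalSpace K] [CompactSpace K] [ContractibleSpace K]
    (s : C(K, S2)) : ∃ ξ : C(K, ℂ × ℂ), IsLift s ξ := by
  refine homotopy_principle (fun g => ∃ ξ : C(K, ℂ × ℂ), IsLift g ξ) s ?_ ?_
  · intro y
    obtain ⟨ξ, h1, h2⟩ := exists_ne_zero_proj (s y)
    exact ⟨ContinuousMap.const K ξ, fun x => ⟨h1, h2⟩⟩
  · intro Γ _ t
    have hcont : Filter.Tendsto Γ (nhds t) (nhds (Γ t)) := Γ.continuous.tendsto t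
    have hball := hcont.eventually (Metric.ball_mem_nhds (Γ t) (zero_lt_two : (0 : ℝ) < 2))
    have hstep : ∀ g g' : C(K, S2), dist g g' < 2 → (∃ ξ : C(K, ℂ × ℂ), IsLift g ξ) →
        ∃ ξ : C(K, ℂ × ℂ), IsLift g' ξ := by
      rintro g g' hgg' ⟨ξ, hξ⟩
      refine ⟨⟨fun x => proj (g' x) (ξ x), ?_⟩, ?_⟩
      · unfold proj
        have h1 : Continuous fun x => ze (g' x) := hopf_continuous_ze.comp g'.continuous
        have h2 : Continuous fun x => he (g' x) := hopf_continuous_he.comp g'.continuous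
        have h3 := ξ.continuous
        fun_prop
      · intro x
        refine ⟨?_, proj_proj _ _⟩
        exact proj_ne_zero (lt_of_le_of_lt (ContinuousMap.dist_apply_le_dist x) hgg') (hξ x).1
          (hξ x).2
    filter_upwards [hball] with t' ht'
    exact ⟨hstep _ _ ht', hstep _ _ (by rw [dist_comm]; exact ht')⟩

end Crest.Agent.R123
end
end

-- ▼ part R123/HopfCocycle
section

set_option autoImplicit false

noncomputable section

namespace Crest.Agent.R123

instance contractible_Dl (n : ℕ) : ContractibleSpace (Dl n) :=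
  (convex_stdSimplex ℝ (Fin (n + 1))).contractibleSpace ⟨_, single_mem_stdSimplex ℝ 0⟩

/-! ### Hermitian products of lifts -/

/-- Hermitian product on `ℂ × ℂ` -/
def herm (ξ η : ℂ × ℂ) : ℂ := (starRingEnd ℂ) ξ.1 * η.1 + (starRingEnd ℂ) ξ.2 * η.2

lemma herm_self (ξ : ℂ × ℂ) : herm ξ ξ = ((‖ξ.1‖ ^ 2 + ‖ξ.2‖ ^ 2 : ℝ) : ℂ) := by
  simp only [herm]
  rw [Complex.conj_mul', Complex.conj_mul']
  push_cast
  ring

lemma herm_self_pos {ξ : ℂ × ℂ} (h : ξ ≠ 0) : 0 < ‖ξ.1‖ ^ 2 + ‖ξ.2‖ ^ 2 := by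
  by_contra hn
  have h1 : ‖ξ.1‖ ^ 2 = 0 := by nlinarith [sq_nonneg ‖ξ.1‖, sq_nonneg ‖ξ.2‖]
  have h2 : ‖ξ.2‖ ^ 2 = 0 := by nlinarith [sq_nonneg ‖ξ.1‖, sq_nonneg ‖ξ.2‖]
  apply h
  apply Prod.ext
  · simpa using h1
  · simpa using h2

lemma herm_self_ne {ξ : ℂ × ℂ} (h : ξ ≠ 0) : herm ξ ξ ≠ 0 := by
  rw [herm_self]
  exact_mod_cast (herm_self_pos h).ne'

lemma herm_smul (ξ η : ℂ × ℂ) (μ : ℂ) : herm ξ (μ • η) = μ * herm ξ η := by
  simp only [herm, Prod.smul_fst, Prod.smul_snd, smul_eq_mul]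
  ring

lemma proj_det {y : S2} {ξ η : ℂ × ℂ} (hξ : proj y ξ = ξ) (hη : proj y η = η) :
    ξ.1 * η.2 = ξ.2 * η.1 := by
  have a1 := congrArg Prod.fst hξ
  have a2 := congrArg Prod.snd hξ
  have b1 := congrArg Prod.fst hη
  have b2 := congrArg Prod.snd hη
  simp only [proj] at a1 a2 b1 b2
  push_cast at a1 a2 b1 b2
  have e1 : (1 + (he y : ℂ)) * (ξ.1 * η.2 - ξ.2 * η.1) = 0 := by
    linear_combination -2 * ξ.1 * b2 + 2 * η.1 * a2
  have e2 : (1 - (he y : ℂ)) * (ξ.1 * η.2 - ξ.2 * η.1) = 0 := by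
    linear_combination -2 * η.2 * a1 + 2 * ξ.2 * b1
  linear_combination (e1 + e2) / 2

lemma eq_smul {y : S2} {ξ η : ℂ × ℂ} (hξ0 : ξ ≠ 0) (hξ : proj y ξ = ξ) (hη : proj y η = η) :
    η = (herm ξ η / herm ξ ξ) • ξ := by
  have hd := proj_det hξ hη
  have h0 := herm_self_ne hξ0
  apply Prod.ext
  · simp only [Prod.smul_fst, smul_eq_mul]
    rw [div_mul_eq_mul_div, eq_div_iff h0]
    simp only [herm]
    linear_combination (-(starRingEnd ℂ) ξ.2) * hd
  · simp only [Prod.smul_snd, smul_eq_mul]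
    rw [div_mul_eq_mul_div, eq_div_iff h0]
    simp only [herm]
    linear_combination ((starRingEnd ℂ) ξ.1) * hd

lemma herm_ne {y : S2} {ξ η : ℂ × ℂ} (hξ0 : ξ ≠ 0) (hη0 : η ≠ 0) (hξ : proj y ξ = ξ)
    (hη : proj y η = η) : herm ξ η ≠ 0 := by
  intro h
  apply hη0
  rw [eq_smul hξ0 hξ hη, h, zero_div, zero_smul]

section
variable {K : Type} [TopologicalSpace K]

/-- pointwise Hermitian product -/
def rr (ξ η : C(K, ℂ × ℂ)) : C(K, ℂ) :=
  ⟨fun x => herm (ξ x) (η x), by unfold herm; fun_prop⟩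

@[simp] lemma rr_apply (ξ η : C(K, ℂ × ℂ)) (x : K) : rr ξ η x = herm (ξ x) (η x) := rfl

lemma rr_ne {s : C(K, S2)} {ξ η : C(K, ℂ × ℂ)} (hξ : IsLift s ξ) (hη : IsLift s η) (x : K) :
    rr ξ η x ≠ 0 := herm_ne (hξ x).1 (hη x).1 (hξ x).2 (hη x).2

lemma IsLift.comp {K' : Type} [TopologicalSpace K'] {s : C(K, S2)} {ξ : C(K, ℂ × ℂ)}
    (h : IsLift s ξ) (g : C(K', K)) : IsLift (s.comp g) (ξ.comp g) := fun x => h (g x)

/-- the quotient of two lifts -/
lemma IsLift.exists_mul {s : C(K, S2)} {ξ η : C(K, ℂ × ℂ)} (hξ : IsLift s ξ) (hη : IsLift s η) :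
    ∃ μ : C(K, ℂ), (∀ x, μ x ≠ 0) ∧ ∀ x, η x = μ x • ξ x := by
  refine ⟨⟨fun x => herm (ξ x) (η x) / herm (ξ x) (ξ x), ?_⟩, fun x => ?_, fun x => ?_⟩
  · exact Continuous.div (rr ξ η).continuous (rr ξ ξ).continuous
      (fun x => herm_self_ne (hξ x).1)
  · exact div_ne_zero (rr_ne hξ hη x) (herm_self_ne (hξ x).1)
  · exact eq_smul (hξ x).1 (hξ x).2 (hη x).2

/-! ### logarithms -/

lemma log_unique [PreconnectedSpace K] (l l' : C(K, ℂ))
    (h : ∀ x, Complex.exp (l x) = Complex.exp (l' x)) (x y : K) : l x - l' x = l y - l' y := by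
  have h1 : ∀ x, ∃ n : ℤ, l x = l' x + n * (2 * Real.pi * Complex.I) :=
    fun x => Complex.exp_eq_exp_iff_exists_int.1 (h x)
  choose n hn using h1
  have hpi : (2 * (Real.pi : ℂ) * Complex.I) ≠ 0 := by
    simp [Real.pi_ne_zero, Complex.I_ne_zero]
  have hc : Continuous n := by
    rw [Int.isClosedEmbedding_coe_real.isEmbedding.continuous_iff]
    have : (fun x => ((n x : ℤ) : ℝ)) =
        fun x => ((l x - l' x) / (2 * (Real.pi : ℂ) * Complex.I)).re := by
      funext x
      rw [hn x, add_sub_cancel_left, mul_div_assoc, div_self hpi, mul_one]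
      simp
    show Continuous (fun x => ((n x : ℤ) : ℝ))
    rw [this]
    fun_prop
  have hxy : n x = n y := PreconnectedSpace.constant ‹_› hc
  rw [hn x, hn y, hxy]
  ring

end

/-- vertices of the interval -/
abbrev vx {n : ℕ} (i : Fin (n + 1)) : Dl n := stdSimplex.vertex i

/-- increment of the argument of a nonvanishing function along the interval -/
def inc (r : C(Dl 1, ℂ)) : ℝ :=
  open Classical in
  if h : ∀ x, r x ≠ 0 then
    ((exists_log r h).choose (vx 1) - (exists_log r h).choose (vx 0)).im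
  else 0

lemma inc_eq (r : C(Dl 1, ℂ)) (l : C(Dl 1, ℂ)) (hl : ∀ x, Complex.exp (l x) = r x) :
    inc r = (l (vx 1) - l (vx 0)).im := by
  have h : ∀ x, r x ≠ 0 := fun x => by rw [← hl x]; exact Complex.exp_ne_zero _
  unfold inc
  rw [dif_pos h]
  have h2 := (exists_log r h).choose_spec
  have h3 := log_unique (exists_log r h).choose l (fun x => by rw [h2 x, hl x]) (vx 1) (vx 0)
  have h4 : (exists_log r h).choose (vx 1) - (exists_log r h).choose (vx 0) =
      l (vx 1) - l (vx 0) := by linear_combination h3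
  rw [h4]

lemma inc_mul (r r' : C(Dl 1, ℂ)) (h : ∀ x, r x ≠ 0) (h' : ∀ x, r' x ≠ 0) :
    inc (r * r') = inc r + inc r' := by
  obtain ⟨l, hl⟩ := exists_log r h
  obtain ⟨l', hl'⟩ := exists_log r' h'
  rw [inc_eq r l hl, inc_eq r' l' hl', inc_eq (r * r') (l + l') (fun x => by
    simp [Complex.exp_add, hl x, hl' x])]
  simp only [ContinuousMap.add_apply, Complex.sub_im, Complex.add_im]
  ring

lemma face_vx {n : ℕ} (i : Fin (n + 2)) (j : Fin (n + 1)) :
    face i (vx j) = vx (i.succAbove j) := by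
  show stdSimplex.map _ _ = _
  exact stdSimplex.map_vertex _ _

lemma inc_face_sum (μ : C(Dl 2, ℂ)) (h : ∀ x, μ x ≠ 0) :
    ∑ i : Fin 3, ((-1 : ℝ) ^ (i : ℕ)) * inc (μ.comp (face i)) = 0 := by
  obtain ⟨l, hl⟩ := exists_log μ h
  have h1 : ∀ i : Fin 3, inc (μ.comp (face i)) =
      (l (vx (i.succAbove 1)) - l (vx (i.succAbove 0))).im := by
    intro i
    rw [inc_eq (μ.comp (face i)) (l.comp (face i)) (fun x => hl _)]
    simp only [ContinuousMap.comp_apply, face_vx]
  have e00 : (0 : Fin 3).succAbove (0 : Fin 2) = 1 := rfl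
  have e01 : (0 : Fin 3).succAbove (1 : Fin 2) = 2 := rfl
  have e10 : (1 : Fin 3).succAbove (0 : Fin 2) = 0 := rfl
  have e11 : (1 : Fin 3).succAbove (1 : Fin 2) = 2 := rfl
  have e20 : (2 : Fin 3).succAbove (0 : Fin 2) = 0 := rfl
  have e21 : (2 : Fin 3).succAbove (1 : Fin 2) = 1 := rfl
  simp only [h1, Fin.sum_univ_three, e00, e01, e10, e11, e20, e21]
  simp only [Complex.sub_im, Fin.val_zero, Fin.val_one, Fin.val_two]
  ring

/-! ### the cocycle -/

/-- the chosen lift of a path -/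
def chl (e : C(Dl 1, S2)) : C(Dl 1, ℂ × ℂ) := (exists_lift e).choose

lemma chl_spec (e : C(Dl 1, S2)) : IsLift e (chl e) := (exists_lift e).choose_spec

/-- the cochain computed with a given lift -/
def Wl (σ : C(Dl 2, S2)) (ξ : C(Dl 2, ℂ × ℂ)) : ℝ :=
  ∑ i : Fin 3, ((-1 : ℝ) ^ (i : ℕ)) * inc (rr (chl (σ.comp (face i))) (ξ.comp (face i)))

lemma Wl_eq {σ : C(Dl 2, S2)} {ξ η : C(Dl 2, ℂ × ℂ)} (hξ : IsLift σ ξ) (hη : IsLift σ η) :
    Wl σ η = Wl σ ξ := by
  obtain ⟨μ, hμ, hμη⟩ := hξ.exists_mul hη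
  have h0 := inc_face_sum μ hμ
  have h1 : ∀ i : Fin 3, inc (rr (chl (σ.comp (face i))) (η.comp (face i))) =
      inc (μ.comp (face i)) + inc (rr (chl (σ.comp (face i))) (ξ.comp (face i))) := by
    intro i
    rw [← inc_mul _ _ (fun x => hμ _) (rr_ne (chl_spec _) (hξ.comp (face i)))]
    congr 1
    ext x
    simp only [rr_apply, ContinuousMap.comp_apply, ContinuousMap.mul_apply, hμη, herm_smul]
  unfold Wl
  simp only [h1, mul_add, Finset.sum_add_distrib, h0, zero_add]

def WW (σ : C(Dl 2, S2)) : ℝ := Wl σ (exists_lift σ).choose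

lemma WW_eq {σ : C(Dl 2, S2)} {ξ : C(Dl 2, ℂ × ℂ)} (hξ : IsLift σ ξ) : WW σ = Wl σ ξ :=
  Wl_eq hξ (exists_lift σ).choose_spec

lemma WW_cocycle (t : C(Dl 3, S2)) :
    ∑ i : Fin 4, ((-1 : ℝ) ^ (i : ℕ)) * WW (t.comp (face i)) = 0 := by
  obtain ⟨ξ, hξ⟩ := exists_lift t
  set Gf : (Fin 2 → Fin 4) → ℝ := fun f =>
    inc (rr (chl (t.comp ⟨stdSimplex.map f, stdSimplex.continuous_map _⟩))
      (ξ.comp ⟨stdSimplex.map f, stdSimplex.continuous_map _⟩)) with hGf
  have hff : ∀ (i : Fin 4) (j : Fin 3), (face i).comp (face j) =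
      (⟨stdSimplex.map (Fin.succAbove i ∘ Fin.succAbove j), stdSimplex.continuous_map _⟩ :
        C(Dl 1, Dl 3)) := by
    intro i j
    ext1 x
    show stdSimplex.map _ (stdSimplex.map _ x) = _
    rw [stdSimplex.map_comp_apply]
    rfl
  have h1 : ∀ i : Fin 4, WW (t.comp (face i)) =
      ∑ j : Fin 3, ((-1 : ℝ) ^ (j : ℕ)) * Gf (Fin.succAbove i ∘ Fin.succAbove j) := by
    intro i
    rw [WW_eq (hξ.comp (face i))]
    unfold Wl
    refine Finset.sum_congr rfl (fun j _ => ?_)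
    rw [ContinuousMap.comp_assoc, ContinuousMap.comp_assoc, hff i j]
  simp only [h1]
  have a1 : (Fin.succAbove (1 : Fin 4) ∘ Fin.succAbove (0 : Fin 3) : Fin 2 → Fin 4) =
      Fin.succAbove (0 : Fin 4) ∘ Fin.succAbove (0 : Fin 3) := by decide
  have a2 : (Fin.succAbove (2 : Fin 4) ∘ Fin.succAbove (0 : Fin 3) : Fin 2 → Fin 4) =
      Fin.succAbove (0 : Fin 4) ∘ Fin.succAbove (1 : Fin 3) := by decide
  have a3 : (Fin.succAbove (3 : Fin 4) ∘ Fin.succAbove (0 : Fin 3) : Fin 2 → Fin 4) =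
      Fin.succAbove (0 : Fin 4) ∘ Fin.succAbove (2 : Fin 3) := by decide
  have a4 : (Fin.succAbove (2 : Fin 4) ∘ Fin.succAbove (1 : Fin 3) : Fin 2 → Fin 4) =
      Fin.succAbove (1 : Fin 4) ∘ Fin.succAbove (1 : Fin 3) := by decide
  have a5 : (Fin.succAbove (3 : Fin 4) ∘ Fin.succAbove (1 : Fin 3) : Fin 2 → Fin 4) =
      Fin.succAbove (1 : Fin 4) ∘ Fin.succAbove (2 : Fin 3) := by decide
  have a6 : (Fin.succAbove (3 : Fin 4) ∘ Fin.succAbove (2 : Fin 3) : Fin 2 → Fin 4) =
      Fin.succAbove (2 : Fin 4) ∘ Fin.succAbove (2 : Fin 3) := by decide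
  simp only [Fin.sum_univ_four, Fin.sum_univ_three, a1, a2, a3, a4, a5, a6]
  simp only [Fin.val_zero, Fin.val_one, Fin.val_two]
  have v3 : ((3 : Fin 4) : ℕ) = 3 := rfl
  simp only [v3]
  ring

/-! ### evaluation -/

/-- section over the image of `jj` -/
def sU : C(ℂ, ℂ × ℂ) := ⟨fun v => (v, 1), by fun_prop⟩
/-- section over the image of `flip ∘ jj` -/
def sV : C(ℂ, ℂ × ℂ) := ⟨fun v => (1, (starRingEnd ℂ) v), by fun_prop⟩

lemma one_add_ne (v : ℂ) : ((1 : ℂ) + (‖v‖ : ℂ) ^ 2) ≠ 0 := by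
  have : (0:ℝ) < 1 + ‖v‖ ^ 2 := by positivity
  exact_mod_cast this.ne'

lemma isLift_sU : IsLift jjC sU := by
  intro v
  refine ⟨fun h => ?_, ?_⟩
  · have := congrArg Prod.snd h
    simp [sU] at this
  · have h0 := one_add_ne v
    have hv : v * (starRingEnd ℂ) v = (‖v‖ : ℂ) ^ 2 := Complex.mul_conj' v
    have e1 : (jjC v : S2) = jj v := rfl
    rw [e1]
    simp only [proj, jj, ze_mkS2, he_mkS2, sU, ContinuousMap.coe_mk]
    push_cast
    apply Prod.ext
    · simp only
      field_simp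
      ring
    · simp only [map_div₀, map_mul, map_add, map_one, map_pow, Complex.conj_ofReal,
        map_ofNat]
      field_simp
      linear_combination 2 * hv

lemma isLift_sV : IsLift (flipC.comp jjC) sV := by
  intro v
  refine ⟨fun h => ?_, ?_⟩
  · have := congrArg Prod.fst h
    simp [sV] at this
  · have h0 := one_add_ne v
    have hv : v * (starRingEnd ℂ) v = (‖v‖ : ℂ) ^ 2 := Complex.mul_conj' v
    have e1 : ((flipC.comp jjC) v : S2) = flip (jj v) := rfl
    rw [e1]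
    simp only [proj, flip, jj, ze_mkS2, he_mkS2, sV, ContinuousMap.coe_mk]
    push_cast
    apply Prod.ext
    · simp only
      field_simp
      linear_combination 2 * hv
    · simp only [map_div₀, map_mul, map_add, map_one, map_pow, Complex.conj_ofReal,
        map_ofNat]
      field_simp
      ring

lemma norm_loopC (x : Dl 1) : ‖loopC x‖ = 1 := by
  show ‖Complex.exp _‖ = 1
  exact Complex.norm_exp_ofReal_mul_I _

lemma inc_loopC : inc loopC = 2 * Real.pi := by
  have h := inc_eq loopC ⟨fun x => (((2 * Real.pi * x 1 : ℝ) : ℂ) * Complex.I), by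
    have h1 : Continuous fun x : Dl 1 => x 1 :=
      (continuous_apply (1 : Fin 2)).comp continuous_subtype_val
    exact (Complex.continuous_ofReal.comp (continuous_const.mul h1)).mul continuous_const⟩
    (fun x => rfl)
  rw [h]
  simp

lemma Wl_face {σ : C(Dl 2, S2)} {ξ : C(Dl 2, ℂ × ℂ)}
    (h12 : σ.comp (face 1) = σ.comp (face 2)) (h12' : ξ.comp (face 1) = ξ.comp (face 2)) :
    Wl σ ξ = inc (rr (chl (σ.comp (face 0))) (ξ.comp (face 0))) := by
  unfold Wl
  simp only [Fin.sum_univ_three, h12, h12']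
  simp only [Fin.val_zero, Fin.val_one, Fin.val_two]
  ring

lemma WW_DU_sub_DV : WW DU - WW DV = 2 * Real.pi := by
  have hU : IsLift DU (sU.comp coneC) := isLift_sU.comp coneC
  have hV : IsLift DV (sV.comp coneC) := isLift_sV.comp coneC
  have hc := coneC_face12
  rw [WW_eq hU, WW_eq hV]
  rw [Wl_face (by
    unfold DU; rw [ContinuousMap.comp_assoc, ContinuousMap.comp_assoc, hc]) (by
    rw [ContinuousMap.comp_assoc, ContinuousMap.comp_assoc, hc])]
  rw [Wl_face (by
    unfold DV; rw [ContinuousMap.comp_assoc (f := flipC.comp jjC) (g := coneC),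
      ContinuousMap.comp_assoc (f := flipC.comp jjC) (g := coneC), hc]) (by
    rw [ContinuousMap.comp_assoc, ContinuousMap.comp_assoc, hc])]
  have hD : DU.comp (face 0) = DV.comp (face 0) := by
    ext1 x
    show jj (coneC (face 0 x)) = flip (jj (coneC (face 0 x)))
    have : coneC (face 0 x) = loopC x := by rw [← coneC_face0]; rfl
    rw [this, flip_jj_of_norm (norm_loopC x)]
  rw [← hD]
  have hmul : rr (chl (DU.comp (face 0))) ((sU.comp coneC).comp (face 0)) =
      loopC * rr (chl (DU.comp (face 0))) ((sV.comp coneC).comp (face 0)) := by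
    ext x
    have : coneC (face 0 x) = loopC x := by rw [← coneC_face0]; rfl
    simp only [rr_apply, ContinuousMap.comp_apply, ContinuousMap.mul_apply, this, ← herm_smul]
    congr 1
    have hl : loopC x * (starRingEnd ℂ) (loopC x) = 1 := by
      rw [Complex.mul_conj', norm_loopC x]; norm_num
    apply Prod.ext
    · simp [sU, sV]
    · simp [sU, sV, hl]
  rw [hmul, inc_mul _ _ (fun x => ?_) (fun x => ?_), inc_loopC]
  · ring
  · intro h
    have := norm_loopC x
    rw [h] at this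
    simp at this
  · have h1 : IsLift (DU.comp (face 0)) ((sV.comp coneC).comp (face 0)) := by
      rw [hD]; exact hV.comp (face 0)
    exact rr_ne (chl_spec _) h1 x

/-- The cocycle. -/
theorem exists_cocycle :
    ∃ W : C(Dl 2, S2) → ℝ,
      (∀ t : C(Dl 3, S2), ∑ i : Fin 4, ((-1 : ℝ) ^ (i : ℕ)) * W (t.comp (face i)) = 0) ∧
      W DU - W DV ≠ 0 := by
  refine ⟨WW, WW_cocycle, ?_⟩
  rw [WW_DU_sub_DV]
  positivity

end Crest.Agent.R123
end
end

-- ▼ part R251/HB830A
section

/-!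
# Row 251, HB1: an integer valued singular 2-cocycle on `S²`

From the tautological line bundle (R123/HopfLift, HopfCocycle), with normalised edge lifts.
-/

set_option autoImplicit false

noncomputable section

open Crest.Agent.R123

namespace Crest.Agent.R251.HB

/-- the chosen lift of a point -/
def plx (y : S2) : ℂ × ℂ := (exists_ne_zero_proj y).choose

theorem plx_ne (y : S2) : plx y ≠ 0 := (exists_ne_zero_proj y).choose_spec.1
theorem plx_proj (y : S2) : proj y (plx y) = plx y := (exists_ne_zero_proj y).choose_spec.2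

/-- normalised lifts of edges exist -/
theorem exists_edge (e : C(Dl 1, S2)) : ∃ η : C(Dl 1, ℂ × ℂ), IsLift e η ∧
    η (vx 0) = plx (e (vx 0)) ∧ η (vx 1) = plx (e (vx 1)) ∧
    (∀ y, e = ContinuousMap.const _ y → η = ContinuousMap.const _ (plx y)) := by
  by_cases hc : ∃ y, e = ContinuousMap.const _ y
  · obtain ⟨y, rfl⟩ := hc
    refine ⟨ContinuousMap.const _ (plx y), fun x => ⟨plx_ne y, plx_proj y⟩, rfl, rfl, ?_⟩
    intro z hz
    have : y = z := by
      have := congrArg (fun f : C(Dl 1, S2) => f (vx 0)) hz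
      simpa using this
    rw [this]
  · obtain ⟨ξ, hξ⟩ := exists_lift e
    set a : ℂ := herm (ξ (vx 0)) (plx (e (vx 0))) / herm (ξ (vx 0)) (ξ (vx 0)) with ha
    set b : ℂ := herm (ξ (vx 1)) (plx (e (vx 1))) / herm (ξ (vx 1)) (ξ (vx 1)) with hb
    have ha1 : plx (e (vx 0)) = a • ξ (vx 0) :=
      eq_smul (hξ _).1 (hξ _).2 (plx_proj _)
    have hb1 : plx (e (vx 1)) = b • ξ (vx 1) :=
      eq_smul (hξ _).1 (hξ _).2 (plx_proj _)
    have ha0 : a ≠ 0 := by
      intro h
      apply plx_ne (e (vx 0))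
      rw [ha1, h, zero_smul]
    have hb0 : b ≠ 0 := by
      intro h
      apply plx_ne (e (vx 1))
      rw [hb1, h, zero_smul]
    have hx0 : Continuous fun x : Dl 1 => x 0 :=
      (continuous_apply (0 : Fin 2)).comp continuous_subtype_val
    have hx1 : Continuous fun x : Dl 1 => x 1 :=
      (continuous_apply (1 : Fin 2)).comp continuous_subtype_val
    refine ⟨⟨fun x => Complex.exp ((x 0 : ℂ) * Complex.log a + (x 1 : ℂ) * Complex.log b) • ξ x, ?_⟩,
      ?_, ?_, ?_, fun y hy => absurd ⟨y, hy⟩ hc⟩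
    · refine Continuous.smul (Complex.continuous_exp.comp ?_) ξ.continuous
      exact ((Complex.continuous_ofReal.comp hx0).mul continuous_const).add
        ((Complex.continuous_ofReal.comp hx1).mul continuous_const)
    · intro x
      refine ⟨smul_ne_zero (Complex.exp_ne_zero _) (hξ x).1, ?_⟩
      have h := (hξ x).2
      have h1 := congrArg Prod.fst h
      have h2 := congrArg Prod.snd h
      simp only [proj] at h1 h2
      simp only [proj, ContinuousMap.coe_mk, Prod.smul_fst, Prod.smul_snd, smul_eq_mul]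
      apply Prod.ext
      · simp only [Prod.smul_fst, smul_eq_mul]
        linear_combination (Complex.exp ((x 0 : ℂ) * Complex.log a + (x 1 : ℂ) * Complex.log b)) * h1
      · simp only [Prod.smul_snd, smul_eq_mul]
        linear_combination (Complex.exp ((x 0 : ℂ) * Complex.log a + (x 1 : ℂ) * Complex.log b)) * h2
    · have e0 : (vx 0 : Dl 1) 0 = 1 := by simp [vx]
      have e1 : (vx 0 : Dl 1) 1 = 0 := by simp [vx]
      simp only [ContinuousMap.coe_mk, e0, e1]
      rw [ha1]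
      simp [Complex.exp_log ha0]
    · have e0 : (vx 1 : Dl 1) 0 = 0 := by simp [vx]
      have e1 : (vx 1 : Dl 1) 1 = 1 := by simp [vx]
      simp only [ContinuousMap.coe_mk, e0, e1]
      rw [hb1]
      simp [Complex.exp_log hb0]

/-- the normalised lift of an edge -/
def nch (e : C(Dl 1, S2)) : C(Dl 1, ℂ × ℂ) := (exists_edge e).choose

theorem nch_lift (e : C(Dl 1, S2)) : IsLift e (nch e) := (exists_edge e).choose_spec.1
theorem nch_zero (e : C(Dl 1, S2)) : nch e (vx 0) = plx (e (vx 0)) := (exists_edge e).choose_spec.2.1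
theorem nch_one (e : C(Dl 1, S2)) : nch e (vx 1) = plx (e (vx 1)) :=
  (exists_edge e).choose_spec.2.2.1
theorem nch_const (y : S2) : nch (ContinuousMap.const _ y) = ContinuousMap.const _ (plx y) :=
  (exists_edge _).choose_spec.2.2.2 y rfl

theorem nch_vx (e : C(Dl 1, S2)) (j : Fin 2) : nch e (vx j) = plx (e (vx j)) := by
  fin_cases j
  · exact nch_zero e
  · exact nch_one e

/-- the real cochain computed with a given lift -/
def Nl (σ : C(Dl 2, S2)) (ξ : C(Dl 2, ℂ × ℂ)) : ℝ :=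
  ∑ i : Fin 3, ((-1 : ℝ) ^ (i : ℕ)) * inc (rr (nch (σ.comp (face i))) (ξ.comp (face i)))

theorem Nl_eq {σ : C(Dl 2, S2)} {ξ η : C(Dl 2, ℂ × ℂ)} (hξ : IsLift σ ξ) (hη : IsLift σ η) :
    Nl σ η = Nl σ ξ := by
  obtain ⟨μ, hμ, hμη⟩ := hξ.exists_mul hη
  have h0 := inc_face_sum μ hμ
  have h1 : ∀ i : Fin 3, inc (rr (nch (σ.comp (face i))) (η.comp (face i))) =
      inc (μ.comp (face i)) + inc (rr (nch (σ.comp (face i))) (ξ.comp (face i))) := by
    intro i
    rw [← inc_mul _ _ (fun x => hμ _) (rr_ne (nch_lift _) (hξ.comp (face i)))]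
    congr 1
    ext x
    simp only [rr_apply, ContinuousMap.comp_apply, ContinuousMap.mul_apply, hμη, herm_smul]
  unfold Nl
  simp only [h1, mul_add, Finset.sum_add_distrib, h0, zero_add]

def NN (σ : C(Dl 2, S2)) : ℝ := Nl σ (exists_lift σ).choose

theorem NN_eq {σ : C(Dl 2, S2)} {ξ : C(Dl 2, ℂ × ℂ)} (hξ : IsLift σ ξ) : NN σ = Nl σ ξ :=
  Nl_eq hξ (exists_lift σ).choose_spec

theorem NN_cocycle (t : C(Dl 3, S2)) :
    ∑ i : Fin 4, ((-1 : ℝ) ^ (i : ℕ)) * NN (t.comp (face i)) = 0 := by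
  obtain ⟨ξ, hξ⟩ := exists_lift t
  set Gf : (Fin 2 → Fin 4) → ℝ := fun f =>
    inc (rr (nch (t.comp ⟨stdSimplex.map f, stdSimplex.continuous_map _⟩))
      (ξ.comp ⟨stdSimplex.map f, stdSimplex.continuous_map _⟩)) with hGf
  have hff : ∀ (i : Fin 4) (j : Fin 3), (face i).comp (face j) =
      (⟨stdSimplex.map (Fin.succAbove i ∘ Fin.succAbove j), stdSimplex.continuous_map _⟩ :
        C(Dl 1, Dl 3)) := by
    intro i j
    ext1 x
    show stdSimplex.map _ (stdSimplex.map _ x) = _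
    rw [stdSimplex.map_comp_apply]
    rfl
  have h1 : ∀ i : Fin 4, NN (t.comp (face i)) =
      ∑ j : Fin 3, ((-1 : ℝ) ^ (j : ℕ)) * Gf (Fin.succAbove i ∘ Fin.succAbove j) := by
    intro i
    rw [NN_eq (hξ.comp (face i))]
    unfold Nl
    refine Finset.sum_congr rfl (fun j _ => ?_)
    rw [ContinuousMap.comp_assoc, ContinuousMap.comp_assoc, hff i j]
  simp only [h1]
  have a1 : (Fin.succAbove (1 : Fin 4) ∘ Fin.succAbove (0 : Fin 3) : Fin 2 → Fin 4) =
      Fin.succAbove (0 : Fin 4) ∘ Fin.succAbove (0 : Fin 3) := by decide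
  have a2 : (Fin.succAbove (2 : Fin 4) ∘ Fin.succAbove (0 : Fin 3) : Fin 2 → Fin 4) =
      Fin.succAbove (0 : Fin 4) ∘ Fin.succAbove (1 : Fin 3) := by decide
  have a3 : (Fin.succAbove (3 : Fin 4) ∘ Fin.succAbove (0 : Fin 3) : Fin 2 → Fin 4) =
      Fin.succAbove (0 : Fin 4) ∘ Fin.succAbove (2 : Fin 3) := by decide
  have a4 : (Fin.succAbove (2 : Fin 4) ∘ Fin.succAbove (1 : Fin 3) : Fin 2 → Fin 4) =
      Fin.succAbove (1 : Fin 4) ∘ Fin.succAbove (1 : Fin 3) := by decide
  have a5 : (Fin.succAbove (3 : Fin 4) ∘ Fin.succAbove (1 : Fin 3) : Fin 2 → Fin 4) =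
      Fin.succAbove (1 : Fin 4) ∘ Fin.succAbove (2 : Fin 3) := by decide
  have a6 : (Fin.succAbove (3 : Fin 4) ∘ Fin.succAbove (2 : Fin 3) : Fin 2 → Fin 4) =
      Fin.succAbove (2 : Fin 4) ∘ Fin.succAbove (2 : Fin 3) := by decide
  simp only [Fin.sum_univ_four, Fin.sum_univ_three, a1, a2, a3, a4, a5, a6]
  simp only [Fin.val_zero, Fin.val_one, Fin.val_two]
  have v3 : ((3 : Fin 4) : ℕ) = 3 := rfl
  simp only [v3]
  ring

/-! ### integrality -/

theorem inc_arg (r : C(Dl 1, ℂ)) (h : ∀ x, r x ≠ 0) :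
    ∃ n : ℤ, inc r = Complex.arg (r (vx 1)) - Complex.arg (r (vx 0)) + 2 * Real.pi * n := by
  obtain ⟨l, hl⟩ := exists_log r h
  have hk : ∀ x, ∃ k : ℤ, l x = Complex.log (r x) + k * (2 * Real.pi * Complex.I) := by
    intro x
    apply Complex.exp_eq_exp_iff_exists_int.1
    rw [hl x, Complex.exp_log (h x)]
  obtain ⟨k1, h1⟩ := hk (vx 1)
  obtain ⟨k0, h0⟩ := hk (vx 0)
  refine ⟨k1 - k0, ?_⟩
  rw [inc_eq r l hl, h1, h0]
  simp [Complex.log_im]
  ring

theorem NN_int (σ : C(Dl 2, S2)) : ∃ n : ℤ, NN σ = 2 * Real.pi * n := by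
  obtain ⟨ξ, hξ⟩ := exists_lift σ
  rw [NN_eq hξ]
  have hi : ∀ i : Fin 3, ∃ n : ℤ, inc (rr (nch (σ.comp (face i))) (ξ.comp (face i))) =
      Complex.arg (herm (plx (σ (vx (i.succAbove 1)))) (ξ (vx (i.succAbove 1)))) -
      Complex.arg (herm (plx (σ (vx (i.succAbove 0)))) (ξ (vx (i.succAbove 0)))) +
        2 * Real.pi * n := by
    intro i
    obtain ⟨n, hn⟩ := inc_arg (rr (nch (σ.comp (face i))) (ξ.comp (face i)))
      (rr_ne (nch_lift _) (hξ.comp (face i)))
    refine ⟨n, ?_⟩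
    rw [hn]
    simp only [rr_apply, nch_vx, ContinuousMap.comp_apply, face_vx]
  choose n hn using hi
  refine ⟨n 0 - n 1 + n 2, ?_⟩
  unfold Nl
  simp only [hn, Fin.sum_univ_three]
  have e00 : (0 : Fin 3).succAbove (0 : Fin 2) = 1 := rfl
  have e01 : (0 : Fin 3).succAbove (1 : Fin 2) = 2 := rfl
  have e10 : (1 : Fin 3).succAbove (0 : Fin 2) = 0 := rfl
  have e11 : (1 : Fin 3).succAbove (1 : Fin 2) = 2 := rfl
  have e20 : (2 : Fin 3).succAbove (0 : Fin 2) = 0 := rfl
  have e21 : (2 : Fin 3).succAbove (1 : Fin 2) = 1 := rfl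
  simp only [e00, e01, e10, e11, e20, e21, Fin.val_zero, Fin.val_one, Fin.val_two]
  push_cast
  ring

/-- THE INTEGER COCYCLE -/
def Om (σ : C(Dl 2, S2)) : ℤ := (NN_int σ).choose

theorem Om_spec (σ : C(Dl 2, S2)) : NN σ = 2 * Real.pi * Om σ := (NN_int σ).choose_spec

theorem Om_cocycle (t : C(Dl 3, S2)) :
    ∑ i : Fin 4, ((-1 : ℤ) ^ (i : ℕ)) * Om (t.comp (face i)) = 0 := by
  have h := NN_cocycle t
  have h2 : (2 * Real.pi) * ((∑ i : Fin 4, ((-1 : ℤ) ^ (i : ℕ)) * Om (t.comp (face i)) : ℤ) : ℝ)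
      = 0 := by
    rw [← h]
    push_cast
    rw [Finset.mul_sum]
    refine Finset.sum_congr rfl fun i _ => ?_
    rw [Om_spec]
    ring
  have h3 : ((∑ i : Fin 4, ((-1 : ℤ) ^ (i : ℕ)) * Om (t.comp (face i)) : ℤ) : ℝ) = 0 := by
    rcases mul_eq_zero.1 h2 with h | h
    · exact absurd h (by positivity)
    · exact h
  exact_mod_cast h3

theorem inc_const (c : ℂ) (hc : c ≠ 0) : inc (ContinuousMap.const (Dl 1) c) = 0 := by
  rw [inc_eq (ContinuousMap.const (Dl 1) c) (ContinuousMap.const (Dl 1) (Complex.log c))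
    (fun x => by simp [Complex.exp_log hc])]
  simp

theorem NN_const (y : S2) : NN (ContinuousMap.const _ y) = 0 := by
  have hl : IsLift (ContinuousMap.const (Dl 2) y) (ContinuousMap.const (Dl 2) (plx y)) :=
    fun x => ⟨plx_ne y, plx_proj y⟩
  rw [NN_eq hl]
  unfold Nl
  apply Finset.sum_eq_zero
  intro i _
  have h1 : (ContinuousMap.const (Dl 2) y).comp (face i) = ContinuousMap.const (Dl 1) y := rfl
  rw [h1, nch_const]
  have h2 : rr (ContinuousMap.const (Dl 1) (plx y))
      ((ContinuousMap.const (Dl 2) (plx y)).comp (face i)) =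
      ContinuousMap.const (Dl 1) (herm (plx y) (plx y)) := rfl
  rw [h2, inc_const _ (herm_self_ne (plx_ne y)), mul_zero]

theorem Om_const (y : S2) : Om (ContinuousMap.const _ y) = 0 := by
  have h := Om_spec (ContinuousMap.const _ y)
  rw [NN_const] at h
  have h2 : ((Om (ContinuousMap.const _ y) : ℤ) : ℝ) = 0 := by
    rcases mul_eq_zero.1 h.symm with h | h
    · exact absurd h (by positivity)
    · exact h
  exact_mod_cast h2

end Crest.Agent.R251.HB
end
end

-- ▼ part R251/HB830B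
section

/-!
# Row 251, HB1 (b): the value of the integer cocycle on the square
-/

set_option autoImplicit false

noncomputable section

open Crest.Agent.R123
open scoped unitInterval

namespace Crest.Agent.R251.HB

theorem cont_coord {n : ℕ} (i : Fin (n + 1)) : Continuous fun x : Dl n => x i :=
  (continuous_apply i).comp continuous_subtype_val

theorem coord_nonneg {n : ℕ} (x : Dl n) (i : Fin (n + 1)) : 0 ≤ x i := x.2.1 i
theorem coord_sum {n : ℕ} (x : Dl n) : ∑ i, x i = 1 := x.2.2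

theorem sum_two (x : Dl 1) : x 0 + x 1 = 1 := by
  have := coord_sum x
  rwa [Fin.sum_univ_two] at this

theorem sum_three (x : Dl 2) : x 0 + x 1 + x 2 = 1 := by
  have := coord_sum x
  rwa [Fin.sum_univ_three] at this

/-- the triangle `(0,0), (1,0), (1,1)` of the square -/
def lowT : C(Dl 2, I × I) where
  toFun x := (⟨x 1 + x 2, by
    have h := sum_three x
    have h0 := coord_nonneg x 0
    have h1 := coord_nonneg x 1
    have h2 := coord_nonneg x 2
    constructor <;> linarith⟩, ⟨x 2, by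
    have h := sum_three x
    have h0 := coord_nonneg x 0
    have h1 := coord_nonneg x 1
    have h2 := coord_nonneg x 2
    constructor <;> linarith⟩)
  continuous_toFun := by
    refine Continuous.prodMk ?_ ?_
    · exact Continuous.subtype_mk ((cont_coord 1).add (cont_coord 2)) _
    · exact Continuous.subtype_mk (cont_coord 2) _

/-- the triangle `(0,0), (0,1), (1,1)` of the square -/
def upT : C(Dl 2, I × I) where
  toFun x := (⟨x 2, by
    have h := sum_three x
    have h0 := coord_nonneg x 0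
    have h1 := coord_nonneg x 1
    have h2 := coord_nonneg x 2
    constructor <;> linarith⟩, ⟨x 1 + x 2, by
    have h := sum_three x
    have h0 := coord_nonneg x 0
    have h1 := coord_nonneg x 1
    have h2 := coord_nonneg x 2
    constructor <;> linarith⟩)
  continuous_toFun := by
    refine Continuous.prodMk ?_ ?_
    · exact Continuous.subtype_mk (cont_coord 2) _
    · exact Continuous.subtype_mk ((cont_coord 1).add (cont_coord 2)) _

/-- the parameter of an edge -/
def par : C(Dl 1, I) where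
  toFun x := ⟨x 1, by
    have h := sum_two x
    have h0 := coord_nonneg x 0
    have h1 := coord_nonneg x 1
    constructor <;> linarith⟩
  continuous_toFun := by
    refine Continuous.subtype_mk (cont_coord 1) _

theorem par_coe (x : Dl 1) : ((par x : I) : ℝ) = x 1 := rfl

/-- coordinates of a face -/
theorem face_zero_coord (x : Dl 1) : (face (0 : Fin 3) x) 0 = 0 ∧ (face (0 : Fin 3) x) 1 = x 0 ∧
    (face (0 : Fin 3) x) 2 = x 1 := by
  refine ⟨?_, ?_, ?_⟩ <;>
  · simp only [face, ContinuousMap.coe_mk, stdSimplex.map_coe, FunOnFinite.linearMap_apply_apply]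
    simp [Finset.sum_filter, Fin.sum_univ_two, Fin.succAbove, Fin.lt_def]

theorem face_one_coord (x : Dl 1) : (face (1 : Fin 3) x) 0 = x 0 ∧ (face (1 : Fin 3) x) 1 = 0 ∧
    (face (1 : Fin 3) x) 2 = x 1 := by
  refine ⟨?_, ?_, ?_⟩ <;>
  · simp only [face, ContinuousMap.coe_mk, stdSimplex.map_coe, FunOnFinite.linearMap_apply_apply]
    simp [Finset.sum_filter, Fin.sum_univ_two, Fin.succAbove, Fin.lt_def]

theorem face_two_coord (x : Dl 1) : (face (2 : Fin 3) x) 0 = x 0 ∧ (face (2 : Fin 3) x) 1 = x 1 ∧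
    (face (2 : Fin 3) x) 2 = 0 := by
  refine ⟨?_, ?_, ?_⟩ <;>
  · simp only [face, ContinuousMap.coe_mk, stdSimplex.map_coe, FunOnFinite.linearMap_apply_apply]
    simp [Finset.sum_filter, Fin.sum_univ_two, Fin.succAbove, Fin.lt_def]

theorem lowT_face0 (x : Dl 1) : lowT (face 0 x) = (1, par x) := by
  obtain ⟨h0, h1, h2⟩ := face_zero_coord x
  have h := sum_two x
  refine Prod.ext (Subtype.ext ?_) (Subtype.ext ?_)
  · show (face (0 : Fin 3) x) 1 + (face (0 : Fin 3) x) 2 = 1
    rw [h1, h2, h]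
  · exact h2

theorem lowT_face1 (x : Dl 1) : lowT (face 1 x) = (par x, par x) := by
  obtain ⟨h0, h1, h2⟩ := face_one_coord x
  refine Prod.ext (Subtype.ext ?_) (Subtype.ext ?_)
  · show (face (1 : Fin 3) x) 1 + (face (1 : Fin 3) x) 2 = x 1
    rw [h1, h2, zero_add]
  · exact h2

theorem lowT_face2 (x : Dl 1) : lowT (face 2 x) = (par x, 0) := by
  obtain ⟨h0, h1, h2⟩ := face_two_coord x
  refine Prod.ext (Subtype.ext ?_) (Subtype.ext ?_)
  · show (face (2 : Fin 3) x) 1 + (face (2 : Fin 3) x) 2 = x 1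
    rw [h1, h2, add_zero]
  · exact h2

theorem upT_face0 (x : Dl 1) : upT (face 0 x) = (par x, 1) := by
  obtain ⟨h0, h1, h2⟩ := face_zero_coord x
  have h := sum_two x
  refine Prod.ext (Subtype.ext ?_) (Subtype.ext ?_)
  · exact h2
  · show (face (0 : Fin 3) x) 1 + (face (0 : Fin 3) x) 2 = 1
    rw [h1, h2, h]

theorem upT_face1 (x : Dl 1) : upT (face 1 x) = (par x, par x) := by
  obtain ⟨h0, h1, h2⟩ := face_one_coord x
  refine Prod.ext (Subtype.ext ?_) (Subtype.ext ?_)
  · exact h2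
  · show (face (1 : Fin 3) x) 1 + (face (1 : Fin 3) x) 2 = x 1
    rw [h1, h2, zero_add]

theorem upT_face2 (x : Dl 1) : upT (face 2 x) = (0, par x) := by
  obtain ⟨h0, h1, h2⟩ := face_two_coord x
  refine Prod.ext (Subtype.ext ?_) (Subtype.ext ?_)
  · exact h2
  · show (face (2 : Fin 3) x) 1 + (face (2 : Fin 3) x) 2 = x 1
    rw [h1, h2, add_zero]

/-! ### increments of the sides of the square -/

/-- `1 + i (2 x₁ - 1)` -/
def wp : C(Dl 1, ℂ) := ⟨fun x => 1 + Complex.I * ((2 * x 1 - 1 : ℝ) : ℂ),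
  continuous_const.add (continuous_const.mul (Complex.continuous_ofReal.comp
    ((continuous_const.mul (cont_coord 1)).sub continuous_const)))⟩
/-- `1 - i (2 x₁ - 1)` -/
def wm : C(Dl 1, ℂ) := ⟨fun x => 1 - Complex.I * ((2 * x 1 - 1 : ℝ) : ℂ),
  continuous_const.sub (continuous_const.mul (Complex.continuous_ofReal.comp
    ((continuous_const.mul (cont_coord 1)).sub continuous_const)))⟩

theorem wp_re (x : Dl 1) : (wp x).re = 1 := by
  simp [wp, Complex.add_re, Complex.mul_re]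
theorem wm_re (x : Dl 1) : (wm x).re = 1 := by
  simp [wm, Complex.sub_re, Complex.mul_re]

theorem wp_ne (x : Dl 1) : wp x ≠ 0 := fun h => by
  have := wp_re x
  rw [h] at this
  simp at this
theorem wm_ne (x : Dl 1) : wm x ≠ 0 := fun h => by
  have := wm_re x
  rw [h] at this
  simp at this

theorem vx_one_one : (vx 1 : Dl 1) 1 = 1 := by simp [vx]
theorem vx_zero_one : (vx 0 : Dl 1) 1 = 0 := by simp [vx]

theorem inc_of_slit (r : C(Dl 1, ℂ)) (h : ∀ x, 0 < (r x).re) :
    inc r = Complex.arg (r (vx 1)) - Complex.arg (r (vx 0)) := by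
  have hs : ∀ x, r x ∈ Complex.slitPlane := fun x => Or.inl (h x)
  rw [inc_eq r ⟨fun x => Complex.log (r x), r.continuous.clog hs⟩ (fun x => by
    have : r x ≠ 0 := fun h0 => by have := h x; rw [h0] at this; simp at this
    exact Complex.exp_log this)]
  simp [Complex.log_im]

theorem arg_one_add_I : Complex.arg (1 + Complex.I) = Real.pi / 4 := by
  have h : (1 + Complex.I : ℂ) = ((Real.sqrt 2 : ℝ) : ℂ) *
      (Complex.cos ((Real.pi / 4 : ℝ) : ℂ) + Complex.sin ((Real.pi / 4 : ℝ) : ℂ) * Complex.I) := by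
    rw [← Complex.ofReal_cos, ← Complex.ofReal_sin, Real.cos_pi_div_four, Real.sin_pi_div_four]
    have h2 : Real.sqrt 2 * Real.sqrt 2 = 2 := Real.mul_self_sqrt (by norm_num)
    apply Complex.ext
    · simp
      linarith
    · simp
      linarith
  rw [h, Complex.arg_mul_cos_add_sin_mul_I (by positivity)]
  constructor <;> linarith [Real.pi_pos]

theorem arg_one_sub_I : Complex.arg (1 - Complex.I) = -(Real.pi / 4) := by
  have h : (1 - Complex.I : ℂ) = (starRingEnd ℂ) (1 + Complex.I) := by simp [sub_eq_add_neg]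
  rw [h, Complex.arg_conj, arg_one_add_I, if_neg]
  intro h
  linarith [Real.pi_pos]

theorem inc_wp : inc wp = Real.pi / 2 := by
  rw [inc_of_slit wp (fun x => by rw [wp_re]; norm_num)]
  have h1 : wp (vx 1) = 1 + Complex.I := by
    simp only [wp, ContinuousMap.coe_mk, vx_one_one]
    norm_num
  have h0 : wp (vx 0) = 1 - Complex.I := by
    simp only [wp, ContinuousMap.coe_mk, vx_zero_one]
    push_cast
    ring
  rw [h1, h0, arg_one_add_I, arg_one_sub_I]
  ring

theorem inc_wm : inc wm = -(Real.pi / 2) := by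
  rw [inc_of_slit wm (fun x => by rw [wm_re]; norm_num)]
  have h1 : wm (vx 1) = 1 - Complex.I := by
    simp only [wm, ContinuousMap.coe_mk, vx_one_one]
    norm_num
  have h0 : wm (vx 0) = 1 + Complex.I := by
    simp only [wm, ContinuousMap.coe_mk, vx_zero_one]
    push_cast
    ring
  rw [h1, h0, arg_one_add_I, arg_one_sub_I]
  ring

theorem inc_const_mul (c : ℂ) (hc : c ≠ 0) (r : C(Dl 1, ℂ)) (h : ∀ x, r x ≠ 0) :
    inc (ContinuousMap.const (Dl 1) c * r) = inc r := by
  rw [inc_mul _ _ (fun _ => hc) h, inc_const c hc, zero_add]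

/-- the complex coordinate `(2s-1) + i(2t-1)` of the square -/
def zc (p : I × I) : ℂ := ((2 * (p.1 : ℝ) - 1 : ℝ) : ℂ) + Complex.I * ((2 * (p.2 : ℝ) - 1 : ℝ) : ℂ)

theorem he_north : he north = 1 := rfl
theorem ze_north : ze north = 0 := rfl

theorem plx_north_snd : (plx north).2 = 0 := by
  have h := congrArg Prod.snd (plx_proj north)
  simp only [proj, he_north, ze_north] at h
  simpa using h.symm

theorem plx_north_fst : (plx north).1 ≠ 0 := by
  intro h
  apply plx_ne north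
  exact Prod.ext h plx_north_snd

/-- THE VALUE ON THE SQUARE: if `f : I × I → S²` is `north` on the boundary and has a lift whose first
coordinate is `(2s-1) + i(2t-1)` on the boundary, then the integer cocycle is `1` on it. -/
theorem Om_square (f : C(I × I, S2)) (ξ : C(I × I, ℂ × ℂ)) (hξ : IsLift f ξ)
    (hf : ∀ p : I × I, (p.1 = 0 ∨ p.1 = 1 ∨ p.2 = 0 ∨ p.2 = 1) → f p = north ∧ (ξ p).1 = zc p) :
    Om (f.comp lowT) - Om (f.comp upT) = 1 := by
  have hl : IsLift (f.comp lowT) (ξ.comp lowT) := hξ.comp lowT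
  have hu : IsLift (f.comp upT) (ξ.comp upT) := hξ.comp upT
  have hc0 : (starRingEnd ℂ) (plx north).1 ≠ 0 := by
    rw [Ne, map_eq_zero]
    exact plx_north_fst
  -- generic side
  have side : ∀ (a : C(Dl 1, I × I)) (c : ℂ) (r : C(Dl 1, ℂ)), c ≠ 0 → (∀ x, r x ≠ 0) →
      (∀ x, (a x).1 = 0 ∨ (a x).1 = 1 ∨ (a x).2 = 0 ∨ (a x).2 = 1) →
      (∀ x, zc (a x) = c * r x) →
      inc (rr (nch (f.comp a)) (ξ.comp a)) = inc r := by
    intro a c r hc hr ha hz
    have hfa : f.comp a = ContinuousMap.const (Dl 1) north := by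
      ext1 x
      exact (hf _ (ha x)).1
    rw [hfa, nch_const]
    have h1 : rr (ContinuousMap.const (Dl 1) (plx north)) (ξ.comp a) =
        ContinuousMap.const (Dl 1) ((starRingEnd ℂ) (plx north).1 * c) * r := by
      ext x
      simp only [rr_apply, ContinuousMap.const_apply, ContinuousMap.comp_apply,
        ContinuousMap.mul_apply, herm, plx_north_snd, map_zero, zero_mul, add_zero]
      rw [(hf _ (ha x)).2, hz x]
      ring
    rw [h1, inc_const_mul _ (mul_ne_zero hc0 hc) r hr]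
  have e0 : inc (rr (nch ((f.comp lowT).comp (face 0))) ((ξ.comp lowT).comp (face 0))) =
      Real.pi / 2 := by
    rw [ContinuousMap.comp_assoc, ContinuousMap.comp_assoc,
      side (lowT.comp (face 0)) 1 wp one_ne_zero wp_ne (fun x => ?_) (fun x => ?_), inc_wp]
    · rw [ContinuousMap.comp_apply, lowT_face0]; exact Or.inr (Or.inl rfl)
    · rw [ContinuousMap.comp_apply, lowT_face0]
      simp only [zc, wp, ContinuousMap.coe_mk, par_coe, Set.Icc.coe_one]
      push_cast; ring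
  have e2 : inc (rr (nch ((f.comp lowT).comp (face 2))) ((ξ.comp lowT).comp (face 2))) =
      Real.pi / 2 := by
    rw [ContinuousMap.comp_assoc, ContinuousMap.comp_assoc,
      side (lowT.comp (face 2)) (-Complex.I) wp (neg_ne_zero.2 Complex.I_ne_zero) wp_ne
        (fun x => ?_) (fun x => ?_), inc_wp]
    · rw [ContinuousMap.comp_apply, lowT_face2]; exact Or.inr (Or.inr (Or.inl rfl))
    · rw [ContinuousMap.comp_apply, lowT_face2]
      simp only [zc, wp, ContinuousMap.coe_mk, par_coe, Set.Icc.coe_zero]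
      push_cast
      linear_combination ((2 * (x 1 : ℂ) - 1)) * Complex.I_mul_I
  have u0 : inc (rr (nch ((f.comp upT).comp (face 0))) ((ξ.comp upT).comp (face 0))) =
      -(Real.pi / 2) := by
    rw [ContinuousMap.comp_assoc, ContinuousMap.comp_assoc,
      side (upT.comp (face 0)) Complex.I wm Complex.I_ne_zero wm_ne
        (fun x => ?_) (fun x => ?_), inc_wm]
    · rw [ContinuousMap.comp_apply, upT_face0]; exact Or.inr (Or.inr (Or.inr rfl))
    · rw [ContinuousMap.comp_apply, upT_face0]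
      simp only [zc, wm, ContinuousMap.coe_mk, par_coe, Set.Icc.coe_one]
      push_cast
      linear_combination ((2 * (x 1 : ℂ) - 1)) * Complex.I_mul_I
  have u2 : inc (rr (nch ((f.comp upT).comp (face 2))) ((ξ.comp upT).comp (face 2))) =
      -(Real.pi / 2) := by
    rw [ContinuousMap.comp_assoc, ContinuousMap.comp_assoc,
      side (upT.comp (face 2)) (-1) wm (neg_ne_zero.2 one_ne_zero) wm_ne
        (fun x => ?_) (fun x => ?_), inc_wm]
    · rw [ContinuousMap.comp_apply, upT_face2]; exact Or.inl rfl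
    · rw [ContinuousMap.comp_apply, upT_face2]
      simp only [zc, wm, ContinuousMap.coe_mk, par_coe, Set.Icc.coe_zero]
      push_cast; ring
  have hd : inc (rr (nch ((f.comp lowT).comp (face 1))) ((ξ.comp lowT).comp (face 1))) =
      inc (rr (nch ((f.comp upT).comp (face 1))) ((ξ.comp upT).comp (face 1))) := by
    have h1 : lowT.comp (face 1) = upT.comp (face 1) := by
      ext1 x
      rw [ContinuousMap.comp_apply, ContinuousMap.comp_apply, lowT_face1, upT_face1]
    rw [ContinuousMap.comp_assoc, ContinuousMap.comp_assoc, ContinuousMap.comp_assoc,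
      ContinuousMap.comp_assoc, h1]
  have hN : NN (f.comp lowT) - NN (f.comp upT) = 2 * Real.pi := by
    rw [NN_eq hl, NN_eq hu]
    unfold Nl
    simp only [Fin.sum_univ_three, e0, e2, u0, u2, hd, Fin.val_zero, Fin.val_one, Fin.val_two]
    ring
  rw [Om_spec, Om_spec] at hN
  have h3 : (2 * Real.pi) * (((Om (f.comp lowT) - Om (f.comp upT) - 1 : ℤ)) : ℝ) = 0 := by
    push_cast
    linear_combination hN
  have h4 : (((Om (f.comp lowT) - Om (f.comp upT) - 1 : ℤ)) : ℝ) = 0 := by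
    rcases mul_eq_zero.1 h3 with h | h
    · exact absurd h (by positivity)
    · exact h
  have h5 : Om (f.comp lowT) - Om (f.comp upT) - 1 = 0 := by exact_mod_cast h4
  linarith

end Crest.Agent.R251.HB
end
end

-- ▼ part R251/HB830C
section

/-!
# Row 251, HB2 + HB3: Lemma B from collapse maps onto `S²`

* `cu col b : SingSimplex E 2 → M`, `cu s = ∑ᶠ k, Om (col k ∘ s) • b k`, for a family of collapse maps
  `col k : E → S²`: equivariant 2-cocycle, zero on simplices on which all `col k` are `north`.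
* `exists_cell_cocycle`: the case of the 2-cells of `GAtt G φ`.
-/

set_option autoImplicit false
set_option linter.unusedSectionVars false

noncomputable section

open Crest.Agent.R123 Crest.Agent.R185.Att Crest.GeometryTopology.DeckCochains
open CategoryTheory Simplicial Opposite
open scoped unitInterval

namespace Crest.Agent.R251.HB

/-! ### the standard collapse of the square -/

theorem kap_pos (a : ℂ) (b : ℝ) (h : a ≠ 0 ∨ b ≠ 0) : 0 < ‖a‖ ^ 2 + b ^ 2 := by
  rcases h with h | h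
  · have : 0 < ‖a‖ := norm_pos_iff.2 h
    positivity
  · positivity

/-- the point `[a : b]` of `S²`, `b` real -/
def kap (a : ℂ) (b : ℝ) (h : a ≠ 0 ∨ b ≠ 0) : S2 :=
  mkS2 (2 * a * (b : ℂ) / ((‖a‖ ^ 2 + b ^ 2 : ℝ) : ℂ)) ((‖a‖ ^ 2 - b ^ 2) / (‖a‖ ^ 2 + b ^ 2)) (by
    have h0 := kap_pos a b h
    rw [norm_div, norm_mul, norm_mul, Complex.norm_real, Complex.norm_real,
      Real.norm_of_nonneg h0.le, Real.norm_eq_abs]
    simp only [Complex.norm_ofNat]
    rw [div_pow, div_pow, mul_pow, mul_pow, sq_abs]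
    field_simp
    ring)

theorem kap_lift (a : ℂ) (b : ℝ) (h : a ≠ 0 ∨ b ≠ 0) :
    ((a, (b : ℂ)) : ℂ × ℂ) ≠ 0 ∧ proj (kap a b h) (a, (b : ℂ)) = (a, (b : ℂ)) := by
  constructor
  · intro h0
    have h1 := congrArg Prod.fst h0
    have h2 := congrArg Prod.snd h0
    simp only [Prod.fst_zero, Prod.snd_zero, Complex.ofReal_eq_zero] at h1 h2
    rcases h with h | h
    · exact h h1
    · exact h h2
  · have h0 : ((‖a‖ : ℂ) ^ 2 + (b : ℂ) ^ 2) ≠ 0 := by
      have := kap_pos a b h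
      exact_mod_cast this.ne'
    have ha : a * (starRingEnd ℂ) a = (‖a‖ : ℂ) ^ 2 := Complex.mul_conj' a
    simp only [proj, kap, ze_mkS2, he_mkS2]
    push_cast
    apply Prod.ext
    · simp only
      field_simp
      ring
    · simp only [map_div₀, map_mul, map_add, map_pow, Complex.conj_ofReal, map_ofNat]
      field_simp
      linear_combination 2 * (b : ℂ) * ha

theorem kap_north (a : ℂ) (h : a ≠ 0 ∨ (0 : ℝ) ≠ 0) : kap a 0 h = north := by
  have h0 : ‖a‖ ^ 2 ≠ 0 := by
    rcases h with h | h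
    · exact pow_ne_zero _ (norm_ne_zero_iff.2 h)
    · exact absurd rfl h
  apply S2_ext
  · simp [kap, north]
  · simp only [kap, north, he_mkS2]
    field_simp
    ring

/-- the complex coordinate of the closed cell -/
def zD (x : D 2) : ℂ := ((x : Fin 2 → ℝ) 0 : ℂ) + Complex.I * ((x : Fin 2 → ℝ) 1 : ℂ)

theorem zD_re (x : D 2) : (zD x).re = (x : Fin 2 → ℝ) 0 := by simp [zD]
theorem zD_im (x : D 2) : (zD x).im = (x : Fin 2 → ℝ) 1 := by simp [zD]

theorem zD_or (x : D 2) : zD x ≠ 0 ∨ (1 - ‖(x : Fin 2 → ℝ)‖ : ℝ) ≠ 0 := by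
  by_contra h
  push Not at h
  obtain ⟨h1, h2⟩ := h
  have e0 : (x : Fin 2 → ℝ) 0 = 0 := by rw [← zD_re, h1]; rfl
  have e1 : (x : Fin 2 → ℝ) 1 = 0 := by rw [← zD_im, h1]; rfl
  have : (x : Fin 2 → ℝ) = 0 := by
    funext i
    fin_cases i
    · exact e0
    · exact e1
  rw [this, norm_zero] at h2
  norm_num at h2

theorem continuous_zD : Continuous zD := by
  have h : ∀ i : Fin 2, Continuous fun x : D 2 => (x : Fin 2 → ℝ) i := fun i =>
    (continuous_apply i).comp continuous_subtype_val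
  exact (Complex.continuous_ofReal.comp (h 0)).add
    (continuous_const.mul (Complex.continuous_ofReal.comp (h 1)))

theorem continuous_hD : Continuous fun x : D 2 => (1 - ‖(x : Fin 2 → ℝ)‖ : ℝ) :=
  continuous_const.sub continuous_subtype_val.norm

/-- the collapse `D 2 → S²`, `x ↦ [x₀ + i x₁ : 1 - ‖x‖]` -/
def kD : C(D 2, S2) := ⟨fun x => kap (zD x) (1 - ‖(x : Fin 2 → ℝ)‖) (zD_or x), by
  have h1 := continuous_zD
  have h2 := continuous_hD
  apply Cone.continuous_mkS2
  · apply Continuous.div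
    · exact (continuous_const.mul h1).mul (Complex.continuous_ofReal.comp h2)
    · exact Complex.continuous_ofReal.comp ((h1.norm.pow 2).add (h2.pow 2))
    · intro x
      have := kap_pos _ _ (zD_or x)
      exact_mod_cast this.ne'
  · apply Continuous.div
    · exact (h1.norm.pow 2).sub (h2.pow 2)
    · exact (h1.norm.pow 2).add (h2.pow 2)
    · intro x
      have := kap_pos _ _ (zD_or x)
      exact this.ne'⟩

/-- the lift of `kD` -/
def xD : C(D 2, ℂ × ℂ) := ⟨fun x => (zD x, ((1 - ‖(x : Fin 2 → ℝ)‖ : ℝ) : ℂ)),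
  continuous_zD.prodMk (Complex.continuous_ofReal.comp continuous_hD)⟩

theorem xD_lift : IsLift kD xD := fun x => kap_lift _ _ (zD_or x)

theorem kD_north (x : D 2) (h : ‖(x : Fin 2 → ℝ)‖ = 1) : kD x = north := by
  have h1 : ∀ b (hb : zD x ≠ 0 ∨ b ≠ 0), b = 0 → kap (zD x) b hb = north := by
    rintro b hb rfl
    exact kap_north _ hb
  exact h1 _ (zD_or x) (by rw [h, sub_self])

/-- the square as `D 2` -/
def sqD : C(I × I, D 2) := ⟨fun p => ⟨![2 * (p.1 : ℝ) - 1, 2 * (p.2 : ℝ) - 1], by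
    rw [mem_closedBall_zero_iff, pi_norm_le_iff_of_nonneg zero_le_one]
    intro i
    have h1 := p.1.2.1
    have h2 := p.1.2.2
    have h3 := p.2.2.1
    have h4 := p.2.2.2
    fin_cases i
    · show abs (2 * (p.1 : ℝ) - 1) ≤ 1
      rw [abs_le]
      constructor <;> linarith
    · show abs (2 * (p.2 : ℝ) - 1) ≤ 1
      rw [abs_le]
      constructor <;> linarith⟩, by
  apply Continuous.subtype_mk
  apply continuous_pi
  intro i
  fin_cases i
  · exact (continuous_const.mul (continuous_subtype_val.comp continuous_fst)).sub continuous_const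
  · exact (continuous_const.mul (continuous_subtype_val.comp continuous_snd)).sub continuous_const⟩


theorem norm_sqD (p : I × I) (h : p.1 = 0 ∨ p.1 = 1 ∨ p.2 = 0 ∨ p.2 = 1) :
    ‖((sqD p : D 2) : Fin 2 → ℝ)‖ = 1 := by
  refine le_antisymm (sqD p).norm_le ?_
  have h0 : ((sqD p : D 2) : Fin 2 → ℝ) 0 = 2 * (p.1 : ℝ) - 1 := rfl
  have h1 : ((sqD p : D 2) : Fin 2 → ℝ) 1 = 2 * (p.2 : ℝ) - 1 := rfl
  have n0 := norm_le_pi_norm ((sqD p : D 2) : Fin 2 → ℝ) 0
  have n1 := norm_le_pi_norm ((sqD p : D 2) : Fin 2 → ℝ) 1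
  rw [h0, Real.norm_eq_abs] at n0
  rw [h1, Real.norm_eq_abs] at n1
  rcases h with h | h | h | h
  · rw [h] at n0; norm_num at n0; exact n0
  · rw [h] at n0; norm_num at n0; exact n0
  · rw [h] at n1; norm_num at n1; exact n1
  · rw [h] at n1; norm_num at n1; exact n1

/-- the value of the integer cocycle on the collapsed square -/
theorem Om_kD : Om ((kD.comp sqD).comp lowT) - Om ((kD.comp sqD).comp upT) = 1 :=
  Om_square (kD.comp sqD) (xD.comp sqD) (xD_lift.comp sqD) fun p hp =>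
    ⟨kD_north _ (norm_sqD p hp), rfl⟩

/-! ### raw simplices -/

/-- the continuous map underlying a singular simplex -/
def un {E : Type} [TopologicalSpace E] {n : ℕ} (s : SingSimplex E n) : C(Dl n, E) :=
  TopCat.toSSetObjEquiv (TopCat.of E) (op ⦋n⦌) s

/-- the singular simplex of a continuous map -/
def mk {E : Type} [TopologicalSpace E] {n : ℕ} (s : C(Dl n, E)) : SingSimplex E n :=
  (TopCat.toSSetObjEquiv (TopCat.of E) (op ⦋n⦌)).symm s

section
variable {E : Type} [TopologicalSpace E]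

@[simp] theorem un_mk {n : ℕ} (s : C(Dl n, E)) : un (mk s) = s :=
  (TopCat.toSSetObjEquiv (TopCat.of E) (op ⦋n⦌)).apply_symm_apply s
@[simp] theorem mk_un {n : ℕ} (s : SingSimplex E n) : mk (un s) = s :=
  (TopCat.toSSetObjEquiv (TopCat.of E) (op ⦋n⦌)).symm_apply_apply s

theorem un_face {n : ℕ} (i : Fin (n + 2)) (s : SingSimplex E (n + 1)) :
    un (simplexFace i s) = (un s).comp (face i) := rfl


end

/-! ### the cocycle of a family of collapse maps -/

section abs

variable {E K M : Type} [TopologicalSpace E] [AddCommGroup M]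

/-- the cocycle -/
def cu (col : K → C(E, S2)) (b : K → M) (s : SingSimplex E 2) : M :=
  ∑ᶠ k, Om ((col k).comp (un s)) • b k

/-- local finiteness -/
def LF (col : K → C(E, S2)) : Prop :=
  ∀ S : Set E, IsCompact S → {k | ∃ x ∈ S, col k x ≠ north}.Finite

variable {col : K → C(E, S2)} {b : K → M}

theorem Om_comp_eq_zero {n : ℕ} {f : C(E, S2)} (s : C(Dl n, E)) (t : C(Dl 2, Dl n))
    (h : ∀ x, f (s x) = north) : Om (f.comp (s.comp t)) = 0 := by
  have : f.comp (s.comp t) = ContinuousMap.const _ north := by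
    ext1 x
    exact h _
  rw [this, Om_const]

theorem cu_support {n : ℕ} (hcol : LF col) (s : C(Dl n, E)) :
    ∃ T : Finset K, ∀ t : C(Dl 2, Dl n), ∀ k, k ∉ T → Om ((col k).comp (s.comp t)) = 0 := by
  classical
  refine ⟨(hcol (Set.range s) (isCompact_range s.continuous)).toFinset, fun t k hk => ?_⟩
  apply Om_comp_eq_zero
  intro x
  by_contra hx
  apply hk
  rw [Set.Finite.mem_toFinset]
  exact ⟨s x, ⟨x, rfl⟩, hx⟩

theorem cu_eq_sum {s : SingSimplex E 2} {T : Finset K}
    (h : ∀ k, k ∉ T → Om ((col k).comp (un s)) = 0) :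
    cu col b s = ∑ k ∈ T, Om ((col k).comp (un s)) • b k := by
  unfold cu
  apply finsum_eq_sum_of_support_subset
  intro k hk
  by_contra hkT
  apply hk
  show Om ((col k).comp (un s)) • b k = 0
  rw [h k hkT, zero_smul]

theorem cu_cobdry (hcol : LF col) : cochainCobdry (cu col b) = 0 := by
  funext t
  obtain ⟨T, hT⟩ := cu_support hcol (un t)
  show (∑ i : Fin 4, ((-1 : ℤ) ^ (i : ℕ)) • cu col b (simplexFace i t)) = 0
  have h1 : ∀ i : Fin 4, cu col b (simplexFace i t) =
      ∑ k ∈ T, Om (((col k).comp (un t)).comp (face i)) • b k := by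
    intro i
    rw [cu_eq_sum (T := T)]
    · rfl
    · intro k hk
      rw [un_face]
      exact hT (face i) k hk
  simp only [h1, Finset.smul_sum]
  rw [Finset.sum_comm]
  apply Finset.sum_eq_zero
  intro k _
  have h2 := Om_cocycle ((col k).comp (un t))
  rw [← zero_smul ℤ (b k), ← h2, Finset.sum_smul]
  refine Finset.sum_congr rfl fun i _ => ?_
  rw [smul_smul]


theorem cu_single {s : SingSimplex E 2} (k₀ : K) (h : ∀ k, k ≠ k₀ → ∀ x, col k (un s x) = north) :
    cu col b s = Om ((col k₀).comp (un s)) • b k₀ := by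
  classical
  rw [cu_eq_sum (T := {k₀}), Finset.sum_singleton]
  intro k hk
  rw [Finset.mem_singleton] at hk
  have : (col k).comp (un s) = ContinuousMap.const _ north := by
    ext1 x
    exact h k hk x
  rw [this, Om_const]

/-- value of `cu` on a closed 2-cell, given as a map `h : I × I → E` -/
theorem cu_square (h : C(I × I, E)) (k₀ : K) (h0 : (col k₀).comp h = kD.comp sqD)
    (h1 : ∀ k, k ≠ k₀ → ∀ p, col k (h p) = north) :
    cu col b (mk (h.comp lowT)) - cu col b (mk (h.comp upT)) = b k₀ := by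
  rw [cu_single k₀ (fun k hk x => by rw [un_mk]; exact h1 k hk _),
    cu_single k₀ (fun k hk x => by rw [un_mk]; exact h1 k hk _), un_mk, un_mk,
    ← ContinuousMap.comp_assoc, ← ContinuousMap.comp_assoc, h0, ← sub_smul, Om_kD, one_smul]

variable {G : Type} [Group G] [MulAction G E] [ContinuousConstSMul G E] [DistribMulAction G M]

theorem cu_smul (act : G → Equiv.Perm K) (hcol : LF col)
    (hact : ∀ g k x, col (act g k) (g • x) = col k x)
    (hb : ∀ g k, b (act g k) = g • b k) (g : G) (s : SingSimplex E 2) :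
    cu col b (simplexTranslate (Homeomorph.smul g) s) = g • cu col b s := by
  classical
  obtain ⟨T, hT⟩ := cu_support hcol (un s)
  have hT' : ∀ k, k ∉ T → Om ((col k).comp (un s)) = 0 := by
    intro k hk
    have := hT (ContinuousMap.id _) k hk
    rwa [ContinuousMap.comp_id] at this
  rw [cu_eq_sum hT', Finset.smul_sum]
  have key : ∀ k, (col (act g k)).comp (un (simplexTranslate (Homeomorph.smul g : E ≃ₜ E) s)) =
      (col k).comp (un s) := by
    intro k
    ext1 x
    exact hact g k _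
  have h3 : cu col b (simplexTranslate (Homeomorph.smul g) s) =
      ∑ k ∈ T.map (act g).toEmbedding,
        Om ((col k).comp (un (simplexTranslate (Homeomorph.smul g : E ≃ₜ E) s))) • b k := by
    apply cu_eq_sum
    intro k hk
    obtain ⟨k', rfl⟩ := (act g).surjective k
    rw [key]
    apply hT'
    intro h
    exact hk (Finset.mem_map_of_mem _ h)
  rw [h3, Finset.sum_map]
  refine Finset.sum_congr rfl fun k _ => ?_
  show Om ((col (act g k)).comp _) • b (act g k) = _
  rw [key, hb, smul_comm]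

end abs

/-! ### the 2-cells of a free equivariant attachment -/

section gatt

variable {G : Type} [Group G] {Z : Type} [TopologicalSpace Z] [MulAction G Z]
  {C : Type} {φ : C → C(S 2, Z)}

open Classical in
/-- the collapse of the complement of the open cell `k = (g, c)` -/
def gcolF (φ : C → C(S 2, Z)) (k : G × C) (p : GAtt G φ) : S2 :=
  Sum.elim (fun _ => north) (fun q : G × C × B 2 => if q.1 = k.1 ∧ q.2.1 = k.2 then kD (bd 2 q.2.2)
    else north) p

theorem gcolF_inZ (k : G × C) (z : Z) : gcolF φ k (inZ φ z) = north := rfl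

theorem gcolF_chr_self (k : G × C) (x : D 2) : gcolF φ k (chr φ k.1 k.2 x) = kD x := by
  induction x using D.cases' with
  | hB x =>
    rw [chr_bd]
    exact if_pos ⟨rfl, rfl⟩
  | hS x =>
    rw [chr_sd, gcolF_inZ, kD_north _ x.norm_eq]

theorem gcolF_chr_ne {k : G × C} {g : G} {c : C} (h : (g, c) ≠ k) (x : D 2) :
    gcolF φ k (chr φ g c x) = north := by
  induction x using D.cases' with
  | hB x =>
    rw [chr_bd]
    refine if_neg ?_
    rintro ⟨h1, h2⟩
    exact h (Prod.ext h1 h2)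
  | hS x => rw [chr_sd, gcolF_inZ]

/-- the collapse map of a cell of `GAtt` -/
def gcol (φ : C → C(S 2, Z)) (k : G × C) : C(GAtt G φ, S2) := ⟨gcolF φ k, by
  rw [Crest.Agent.R185.Att.continuous_iff]
  constructor
  · exact continuous_const
  · intro g c
    by_cases h : (g, c) = k
    · subst h
      have : gcolF φ (g, c) ∘ chr φ g c = kD := by
        funext x
        exact gcolF_chr_self (g, c) x
      rw [this]
      exact kD.continuous
    · have : gcolF φ k ∘ chr φ g c = fun _ => north := by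
        funext x
        exact gcolF_chr_ne h x
      rw [this]
      exact continuous_const⟩

theorem gcol_inZ (k : G × C) (z : Z) : gcol φ k (inZ φ z) = north := rfl
theorem gcol_chr_self (g : G) (c : C) (x : D 2) : gcol φ (g, c) (chr φ g c x) = kD x :=
  gcolF_chr_self (g, c) x
theorem gcol_chr_ne {k : G × C} {g : G} {c : C} (h : (g, c) ≠ k) (x : D 2) :
    gcol φ k (chr φ g c x) = north := gcolF_chr_ne h x

theorem gcol_LF [T1Space Z] [T2Space (GAtt G φ)] : LF (gcol φ : G × C → C(GAtt G φ, S2)) := by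
  intro K hK
  refine (finite_cells hK).subset ?_
  rintro ⟨g, c⟩ ⟨p, hp, hne⟩
  induction p using GAtt.cases' with
  | hZ z => exact absurd (gcol_inZ _ z) hne
  | hB g' c' x =>
    by_cases h : (g', c') = (g, c)
    · rw [Prod.mk.injEq] at h
      rw [h.1, h.2] at hp
      exact ⟨x, hp⟩
    · exact absurd (by rw [← chr_bd]; exact gcol_chr_ne h _) hne

/-- left translation of the index set -/
def actP (g : G) : Equiv.Perm (G × C) := (Equiv.mulLeft g).prodCongr (Equiv.refl C)

theorem gcol_act [ContinuousConstSMul G Z] (g : G) (k : G × C) (p : GAtt G φ) :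
    gcol φ (actP g k) (g • p) = gcol φ k p := by
  obtain ⟨h, c⟩ := k
  show gcol φ (g * h, c) (g • p) = _
  induction p using GAtt.cases' with
  | hZ z => rfl
  | hB g' c' x =>
    rw [smul_inB, ← chr_bd, ← chr_bd]
    by_cases hk : (g', c') = (h, c)
    · rw [Prod.mk.injEq] at hk
      rw [hk.1, hk.2, gcol_chr_self, gcol_chr_self]
    · rw [gcol_chr_ne hk, gcol_chr_ne]
      intro hk'
      apply hk
      rw [Prod.mk.injEq] at hk' ⊢
      exact ⟨mul_left_cancel hk'.1, hk'.2⟩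


/-- refined zero set: the cocycle with `b c = 0` off a set `J` of types vanishes on every simplex that
avoids the open cells of types in `J`. -/
theorem exists_cell_cocycle' (φ : C → C(S 2, Z)) [ContinuousConstSMul G Z] [T1Space Z]
    [T2Space (GAtt G φ)] {M : Type} [AddCommGroup M] [DistribMulAction G M] (b : C → M) :
    ∃ u : SingSimplex (GAtt G φ) 2 → M, cochainCobdry u = 0 ∧
      (∀ (g : G) (s : SingSimplex (GAtt G φ) 2),
        u (simplexTranslate (Homeomorph.smul g) s) = g • u s) ∧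
      (∀ s : SingSimplex (GAtt G φ) 2,
        (∀ x, ∀ g c y, b c ≠ 0 → un s x ≠ inB φ g c y) → u s = 0) ∧
      ∀ (g : G) (c : C) (h : C(I × I, GAtt G φ)), (∀ p, h p = chr φ g c (sqD p)) →
        u (mk (h.comp lowT)) - u (mk (h.comp upT)) = g • b c := by
  classical
  refine ⟨cu (gcol φ) (fun k : G × C => k.1 • b k.2), cu_cobdry gcol_LF, fun g s => ?_,
    fun s hs => ?_, fun g c h hh => ?_⟩
  · refine cu_smul actP gcol_LF gcol_act (fun g k => ?_) g s
    show (g * k.1) • b k.2 = _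
    rw [mul_smul]
  · show (∑ᶠ k : G × C, Om ((gcol φ k).comp (un s)) • (k.1 • b k.2)) = 0
    apply finsum_eq_zero_of_forall_eq_zero
    rintro ⟨g, c⟩
    by_cases hc : b c = 0
    · rw [hc, smul_zero, smul_zero]
    · have : (gcol φ (g, c)).comp (un s) = ContinuousMap.const _ north := by
        ext1 x
        show gcol φ (g, c) (un s x) = north
        have hx := hs x
        revert hx
        induction un s x using GAtt.cases' with
        | hZ z => intro _; rfl
        | hB g' c' y =>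
          intro hx
          rw [← chr_bd]
          apply gcol_chr_ne
          intro h
          rw [Prod.mk.injEq] at h
          exact hx g' c' y (by rw [h.2]; exact hc) rfl
      rw [this, Om_const, zero_smul]
  · rw [cu_square h (g, c)]
    · ext1 p
      show gcol φ (g, c) (h p) = _
      rw [hh, gcol_chr_self]
      rfl
    · intro k hk p
      rw [hh]
      exact gcol_chr_ne (Ne.symm hk) _

end gatt

end Crest.Agent.R251.HB
end
end

-- ▼ part R251/HB830D
section

/-!
# Row 251: bridge of HB830C (Lemma B for `GAtt`) to the common names (Pr963, PC752, LBg664)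
-/

set_option autoImplicit false
set_option linter.unusedSectionVars false

noncomputable section

open Crest.Agent.R185.Att Crest.GeometryTopology.DeckCochains
open scoped unitInterval

namespace Crest.Agent.R251.HB

theorem aff_lowT : (PC.aff ![((0 : I), (0 : I)), (1, 0), (1, 1)] : C(Pr.Dl 2, I × I)) = lowT := by
  ext1 x
  refine Prod.ext (Subtype.ext ?_) (Subtype.ext ?_)
  · rw [PC.aff_fst, PC.affI_apply, Fin.sum_univ_three]
    show x 0 * (0 : ℝ) + x 1 * (1 : ℝ) + x 2 * (1 : ℝ) = x 1 + x 2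
    ring
  · rw [PC.aff_snd, PC.affI_apply, Fin.sum_univ_three]
    show x 0 * (0 : ℝ) + x 1 * (0 : ℝ) + x 2 * (1 : ℝ) = x 2
    ring

theorem aff_upT : (PC.aff ![((0 : I), (0 : I)), (0, 1), (1, 1)] : C(Pr.Dl 2, I × I)) = upT := by
  ext1 x
  refine Prod.ext (Subtype.ext ?_) (Subtype.ext ?_)
  · rw [PC.aff_fst, PC.affI_apply, Fin.sum_univ_three]
    show x 0 * (0 : ℝ) + x 1 * (0 : ℝ) + x 2 * (1 : ℝ) = x 2
    ring
  · rw [PC.aff_snd, PC.affI_apply, Fin.sum_univ_three]
    show x 0 * (0 : ℝ) + x 1 * (1 : ℝ) + x 2 * (1 : ℝ) = x 1 + x 2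
    ring

section
variable {E : Type} [TopologicalSpace E]

theorem lin_low (f : C(I × I, E)) : PC.lin f ![((0 : I), (0 : I)), (1, 0), (1, 1)] =
    mk (f.comp lowT) := by
  unfold PC.lin
  rw [aff_lowT]
  rfl

theorem lin_up (f : C(I × I, E)) : PC.lin f ![((0 : I), (0 : I)), (0, 1), (1, 1)] =
    mk (f.comp upT) := by
  unfold PC.lin
  rw [aff_upT]
  rfl


end

variable {G : Type} [Group G] {Z : Type} [TopologicalSpace Z] [MulAction G Z]
  {C : Type} {φ : C → C(S 2, Z)}

/-- LEMMA B for the 2-cells of `GAtt G φ`, common names. -/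
theorem lemmaB_gatt (φ : C → C(S 2, Z)) [ContinuousConstSMul G Z] [T1Space Z]
    [T2Space (GAtt G φ)] {M : Type} [AddCommGroup M] [DistribMulAction G M] (b : C → M) :
    ∃ u : SingSimplex (GAtt G φ) 2 → M, Pr.EqC G u ∧ cochainCobdry u = 0 ∧
      (∀ s : SingSimplex (GAtt G φ) 2,
        (∀ x, ∀ g c y, b c ≠ 0 → Pr.us s x ≠ inB φ g c y) → u s = 0) ∧
      ∀ (g : G) (c : C),
        u (PC.lin (LBg.sqc φ g c) ![((0 : I), (0 : I)), (1, 0), (1, 1)]) -
          u (PC.lin (LBg.sqc φ g c) ![((0 : I), (0 : I)), (0, 1), (1, 1)]) = g • b c := by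
  obtain ⟨u, h1, h2, h3, h4⟩ := exists_cell_cocycle' (G := G) φ b
  refine ⟨u, h2, h1, h3, fun g c => ?_⟩
  rw [lin_low, lin_up]
  exact h4 g c _ fun p => rfl

end Crest.Agent.R251.HB
end
end

-- ▼ part R251/JB686
section

/-!
# Row 251 (S0388): the Lemma-B input of K1 / K2 in the notation of Ar348C (helper686)

For every value `m` on the `U`-cell there is an equivariant 2-cocycle on `EE2` which vanishes on all
simplices in `Kr` (Cayley graph and closed `r`-cells) and whose area on the closed `U`-cell is `m`.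
-/

set_option autoImplicit false
set_option linter.unusedSectionVars false

open Set Metric Topology unitInterval
open Crest.Agent.R185.Att Crest.Agent.R185.Base
open Crest.GeometryTopology.DeckCochains
open Crest.Agent.R197 (OrbSep)

namespace Crest.Agent.R251.JB
open Crest.Agent.R251.Mod
open Crest.Agent.R251
open Crest.Agent.R251.Alg (GG)

noncomputable section

section sep

variable (G : Type) [Group G] {ι κ : Type} (gen : ι → G) (wd : κ → List (ι × Bool))
  (hwd : ∀ j, val gen (wd j) = 1)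

theorem orbSep_Z1 : OrbSep G (Z1 G) := orbSep (fun z => z.elim)
theorem orbSep_Z2 : OrbSep G (Z2 gen) := orbSep (orbSep_Z1 G)
theorem orbSep_Z3 : OrbSep G (Z3 gen wd hwd) := orbSep (orbSep_Z2 G gen)

instance t2_Z1 : T2Space (Z1 G) := t2_of_orbSep (orbSep_Z1 G)
instance t2_Z2 : T2Space (Z2 gen) := t2_of_orbSep (orbSep_Z2 G gen)
instance t2_Z3 : T2Space (Z3 gen wd hwd) := t2_of_orbSep (orbSep_Z3 G gen wd hwd)

end sep

section gen

variable {G : Type} [Group G] {ι κ : Type} (gen : ι → G) (wd : κ → List (ι × Bool))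
  (hwd : ∀ j, val gen (wd j) = 1)

/-- points of open cells of types outside `J` are not in `Sk J` -/
theorem inB_notMem_Sk {J : Set κ} {g : G} {j : κ} (hj : j ∉ J) (y : B 2) :
    (inB (φ2 gen wd hwd) g j y : Z3 gen wd hwd) ∉ Sk gen wd hwd J := by
  rintro (⟨z, hz⟩ | h)
  · exact inZ_ne_inB hz
  · obtain ⟨h, j', hj', x, hx⟩ : ∃ h : G, ∃ j' : κ, j' ∈ J ∧ ∃ x,
        cell2 gen wd hwd h j' x = inB (φ2 gen wd hwd) g j y := by
      simpa only [mem_iUnion, mem_range, exists_prop] using h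
    change chr (φ2 gen wd hwd) h j' x = _ at hx
    induction x using D.cases' with
    | hB x =>
      rw [chr_bd] at hx
      rw [(inB_inj.1 hx).2.1] at hj'
      exact hj hj'
    | hS x =>
      rw [chr_sd] at hx
      exact inZ_ne_inB hx

/-- **Lemma B for the Cayley complex**, in the notation of Ar348C: `b` on the 2-cells, zero on the
simplices in `Sk J` as soon as `b = 0` on `J` -/
theorem exists_cocycle (M : Type) [AddCommGroup M] [DistribMulAction G M] (b : κ → M) :
    ∃ u : SingSimplex (Z3 gen wd hwd) 2 → M, Pr.EqC G u ∧ cochainCobdry u = 0 ∧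
      (∀ (J : Set κ), (∀ j ∈ J, b j = 0) → ∀ s : SingSimplex (Z3 gen wd hwd) 2,
        (∀ x, Pr.us s x ∈ Sk gen wd hwd J) → u s = 0) ∧
      ∀ (g : G) (j : κ), Ar.area u ((cell2 gen wd hwd g j).comp LBg.sq) = g • b j := by
  obtain ⟨u, h1, h2, h3, h4⟩ := HB.lemmaB_gatt (G := G) (φ2 gen wd hwd) b
  refine ⟨u, h1, h2, fun J hJ s hs => h3 s fun x g c y hc hx => ?_, fun g j => h4 g j⟩
  have h5 := hs x
  rw [hx] at h5
  exact inB_notMem_Sk gen wd hwd (fun hcJ => hc (hJ c hcJ)) y h5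

end gen

/-- **input of K1 / K2**: for every `m` an equivariant 2-cocycle on `EE2`, admissible for `Kr`, of
area `m` on the closed `U`-cell `cU` -/
theorem exists_adm (M : Type) [AddCommGroup M] [DistribMulAction GG M] (m : M) :
    ∃ u : SingSimplex EE2 2 → M, Pr.EqC GG u ∧ cochainCobdry u = 0 ∧ Ar.AdmS J19.inc u ∧
      Ar.area u (J19.cU.comp LBg.sq) = m := by
  obtain ⟨u, h1, h2, h3, h4⟩ := exists_cocycle gn wdd hwdd M ![0, m]
  refine ⟨u, h1, h2, ⟨h2, fun s hs => ?_⟩, ?_⟩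
  · refine h3 {0} ?_ _ fun x => ?_
    · rintro j rfl
      rfl
    · rw [Pr.us_sx]
      have := hs x
      rw [J19.range_inc] at this
      exact this
  · have := h4 1 1
    rw [one_smul] at this
    exact this

end

end Crest.Agent.R251.JB
end

-- ▼ part R251/Ar348E
section

/-! Row 251 / S0388, block AR (helper348), part E: the period of a disc is the area of its square. -/

set_option autoImplicit false
set_option linter.unusedSectionVars false

open Set Metric
open Crest.GeometryTopology.DeckCochains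
open Crest.Agent.R251.Pr (Dl sx us sx_surj face_sx us_sx sx_us push pull cobdry_pull)
open Crest.Agent.R251.PC (lin ps stokes vert horz ClosedOn Cvx seg)
open Crest.Agent.R185.Att (D S sd rad tl)
open Crest.Agent.R185.Base (cr continuous_cr cr_inj cr_surj cs cs_ne cs_zero cs_one)

local notation "I" => unitInterval

namespace Crest.Agent.R251.Ar

noncomputable section

variable {E Z : Type} [TopologicalSpace E] [TopologicalSpace Z]
variable {M : Type} [AddCommGroup M]

/-! ### the four sides of the boundary curve -/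

theorem abs_sin_le_cos {φ : ℝ} (h1 : -(Real.pi / 4) ≤ φ) (h2 : φ ≤ Real.pi / 4) :
    |Real.sin φ| ≤ Real.cos φ := by
  have hp := Real.pi_pos
  have h3 : Real.cos (Real.pi / 4) ≤ Real.cos φ := by
    rw [← Real.cos_abs φ]
    exact Real.cos_le_cos_of_nonneg_of_le_pi (abs_nonneg _) (by linarith) (abs_le.2 ⟨h1, h2⟩)
  rw [Real.cos_pi_div_four] at h3
  refine le_trans ?_ h3
  rw [← Real.sin_pi_div_four, abs_le]
  constructor
  · rw [← Real.sin_neg]
    exact Real.sin_le_sin_of_le_of_le_pi_div_two (by linarith) (by linarith) h1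
  · exact Real.sin_le_sin_of_le_of_le_pi_div_two (by linarith) (by linarith) h2

theorem cr_side (t : ℝ) (k l : Fin 2) (hkl : k ≠ l) (e : ℝ) (he : e * e = 1)
    (h : |cs t l| ≤ e * cs t k) : (cr t : Fin 2 → ℝ) k = e := by
  have he1 : |e| = 1 := by
    have h1 := abs_mul_abs_self e
    rw [he] at h1
    have h2 := abs_nonneg e
    nlinarith
  have h0 : 0 ≤ e * cs t k := (abs_nonneg _).trans h
  have h1 : |cs t k| = e * cs t k := by
    rw [← abs_of_nonneg h0, abs_mul, he1, one_mul]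
  have hn : ‖cs t‖ = e * cs t k := by
    apply le_antisymm
    · refine (pi_norm_le_iff_of_nonneg h0).2 fun j => ?_
      rw [Real.norm_eq_abs]
      by_cases hj : j = k
      · rw [hj, h1]
      · have : j = l := by omega
        rw [this]
        exact h
    · rw [← h1]
      exact norm_le_pi_norm (cs t) k
  have hne : cs t k ≠ 0 := by
    intro h2
    rw [h2, mul_zero] at hn
    exact cs_ne t (norm_eq_zero.1 hn)
  show ‖cs t‖⁻¹ * cs t k = e
  rw [hn]
  have hee : e ≠ 0 := by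
    rintro rfl
    simp at he
  field_simp
  nlinarith

theorem cr_right (t : ℝ) (h : t ≤ 1 / 8 ∧ 0 ≤ t ∨ 7 / 8 ≤ t ∧ t ≤ 1) :
    (cr t : Fin 2 → ℝ) 0 = 1 := by
  have hp := Real.pi_pos
  apply cr_side t 0 1 (by decide) 1 (by norm_num)
  rw [cs_zero, cs_one, one_mul]
  rcases h with ⟨h1, h2⟩ | ⟨h1, h2⟩
  · exact abs_sin_le_cos (by nlinarith) (by nlinarith)
  · rw [← Real.sin_sub_two_pi, ← Real.cos_sub_two_pi]
    exact abs_sin_le_cos (by nlinarith) (by nlinarith)

theorem cr_top (t : ℝ) (h1 : 1 / 8 ≤ t) (h2 : t ≤ 3 / 8) : (cr t : Fin 2 → ℝ) 1 = 1 := by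
  have hp := Real.pi_pos
  apply cr_side t 1 0 (by decide) 1 (by norm_num)
  have h3 := abs_sin_le_cos (φ := 2 * Real.pi * t - Real.pi / 2) (by nlinarith) (by nlinarith)
  rw [Real.sin_sub_pi_div_two, Real.cos_sub_pi_div_two, abs_neg] at h3
  rw [cs_zero, cs_one, one_mul]
  exact h3

theorem cr_left (t : ℝ) (h1 : 3 / 8 ≤ t) (h2 : t ≤ 5 / 8) : (cr t : Fin 2 → ℝ) 0 = -1 := by
  have hp := Real.pi_pos
  apply cr_side t 0 1 (by decide) (-1) (by norm_num)
  have h3 := abs_sin_le_cos (φ := 2 * Real.pi * t - Real.pi) (by nlinarith) (by nlinarith)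
  rw [Real.sin_sub_pi, Real.cos_sub_pi, abs_neg] at h3
  rw [cs_zero, cs_one, neg_one_mul]
  exact h3

theorem cr_bot (t : ℝ) (h1 : 5 / 8 ≤ t) (h2 : t ≤ 7 / 8) : (cr t : Fin 2 → ℝ) 1 = -1 := by
  have hp := Real.pi_pos
  apply cr_side t 1 0 (by decide) (-1) (by norm_num)
  have h3 := abs_sin_le_cos (φ := 2 * Real.pi * t - Real.pi - Real.pi / 2) (by nlinarith)
    (by nlinarith)
  rw [Real.sin_sub_pi_div_two, Real.cos_sub_pi_div_two, Real.sin_sub_pi, Real.cos_sub_pi,
    abs_neg, abs_neg] at h3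
  rw [cs_zero, cs_one, neg_one_mul]
  exact h3

theorem cr_zero_coe : (cr 0 : Fin 2 → ℝ) = ![1, 0] := by
  have h1 : (cr 0 : Fin 2 → ℝ) 0 = 1 := cr_right 0 (Or.inl ⟨by norm_num, le_rfl⟩)
  have h2 : (cr 0 : Fin 2 → ℝ) 1 = 0 := by
    show ‖cs 0‖⁻¹ * cs 0 1 = 0
    rw [cs_one]
    simp
  funext j
  fin_cases j
  · exact h1
  · exact h2

/-! ### closed cochains on a side -/

/-- the boundary of the disc -/
def bD : Set (D 2) := {y | ‖(y : Fin 2 → ℝ)‖ = 1}

theorem mem_bD {y : D 2} {k : Fin 2} {e : ℝ} (he : |e| = 1) (h : (y : Fin 2 → ℝ) k = e) : y ∈ bD := by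
  refine le_antisymm y.norm_le ?_
  have h1 := norm_le_pi_norm (y : Fin 2 → ℝ) k
  rw [Real.norm_eq_abs, h, he] at h1
  exact h1

/-- the straight homotopy -/
def strt (p q : C(I, D 2)) : C(I × I, D 2) := ⟨fun x =>
    ⟨(1 - (x.2 : ℝ)) • (p x.1 : Fin 2 → ℝ) + (x.2 : ℝ) • (q x.1 : Fin 2 → ℝ), by
    exact (convex_closedBall (0 : Fin 2 → ℝ) 1) (p x.1).2 (q x.1).2 (by linarith [x.2.2.2]) x.2.2.1
      (by ring)⟩, by
  refine Continuous.subtype_mk ?_ _
  exact ((continuous_const.sub (continuous_subtype_val.comp continuous_snd)).smul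
    (continuous_subtype_val.comp (p.continuous.comp continuous_fst))).add
    ((continuous_subtype_val.comp continuous_snd).smul
      (continuous_subtype_val.comp (q.continuous.comp continuous_fst)))⟩

theorem closed_side {β : SingSimplex (D 2) 1 → M} (hβ : ClosedOn β bD) {p q : C(I, D 2)}
    (k : Fin 2) (e : ℝ) (he : |e| = 1) (hp : ∀ t, (p t : Fin 2 → ℝ) k = e)
    (hq : ∀ t, (q t : Fin 2 → ℝ) k = e) (h0 : p 0 = q 0) (h1 : p 1 = q 1) :
    β (ps p) = β (ps q) := by
  have hV : ∀ x, strt p q x ∈ bD := fun x => by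
    apply mem_bD (k := k) he
    show (1 - (x.2 : ℝ)) * (p x.1 : Fin 2 → ℝ) k + (x.2 : ℝ) * (q x.1 : Fin 2 → ℝ) k = e
    rw [hp, hq]
    ring
  have h := hβ.square (strt p q) hV
  have e0 : vert (strt p q) 0 = ContinuousMap.const I (p 0) := by
    ext1 t
    apply Subtype.ext
    show (1 - (t : ℝ)) • (p 0 : Fin 2 → ℝ) + (t : ℝ) • (q 0 : Fin 2 → ℝ) = (p 0 : Fin 2 → ℝ)
    rw [← h0, ← add_smul, sub_add_cancel, one_smul]
  have e1 : vert (strt p q) 1 = ContinuousMap.const I (p 1) := by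
    ext1 t
    apply Subtype.ext
    show (1 - (t : ℝ)) • (p 1 : Fin 2 → ℝ) + (t : ℝ) • (q 1 : Fin 2 → ℝ) = (p 1 : Fin 2 → ℝ)
    rw [← h1, ← add_smul, sub_add_cancel, one_smul]
  have e2 : horz (strt p q) 0 = p := by
    ext1 t
    apply Subtype.ext
    show (1 - (0 : ℝ)) • (p t : Fin 2 → ℝ) + (0 : ℝ) • (q t : Fin 2 → ℝ) = _
    simp
  have e3 : horz (strt p q) 1 = q := by
    ext1 t
    apply Subtype.ext
    show (1 - (1 : ℝ)) • (p t : Fin 2 → ℝ) + (1 : ℝ) • (q t : Fin 2 → ℝ) = _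
    simp
  have f0 : p 0 ∈ bD := mem_bD he (hp 0)
  have f1 : p 1 ∈ bD := mem_bD he (hp 1)
  rw [e0, e1, e2, e3, hβ.const f0, hβ.const f1, zero_add, zero_add] at h
  exact h.symm

theorem seg_mem {a b : I} (t : I) : min (a : ℝ) b ≤ (seg a b t : I) ∧ ((seg a b t : I) : ℝ) ≤ max (a : ℝ) b := by
  rw [PC.seg_apply_I]
  have h0 := t.2.1
  have h1 := t.2.2
  constructor
  · have ha := min_le_left (a : ℝ) b
    have hb := min_le_right (a : ℝ) b
    nlinarith
  · have ha := le_max_left (a : ℝ) b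
    have hb := le_max_right (a : ℝ) b
    nlinarith

theorem arc_eq {β : SingSimplex (D 2) 1 → M} (hβ : ClosedOn β bD) (w : C(I, D 2)) (k : Fin 2) (e : ℝ)
    (he : |e| = 1) {a b a' b' : I} (hab : a ≤ b)
    (hp : ∀ t : I, a ≤ t → t ≤ b → (cp t : Fin 2 → ℝ) k = e)
    (hw : ∀ t, (w t : Fin 2 → ℝ) k = e) (ha : cp a = w a') (hb : cp b = w b') :
    β (lin cp ![a, b]) = β (lin w ![a', b']) := by
  rw [PC.lin_eq_ps, PC.lin_eq_ps]
  have hab' : (a : ℝ) ≤ b := hab
  refine closed_side hβ k e he (fun t => ?_) (fun t => hw _) ?_ ?_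
  · have h := seg_mem (a := a) (b := b) t
    rw [min_eq_left hab', max_eq_right hab'] at h
    exact hp _ h.1 h.2
  · show cp (seg a b 0) = w (seg a' b' 0)
    have h1 : seg a b 0 = a := by
      apply Subtype.ext; rw [PC.seg_apply_I]; simp
    have h2 : seg a' b' 0 = a' := by
      apply Subtype.ext; rw [PC.seg_apply_I]; simp
    rw [h1, h2, ha]
  · show cp (seg a b 1) = w (seg a' b' 1)
    have h1 : seg a b 1 = b := by
      apply Subtype.ext; rw [PC.seg_apply_I]; simp
    have h2 : seg a' b' 1 = b' := by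
      apply Subtype.ext; rw [PC.seg_apply_I]; simp
    rw [h1, h2, hb]

theorem ext_D2 {x y : D 2} (h0 : (x : Fin 2 → ℝ) 0 = (y : Fin 2 → ℝ) 0)
    (h1 : (x : Fin 2 → ℝ) 1 = (y : Fin 2 → ℝ) 1) : x = y := by
  apply Subtype.ext
  funext j
  fin_cases j
  · exact h0
  · exact h1

/-- the holonomy of a closed cochain along the boundary curve is the sum over the four sides -/
theorem cp_eq_sides {β : SingSimplex (D 2) 1 → M} (hβ : ClosedOn β bD) {sq : C(I × I, D 2)}
    (hsq : ∀ x : I × I, (sq x : Fin 2 → ℝ) = ![2 * (x.1 : ℝ) - 1, 2 * (x.2 : ℝ) - 1]) :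
    β (ps cp) = β (ps (horz sq 0)) + β (ps (vert sq 1)) - β (ps (horz sq 1)) -
      β (ps (vert sq 0)) := by
  have s0 : ∀ x : I × I, (sq x : Fin 2 → ℝ) 0 = 2 * (x.1 : ℝ) - 1 := fun x => by rw [hsq]; rfl
  have s1 : ∀ x : I × I, (sq x : Fin 2 → ℝ) 1 = 2 * (x.2 : ℝ) - 1 := fun x => by rw [hsq]; rfl
  let q1 : I := ⟨1 / 8, by norm_num, by norm_num⟩
  let q3 : I := ⟨3 / 8, by norm_num, by norm_num⟩
  let q5 : I := ⟨5 / 8, by norm_num, by norm_num⟩
  let q7 : I := ⟨7 / 8, by norm_num, by norm_num⟩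
  have hcp : ∀ t, cp t ∈ bD := fun t => (cr t).norm_eq
  have c0 : ∀ t : I, (cp t : Fin 2 → ℝ) = (cr t : Fin 2 → ℝ) := fun t => rfl
  -- corners
  have p1 : cp q1 = sq (1, 1) := by
    apply ext_D2
    · rw [c0, s0, cr_right _ (Or.inl ⟨le_rfl, by norm_num [q1]⟩)]
      norm_num
    · rw [c0, s1, cr_top _ le_rfl (by norm_num [q1])]
      norm_num
  have p3 : cp q3 = sq (0, 1) := by
    apply ext_D2
    · rw [c0, s0, cr_left _ le_rfl (by norm_num [q3])]
      norm_num
    · rw [c0, s1, cr_top _ (by norm_num [q3]) le_rfl]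
      norm_num
  have p5 : cp q5 = sq (0, 0) := by
    apply ext_D2
    · rw [c0, s0, cr_left _ (by norm_num [q5]) le_rfl]
      norm_num
    · rw [c0, s1, cr_bot _ le_rfl (by norm_num [q5])]
      norm_num
  have p7 : cp q7 = sq (1, 0) := by
    apply ext_D2
    · rw [c0, s0, cr_right _ (Or.inr ⟨le_rfl, by norm_num [q7]⟩)]
      norm_num
    · rw [c0, s1, cr_bot _ (by norm_num [q7]) le_rfl]
      norm_num
  have p0 : cp 0 = sq (1, PC.half) := by
    apply ext_D2
    · rw [c0, s0]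
      show (cr 0 : Fin 2 → ℝ) 0 = _
      rw [cr_zero_coe]
      norm_num
    · rw [c0, s1]
      show (cr 0 : Fin 2 → ℝ) 1 = _
      rw [cr_zero_coe]
      norm_num [PC.half]
  have p8 : cp 1 = sq (1, PC.half) := by
    rw [← p0]
    apply Subtype.ext
    show (cr 1 : Fin 2 → ℝ) = (cr 0 : Fin 2 → ℝ)
    rw [cr_one]
  have t1 := hβ.tri' cp hcp 0 q1 1
  have t2 := hβ.tri' cp hcp q1 q3 1
  have t3 := hβ.tri' cp hcp q3 q5 1
  have t4 := hβ.tri' cp hcp q5 q7 1
  have a1 := arc_eq hβ (vert sq 1) 0 1 (by norm_num) (a := 0) (b := q1) (a' := PC.half) (b' := 1)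
    (by show (0 : ℝ) ≤ 1 / 8; norm_num)
    (fun t _ h2 => by rw [c0]; exact cr_right _ (Or.inl ⟨h2, t.2.1⟩))
    (fun t => by show (sq (1, t) : Fin 2 → ℝ) 0 = 1; rw [s0]; norm_num) p0 p1
  have a2 := arc_eq hβ (horz sq 1) 1 1 (by norm_num) (a := q1) (b := q3) (a' := 1) (b' := 0)
    (by show (1 / 8 : ℝ) ≤ 3 / 8; norm_num)
    (fun t h1 h2 => by rw [c0]; exact cr_top _ h1 h2)
    (fun t => by show (sq (t, 1) : Fin 2 → ℝ) 1 = 1; rw [s1]; norm_num) p1 p3
  have a3 := arc_eq hβ (vert sq 0) 0 (-1) (by norm_num) (a := q3) (b := q5) (a' := 1) (b' := 0)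
    (by show (3 / 8 : ℝ) ≤ 5 / 8; norm_num)
    (fun t h1 h2 => by rw [c0]; exact cr_left _ h1 h2)
    (fun t => by show (sq (0, t) : Fin 2 → ℝ) 0 = -1; rw [s0]; norm_num) p3 p5
  have a4 := arc_eq hβ (horz sq 0) 1 (-1) (by norm_num) (a := q5) (b := q7) (a' := 0) (b' := 1)
    (by show (5 / 8 : ℝ) ≤ 7 / 8; norm_num)
    (fun t h1 h2 => by rw [c0]; exact cr_bot _ h1 h2)
    (fun t => by show (sq (t, 0) : Fin 2 → ℝ) 1 = -1; rw [s1]; norm_num) p5 p7
  have a5 := arc_eq hβ (vert sq 1) 0 1 (by norm_num) (a := q7) (b := 1) (a' := 0) (b' := PC.half)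
    (by show (7 / 8 : ℝ) ≤ 1; norm_num)
    (fun t h1 h2 => by rw [c0]; exact cr_right _ (Or.inr ⟨h1, h2⟩))
    (fun t => by show (sq (1, t) : Fin 2 → ℝ) 0 = 1; rw [s0]; norm_num) p7 p8
  have v1 : ∀ t, vert sq 1 t ∈ bD := fun t => mem_bD (k := 0) (e := 1) (by norm_num)
    (by show (sq (1, t) : Fin 2 → ℝ) 0 = 1; rw [s0]; norm_num)
  have v0 : ∀ t, vert sq 0 t ∈ bD := fun t => mem_bD (k := 0) (e := -1) (by norm_num)
    (by show (sq (0, t) : Fin 2 → ℝ) 0 = -1; rw [s0]; norm_num)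
  have h1 : ∀ t, horz sq 1 t ∈ bD := fun t => mem_bD (k := 1) (e := 1) (by norm_num)
    (by show (sq (t, 1) : Fin 2 → ℝ) 1 = 1; rw [s1]; norm_num)
  have w1 := hβ.tri' (vert sq 1) v1 0 PC.half 1
  have w2 := hβ.swap (Z := I) (horz sq 1) 0 1 (fun s => h1 _)
  have w3 := hβ.swap (Z := I) (vert sq 0) 0 1 (fun s => v0 _)
  have g0 : β (ps cp) = β (lin cp ![(0 : I), 1]) := rfl
  have g1 : β (ps (vert sq 1)) = β (lin (vert sq 1) ![(0 : I), 1]) := rfl
  have g2 : β (ps (horz sq 0)) = β (lin (horz sq 0) ![(0 : I), 1]) := rfl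
  have g3 : β (ps (horz sq 1)) = β (lin (horz sq 1) ![(0 : I), 1]) := rfl
  have g4 : β (ps (vert sq 0)) = β (lin (vert sq 0) ![(0 : I), 1]) := rfl
  rw [g0, t1, t2, t3, t4, a1, a2, a3, a4, a5, w2, w3, g1, g2, g3, g4, w1]
  abel

/-- **(C4)** the period of a cell is the area of its square -/
theorem cell_per {i : C(Z, E)} {c : C(D 2, E)} (hc : ∀ t : I, c (cp t) ∈ range i)
    {u : SingSimplex E 2 → M} (hu : AdmS i u) {β : SingSimplex (D 2) 1 → M}
    (hβ : cochainCobdry β = pull c u) {sq : C(I × I, D 2)}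
    (hsq : ∀ x : I × I, (sq x : Fin 2 → ℝ) = ![2 * (x.1 : ℝ) - 1, 2 * (x.2 : ℝ) - 1]) :
    β (ps cp) = area u (c.comp sq) := by
  have hV : ∀ y ∈ bD, c y ∈ range i := fun y hy => by
    obtain ⟨t, ht⟩ := cr_surj ⟨(y : Fin 2 → ℝ), mem_sphere_zero_iff_norm.2 hy⟩
    have : y = cp t := Subtype.ext (by
      show (y : Fin 2 → ℝ) = (cr t : Fin 2 → ℝ)
      rw [ht])
    rw [this]
    exact hc t
  have hcl : ClosedOn β bD := by
    intro τ hτ
    rw [hβ]
    exact hu.2 (c.comp τ) fun s => hV _ (hτ s)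
  rw [cp_eq_sides hcl hsq]
  have h1 := stokes β sq
  rw [hβ] at h1
  have e1 : area u (c.comp sq) = pull c u (lin sq ![((0 : I), (0 : I)), (1, 0), (1, 1)]) -
      pull c u (lin sq ![((0 : I), (0 : I)), (0, 1), (1, 1)]) := rfl
  rw [e1, ← neg_sub (pull c u (lin sq ![((0 : I), (0 : I)), (0, 1), (1, 1)])), h1]
  abel

end

end Crest.Agent.R251.Ar
end

-- ▼ part R251/Sph679
section

/-!
# R251 (S0388) (helper679): cohomology of the spheres `S m` (boundary of the cube), (s0)

`van0_mv` : plain Mayer-Vietoris.  `van0_S : m ≤ n + 1 → Van0 (S (m)) M n` for `1 ≤ m`.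
-/

set_option autoImplicit false
set_option linter.unusedSectionVars false

open CategoryTheory Simplicial Opposite Set Metric Topology
open scoped unitInterval
open Crest.GeometryTopology.DeckCochains
open Crest.Agent.R251.Pr

namespace Crest.Agent.R251.Orb

section mv
variable {E : Type} [TopologicalSpace E] {M : Type} [AddCommGroup M] {n : ℕ}


/-- plain gluing -/
theorem glue0 {U V : Set E} (hU : IsOpen U) (hV : IsOpen V) (hUV : U ∪ V = Set.univ)
    {ω : SingSimplex E (n + 2) → M} (hc : cochainCobdry ω = 0)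
    (bU bV : SingSimplex E (n + 1) → M) (η : SingSimplex E n → M)
    (h1 : ∀ s, SIn U s → cochainCobdry bU s = ω s) (h2 : ∀ s, SIn V s → cochainCobdry bV s = ω s)
    (h3 : ∀ s, SIn U s → SIn V s → bU s - bV s = cochainCobdry η s) :
    ∃ ψ : SingSimplex E (n + 1) → M, cochainCobdry ψ = ω ∧
      (∀ s, SIn U s → ψ s = bU s) ∧ ∀ s, SIn V s → ψ s = bV s + cochainCobdry η s := by
  let _ := trivAct E
  have _ : ContinuousConstSMul PUnit E := ⟨fun _ => continuous_id⟩
  let _ := trivDAct M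
  have he : ∀ {k : ℕ} (χ : SingSimplex E k → M), EqC PUnit χ := fun χ g s => by
    show χ (Pr.push (ContinuousMap.id E) s) = χ s
    rw [push_id]
  obtain ⟨ψ, -, h4, h5, h6⟩ := glueP (G := PUnit) hU hV hUV (fun _ _ => Iff.rfl)
    (fun _ _ => Iff.rfl) (he ω) hc bU bV (he _) (he _) η (he _) h1 h2 h3
  exact ⟨ψ, h4, h5, h6⟩


end mv

/-! ### the spheres -/

section sphere
open Crest.Agent.R185.Att

/-- upper part of the sphere -/
def SA (m : ℕ) : Set (S (m + 1)) := {x | -(1/2 : ℝ) < (x : Fin (m + 1) → ℝ) 0}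
/-- lower part of the sphere -/
def SB (m : ℕ) : Set (S (m + 1)) := {x | (x : Fin (m + 1) → ℝ) 0 < 1/2}

theorem isOpen_SA (m : ℕ) : IsOpen (SA m) :=
  isOpen_lt continuous_const ((continuous_apply 0).comp continuous_subtype_val)
theorem isOpen_SB (m : ℕ) : IsOpen (SB m) :=
  isOpen_lt ((continuous_apply 0).comp continuous_subtype_val) continuous_const

theorem SA_union_SB (m : ℕ) : SA m ∪ SB m = univ := by
  refine eq_univ_of_forall fun x => ?_
  rcases lt_or_ge (-(1/2 : ℝ)) ((x : Fin (m + 1) → ℝ) 0) with h | h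
  · exact Or.inl h
  · exact Or.inr (show (x : Fin (m + 1) → ℝ) 0 < 1/2 by linarith)

/-- norm of a vector in terms of head and tail -/
theorem norm_cons (m : ℕ) (a : ℝ) (y : Fin m → ℝ) :
    ‖(Fin.cons a y : Fin (m + 1) → ℝ)‖ = max |a| ‖y‖ := by
  apply le_antisymm
  · rw [norm_cons_le_iff]
    exact ⟨le_max_left _ _, le_max_right _ _⟩
  · refine max_le ?_ ?_
    · have := norm_le_pi_norm (Fin.cons a y : Fin (m + 1) → ℝ) 0
      simpa using this
    · refine (pi_norm_le_iff_of_nonneg (norm_nonneg _)).2 fun i => ?_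
      have := norm_le_pi_norm (Fin.cons a y : Fin (m + 1) → ℝ) i.succ
      simpa using this
where
  norm_cons_le_iff {r : ℝ} : ‖(Fin.cons a y : Fin (m + 1) → ℝ)‖ ≤ r ↔ |a| ≤ r ∧ ‖y‖ ≤ r := by
    constructor
    · intro h
      refine ⟨?_, ?_⟩
      · have := norm_le_pi_norm (Fin.cons a y : Fin (m + 1) → ℝ) 0
        have h2 : ‖a‖ ≤ ‖(Fin.cons a y : Fin (m + 1) → ℝ)‖ := by simpa using this
        exact h2.trans h
      · have hr : 0 ≤ r := (norm_nonneg _).trans h
        refine (pi_norm_le_iff_of_nonneg hr).2 fun i => ?_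
        have := norm_le_pi_norm (Fin.cons a y : Fin (m + 1) → ℝ) i.succ
        have h2 : ‖y i‖ ≤ ‖(Fin.cons a y : Fin (m + 1) → ℝ)‖ := by simpa using this
        exact h2.trans h
    · rintro ⟨h1, h2⟩
      have hr : 0 ≤ r := (abs_nonneg _).trans h1
      refine (pi_norm_le_iff_of_nonneg hr).2 fun i => ?_
      refine Fin.cases ?_ (fun j => ?_) i
      · simpa using h1
      · simpa using (norm_le_pi_norm y j).trans h2

/-- head and tail of a point of the sphere -/
theorem S_max_eq {m : ℕ} (x : S (m + 1)) :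
    max |(x : Fin (m + 1) → ℝ) 0| ‖Fin.tail (x : Fin (m + 1) → ℝ)‖ = 1 := by
  rw [← norm_cons, Fin.cons_self_tail, x.norm_eq]

theorem continuous_tail (m : ℕ) : Continuous fun x : Fin (m + 1) → ℝ => Fin.tail x :=
  continuous_pi fun i => continuous_apply i.succ



/-- if the head is smaller than one, the tail is on the sphere -/
theorem S_tail_eq {m : ℕ} (x : S (m + 1)) (h : |(x : Fin (m + 1) → ℝ) 0| < 1) :
    ‖Fin.tail (x : Fin (m + 1) → ℝ)‖ = 1 := by
  rcases le_total |(x : Fin (m + 1) → ℝ) 0| ‖Fin.tail (x : Fin (m + 1) → ℝ)‖ with h1 | h1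
  · have := (S_max_eq x)
    rw [max_eq_right h1] at this
    exact this
  · have := (S_max_eq x)
    rw [max_eq_left h1] at this
    linarith








variable {M : Type} [AddCommGroup M]



/-- the equatorial belt -/
abbrev Belt (m : ℕ) : Type := (SA m ∩ SB m : Set (S (m + 1)))

theorem belt_tail {m : ℕ} (x : Belt m) :
    ‖Fin.tail ((x : S (m + 1)) : Fin (m + 1) → ℝ)‖ = 1 := by
  refine S_tail_eq _ ?_
  have h1 : -(1/2 : ℝ) < ((x : S (m + 1)) : Fin (m + 1) → ℝ) 0 := x.2.1
  have h2 : ((x : S (m + 1)) : Fin (m + 1) → ℝ) 0 < 1/2 := x.2.2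
  rw [abs_lt]
  constructor <;> linarith

/-- projection of the belt to the equator -/
def beltR (m : ℕ) : C(Belt m, S m) :=
  ⟨fun x => ⟨Fin.tail ((x : S (m + 1)) : Fin (m + 1) → ℝ), mem_sphere_zero_iff_norm.2 (belt_tail x)⟩,
    ((continuous_tail m).comp (continuous_subtype_val.comp continuous_subtype_val)).subtype_mk _⟩

theorem norm_cons_of_le {m : ℕ} {a : ℝ} (ha : |a| ≤ 1) (y : S m) :
    ‖(Fin.cons a (y : Fin m → ℝ) : Fin (m + 1) → ℝ)‖ = 1 := by
  rw [norm_cons, y.norm_eq]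
  exact max_eq_right ha

/-- points of the belt -/
def beltPt {m : ℕ} (a : ℝ) (ha : |a| < 1/2) (y : S m) : Belt m :=
  ⟨⟨Fin.cons a (y : Fin m → ℝ), mem_sphere_zero_iff_norm.2 (norm_cons_of_le (by linarith) y)⟩, by
    rw [abs_lt] at ha
    exact ⟨ha.1, ha.2⟩⟩

/-- the equator -/
def beltS (m : ℕ) : C(S m, Belt m) :=
  ⟨fun y => beltPt 0 (by norm_num) y, by
    refine Continuous.subtype_mk (Continuous.subtype_mk ?_ _) _
    refine continuous_pi fun i => ?_
    refine Fin.cases ?_ (fun j => ?_) i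
    · exact continuous_const
    · exact (continuous_apply j).comp continuous_subtype_val⟩

@[simp] theorem beltR_beltS {m : ℕ} (y : S m) : beltR m (beltS m y) = y := rfl

theorem belt_head {m : ℕ} (x : Belt m) : |((x : S (m + 1)) : Fin (m + 1) → ℝ) 0| < 1/2 :=
  abs_lt.2 ⟨x.2.1, x.2.2⟩

/-- the deformation of the belt onto the equator -/
def beltH (m : ℕ) : C(Belt m × I, Belt m) :=
  ⟨fun p => beltPt ((1 - (p.2 : ℝ)) * ((p.1 : S (m + 1)) : Fin (m + 1) → ℝ) 0) (by
      have h0 : (0 : ℝ) ≤ p.2 := p.2.2.1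
      have h1 : (p.2 : ℝ) ≤ 1 := p.2.2.2
      rw [abs_mul, abs_of_nonneg (by linarith : 0 ≤ 1 - (p.2 : ℝ))]
      have := belt_head p.1
      nlinarith [abs_nonneg (((p.1 : S (m + 1)) : Fin (m + 1) → ℝ) 0)]) (beltR m p.1), by
    refine Continuous.subtype_mk (Continuous.subtype_mk ?_ _) _
    have c1 : Continuous fun p : Belt m × I => (((p.1 : S (m + 1)) : Fin (m + 1) → ℝ)) :=
      continuous_subtype_val.comp (continuous_subtype_val.comp continuous_fst)
    have c2 : Continuous fun p : Belt m × I => (p.2 : ℝ) :=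
      continuous_subtype_val.comp continuous_snd
    refine continuous_pi fun i => ?_
    refine Fin.cases ?_ (fun j => ?_) i
    · exact (continuous_const.sub c2).mul ((continuous_apply 0).comp c1)
    · exact (continuous_apply j).comp (continuous_subtype_val.comp ((beltR m).continuous.comp
        continuous_fst))⟩

theorem beltH_zero {m : ℕ} (x : Belt m) : beltH m (x, 0) = x := by
  apply Subtype.ext
  apply Subtype.ext
  show (Fin.cons ((1 - ((0 : I) : ℝ)) * ((x : S (m + 1)) : Fin (m + 1) → ℝ) 0)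
    (Fin.tail ((x : S (m + 1)) : Fin (m + 1) → ℝ)) : Fin (m + 1) → ℝ) = _
  have : (1 - ((0 : I) : ℝ)) * ((x : S (m + 1)) : Fin (m + 1) → ℝ) 0 =
    ((x : S (m + 1)) : Fin (m + 1) → ℝ) 0 := by simp
  rw [this]
  exact Fin.cons_self_tail _

theorem beltH_one {m : ℕ} (x : Belt m) : beltH m (x, 1) = beltS m (beltR m x) := by
  apply Subtype.ext
  apply Subtype.ext
  show (Fin.cons ((1 - ((1 : I) : ℝ)) * ((x : S (m + 1)) : Fin (m + 1) → ℝ) 0)
    (Fin.tail ((x : S (m + 1)) : Fin (m + 1) → ℝ)) : Fin (m + 1) → ℝ) =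
    Fin.cons 0 (Fin.tail ((x : S (m + 1)) : Fin (m + 1) → ℝ))
  have : (1 - ((1 : I) : ℝ)) * ((x : S (m + 1)) : Fin (m + 1) → ℝ) 0 = 0 := by simp
  rw [this]




end sphere

end Crest.Agent.R251.Orb
end

-- ▼ part R251/Det679
section

/-!
# R251 (S0388) (helper679): detection of 2-cocycles on `S 3` (s2)

`detect3` : a 2-cocycle `κ` on `S 3` with primitives `βA`, `βB` on the two caps whose difference
vanishes on the equator loop is a coboundary.
-/

set_option autoImplicit false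
set_option linter.unusedSectionVars false

open CategoryTheory Simplicial Opposite Set Metric Topology
open scoped unitInterval
open Crest.GeometryTopology.DeckCochains
open Crest.Agent.R251.Pr

namespace Crest.Agent.R251.Orb

section detect
open Crest.Agent.R185.Att Crest.Agent.R251.PC
open Crest.Agent.R251.Mod (crI)

variable {M : Type} [AddCommGroup M]

/-- the equator loop of `S 3` -/
noncomputable def eq3 : C(I, S 3) :=
  ⟨fun t => ⟨Fin.cons 0 (crI t : Fin 2 → ℝ), mem_sphere_zero_iff_norm.2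
    (norm_cons_of_le (m := 2) (by norm_num) (crI t))⟩, by
    refine Continuous.subtype_mk (continuous_pi fun i => ?_) _
    refine Fin.cases ?_ (fun j => ?_) i
    · exact continuous_const
    · exact (continuous_apply j).comp (continuous_subtype_val.comp crI.continuous)⟩



/-- a 1-cocycle on the belt of `S 3` with period zero along the equator is a coboundary -/
theorem belt_prim (k : SingSimplex (Belt 2) 1 → M) (hk : cochainCobdry k = 0)
    (h0 : k (ps ((beltS 2).comp crI)) = 0) :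
    ∃ η : SingSimplex (Belt 2) 0 → M, cochainCobdry η = k := by
  obtain ⟨θ, hθ⟩ := K34.detect2 (pull (beltS 2) k) (by rw [cobdry_pull, hk]; rfl) h0
  refine ⟨pull (beltR 2) θ - prism (beltH 2) k, ?_⟩
  have h1 := cobdry_prism (beltH 2) k
  have e1 : end1 (beltH 2) = (beltS 2).comp (beltR 2) := by
    ext1 x; exact beltH_one x
  have e0 : end0 (beltH 2) = ContinuousMap.id _ := by
    ext1 x; exact beltH_zero x
  rw [hk, e1, e0] at h1
  have hz : prism (beltH 2) (0 : SingSimplex (Belt 2) 2 → M) = 0 := prism_zero _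
  rw [hz, add_zero] at h1
  rw [Pr.cobdry_sub, cobdry_pull, hθ, h1]
  have e2 : pull ((beltS 2).comp (beltR 2)) k = pull (beltR 2) (pull (beltS 2) k) := rfl
  have e3 : pull (ContinuousMap.id (Belt 2)) k = k := by
    funext s
    show k (Pr.push _ s) = k s
    rw [push_id]
  rw [e2, e3, sub_sub_cancel]

/-- **(s2)** -/
theorem detect3 (κ : SingSimplex (S 3) 2 → M) (hκ : cochainCobdry κ = 0)
    (βA βB : SingSimplex (S 3) 1 → M)
    (hA : ∀ s, SIn {x | -(1/2 : ℝ) < ((x : S 3) : Fin 3 → ℝ) 0} s → cochainCobdry βA s = κ s)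
    (hB : ∀ s, SIn {x | ((x : S 3) : Fin 3 → ℝ) 0 < 1/2} s → cochainCobdry βB s = κ s)
    (h0 : βA (ps eq3) = βB (ps eq3)) : ∃ θ : SingSimplex (S 3) 1 → M, cochainCobdry θ = κ := by
  let k : SingSimplex (Belt 2) 1 → M := pull (incl (SA 2 ∩ SB 2)) (βA - βB)
  have hk : cochainCobdry k = 0 := by
    show cochainCobdry (pull _ _) = 0
    rw [cobdry_pull]
    funext s
    show cochainCobdry (βA - βB) (Pr.push (incl (SA 2 ∩ SB 2)) s) = 0
    have hs := sin_push_incl (A := SA 2 ∩ SB 2) s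
    rw [Pr.cobdry_sub, Pi.sub_apply, hA _ fun t => (hs t).1, hB _ fun t => (hs t).2, sub_self]
  obtain ⟨η, hη⟩ := belt_prim k hk (by
    show (βA - βB) (Pr.push (incl (SA 2 ∩ SB 2)) (ps ((beltS 2).comp crI))) = 0
    have e : Pr.push (incl (SA 2 ∩ SB 2)) (ps ((beltS 2).comp crI)) = ps eq3 := rfl
    rw [e, Pi.sub_apply, h0, sub_self])
  obtain ⟨ψ, h4, -⟩ := glue0 (isOpen_SA 2) (isOpen_SB 2) (SA_union_SB 2) hκ βA βB (ext0 η) hA hB
    (fun s hs ht => by
      have h5 : pull (incl (SA 2 ∩ SB 2)) (cochainCobdry (ext0 η)) =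
          pull (incl (SA 2 ∩ SB 2)) (βA - βB) := by
        rw [← cobdry_pull, pull_ext0, hη]
      exact ((pull_incl_eq_iff.1 h5 : _) s (hs.inter ht)).symm)
  exact ⟨ψ, h4⟩

end detect

end Crest.Agent.R251.Orb
end

-- ▼ part R251/Fin711e

/-!
R251 (helper711), block K3, last part: S0388.
-/

set_option autoImplicit false

open CategoryTheory
open Crest.GeometryTopology.DeckCochains

namespace Crest.Agent.R251.Fin

open Crest.Agent.R185.Att Crest.Agent.R251.Mod
open Crest.Agent.R251.Alg (GG gc gt mu mu_gc)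

theorem det3 (M : Type) [AddCommGroup M] : Crest.Agent.R251.KH34.Det3 M := by
  intro κ hκ βA βB hA hB h0
  have heq : Crest.Agent.R251.Orb.eq3 = Crest.Agent.R251.KH34.eq3 := by
    ext1 t
    rfl
  refine Crest.Agent.R251.Orb.detect3 κ hκ βA βB (fun s hs => hA s ?_) (fun s hs => hB s ?_)
    (by rw [heq]; exact h0)
  · intro x
    have h1 := hs x
    have h2 : (-(1 / 2 : ℝ)) = -1 / 2 := by norm_num
    rw [h2] at h1
    exact h1
  · intro x
    exact hs x

theorem hv_sphere (h2 : C(D 2, EE2)) (f : C(S 3, EE2))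
    (hA : ∀ x : S 3, -1 < (x : Fin 3 → ℝ) 0 → f x = Crest.Agent.R251.J19.cU (Crest.Agent.R251.J19.tl3 x))
    (hB : ∀ x : S 3, (x : Fin 3 → ℝ) 0 < 1 → f x = h2 (Crest.Agent.R251.J19.tl3 x))
    (hz : ∀ (M : Type) [AddCommGroup M] (u : SingSimplex EE2 2 → M),
      Crest.Agent.R251.Ar.AdmS Crest.Agent.R251.J19.inc u →
      ∀ β : SingSimplex (D 2) 1 → M, cochainCobdry β = Crest.Agent.R251.Pr.pull h2 u →
        β (Crest.Agent.R251.PC.ps Crest.Agent.R251.Ar.cp) = 0)
    (n : ℕ) (hn : 2 ≤ n) (M : Type) [AddCommGroup M] [DistribMulAction GG M] :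
    HV GG (EE3 f) M n := by
  rcases Nat.lt_or_ge n 3 with h | h
  · obtain rfl : n = 2 := by omega
    refine hv_iff_pr.2 (Crest.Agent.R251.KH34.hv2_of f Crest.Agent.R251.J19.cU h2 hA hB (fun b => ?_)
      (det3 M) (Crest.Agent.R251.K1a.hv_EE2 2 le_rfl))
    obtain ⟨u, hu1, hu2, hu3, hu4⟩ := Crest.Agent.R251.JB.exists_adm M b
    refine ⟨u, hu1, hu2, fun α hα => ?_, fun β hβ => hz M u hu3 β hβ⟩
    rw [← hu4]
    refine Crest.Agent.R251.Ar.cell_per (fun t => ?_) hu3 hα (fun x => rfl)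
    exact ⟨_, (Crest.Agent.R251.J19.cU_sd t).symm⟩
  · exact hv_iff_pr.2 (Crest.Agent.R251.K1a.hv_ge f n h)

theorem statement : Statement := by
  obtain ⟨h2, f, hA, hB, hz⟩ := Crest.Agent.R251.J19.exists_sphere
  exact statement_of_sphere f (fun n hn M _ _ => hv_sphere h2 f hA hB hz n hn M)
    (fun ζ hζ h3 h2' => Crest.Agent.R251.Coh.hvmu h2 f hA hB hz ζ hζ h3 h2')

end Crest.Agent.R251.Fin
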