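import Crest.Agent.R251.Mod19
import Crest.Agent.R251.Mod19c
import Mathlib
import Crest.Agent.R185.Att1
import Crest.Agent.R251.Cay337

-- ▼ part R251/Wl19
section

/-!
# Row 251: words and loops in a space `W` under the Cayley graph

`FreeGroup ι` acts on pairs (vertex `g`, class of paths from `v 1` to `v g` in `W`).
-/

set_option autoImplicit false
set_option linter.unusedSectionVars false

open Set Metric Topology unitInterval
open Crest.Agent.R185.Att Crest.Agent.R185.Base

namespace Crest.Agent.R251.Wl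
open Crest.Agent.R251.Mod

local notation "Qt" => Path.Homotopic.Quotient

section gen

variable {G : Type} [Group G] {ι : Type} (gen : ι → G) {W : Type} [TopologicalSpace W]
  (j : C(Z2 gen, W))

/-- vertices with a class of paths from `v 1` -/
abbrev PP : Type := Σ g : G, Qt (j (v gen 1)) (j (v gen g))

/-- class of a path of the Cayley graph in `W` -/
noncomputable def cl {a b : Z2 gen} (γ : Path a b) : Qt (j a) (j b) :=
  Path.Homotopic.Quotient.mk (γ.map j.continuous)

theorem cl_trans {a b c : Z2 gen} (γ : Path a b) (δ : Path b c) :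
    cl gen j (γ.trans δ) = (cl gen j γ).trans (cl gen j δ) := by
  unfold cl
  rw [Path.map_trans, Path.Homotopic.Quotient.mk_trans]

theorem cl_symm {a b : Z2 gen} (γ : Path a b) :
    cl gen j γ.symm = (cl gen j γ).symm := by
  unfold cl
  rw [← Path.Homotopic.Quotient.mk_symm]
  rfl

/-- append an edge -/
noncomputable def stp (i : ι) (p : PP gen j) : PP gen j :=
  ⟨p.1 * gen i, p.2.trans (cl gen j (edge gen p.1 i))⟩

theorem trans_symm_cancel {X : Type} [TopologicalSpace X] {x y z : X} (a : Qt x y) (b : Qt y z) :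
    (a.trans b).trans b.symm = a := by
  rw [Path.Homotopic.Quotient.trans_assoc, Path.Homotopic.Quotient.trans_symm,
    Path.Homotopic.Quotient.trans_refl]

theorem symm_trans_cancel {X : Type} [TopologicalSpace X] {x y z : X} (a : Qt x z) (b : Qt y z) :
    (a.trans b.symm).trans b = a := by
  rw [Path.Homotopic.Quotient.trans_assoc, Path.Homotopic.Quotient.symm_trans,
    Path.Homotopic.Quotient.trans_refl]

theorem stp_inj (i : ι) : Function.Injective (stp gen j i) := by
  rintro ⟨g, q⟩ ⟨g', q'⟩ h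
  have h1 : g * gen i = g' * gen i := congrArg Sigma.fst h
  have h2 : g = g' := mul_right_cancel h1
  subst h2
  have h3 : q.trans (cl gen j (edge gen g i)) = q'.trans (cl gen j (edge gen g i)) :=
    eq_of_heq (Sigma.mk.inj h).2
  have h4 := congrArg (fun a => a.trans (cl gen j (edge gen g i)).symm) h3
  simp only [trans_symm_cancel] at h4
  rw [h4]

theorem stp_surj (i : ι) : Function.Surjective (stp gen j i) := by
  rintro ⟨g, q⟩
  obtain ⟨g', rfl⟩ : ∃ g', g = g' * gen i := ⟨g * (gen i)⁻¹, by rw [inv_mul_cancel_right]⟩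
  refine ⟨⟨g', q.trans (cl gen j (edge gen g' i)).symm⟩, ?_⟩
  show (⟨g' * gen i, _⟩ : PP gen j) = _
  rw [symm_trans_cancel]

/-- the right action of the free group, on edges -/
noncomputable def rho : FreeGroup ι →* (Equiv.Perm (PP gen j))ᵐᵒᵖ :=
  FreeGroup.lift fun i => MulOpposite.op (Equiv.ofBijective (stp gen j i)
    ⟨stp_inj gen j i, stp_surj gen j i⟩)

/-- the right action -/
noncomputable def app (x : FreeGroup ι) (p : PP gen j) : PP gen j := (rho gen j x).unop p

theorem app_one (p : PP gen j) : app gen j 1 p = p := by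
  unfold app; rw [map_one]; rfl

theorem app_mul (x y : FreeGroup ι) (p : PP gen j) :
    app gen j (x * y) p = app gen j y (app gen j x p) := by
  unfold app; rw [map_mul]; rfl

theorem app_of (i : ι) (p : PP gen j) : app gen j (FreeGroup.of i) p = stp gen j i p := by
  unfold app rho; rw [FreeGroup.lift_apply_of]; rfl

theorem app_inj (x : FreeGroup ι) : Function.Injective (app gen j x) := by
  intro p q h
  exact (rho gen j x).unop.injective h

/-- transport along an equality of end points -/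
theorem sig_cast {a : Z2 gen} (q : Qt (j (v gen 1)) (j a)) {b b' : G} (h : b' = b)
    (γ : Path a (v gen b)) (h' : v gen b' = v gen b) :
    (⟨b', q.trans (cl gen j (γ.cast rfl h'))⟩ : PP gen j) = ⟨b, q.trans (cl gen j γ)⟩ := by
  subst h
  rfl

theorem app_mk (l : List (ι × Bool)) (g : G) (q : Qt (j (v gen 1)) (j (v gen g))) :
    app gen j (FreeGroup.mk l) ⟨g, q⟩ = ⟨g * val gen l, q.trans (cl gen j (wpath gen g l))⟩ := by
  induction l generalizing g q with
  | nil =>
    show app gen j 1 ⟨g, q⟩ = _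
    rw [app_one]
    have h := sig_cast gen j q (b' := g * val gen []) (b := g) (by rw [val, mul_one])
      (Path.refl _) (by rw [val, mul_one])
    have h2 : q.trans (cl gen j (Path.refl (v gen g))) = q := by
      have : cl gen j (Path.refl (v gen g)) = Path.Homotopic.Quotient.refl _ := by
        rfl
      rw [this, Path.Homotopic.Quotient.trans_refl]
    rw [h2] at h
    exact h.symm
  | cons a l ih =>
    obtain ⟨i, b⟩ := a
    cases b with
    | true =>
      have e : (FreeGroup.mk ((i, true) :: l) : FreeGroup ι) = FreeGroup.of i * FreeGroup.mk l := by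
        rw [FreeGroup.of, FreeGroup.mul_mk]; rfl
      rw [e, app_mul, app_of]
      show app gen j (FreeGroup.mk l) ⟨g * gen i, q.trans (cl gen j (edge gen g i))⟩ = _
      rw [ih]
      have h := sig_cast gen j q (b' := g * val gen ((i, true) :: l))
        (b := g * gen i * val gen l) (by rw [val, mul_assoc])
        ((edge gen g i).trans (wpath gen (g * gen i) l)) (by rw [val, mul_assoc])
      rw [cl_trans, ← Path.Homotopic.Quotient.trans_assoc] at h
      exact h.symm
    | false =>
      have e : (FreeGroup.mk ((i, false) :: l) : FreeGroup ι) =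
          (FreeGroup.of i)⁻¹ * FreeGroup.mk l := by
        rw [FreeGroup.of, FreeGroup.inv_mk, FreeGroup.mul_mk]; rfl
      rw [e, app_mul]
      have h1 : app gen j (FreeGroup.of i)⁻¹ ⟨g, q⟩ = ⟨g * (gen i)⁻¹, q.trans (cl gen j
          ((edge gen (g * (gen i)⁻¹) i).symm.cast (by rw [inv_mul_cancel_right]) rfl))⟩ := by
        apply app_inj gen j (FreeGroup.of i)
        rw [← app_mul, inv_mul_cancel, app_one, app_of]
        unfold stp
        simp only
        obtain ⟨g', rfl⟩ : ∃ g', g = g' * gen i := ⟨g * (gen i)⁻¹, by rw [inv_mul_cancel_right]⟩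
        have key : ∀ (g'' : G) (h : g'' = g') (h' : v gen (g' * gen i) = v gen (g'' * gen i)),
            (⟨g' * gen i, q⟩ : PP gen j) = ⟨g'' * gen i, (q.trans (cl gen j
              ((edge gen g'' i).symm.cast h' rfl))).trans (cl gen j (edge gen g'' i))⟩ := by
          rintro g'' rfl h'
          have : (edge gen g'' i).symm.cast h' rfl = (edge gen g'' i).symm := rfl
          rw [this, cl_symm, symm_trans_cancel]
        exact key _ (mul_inv_cancel_right _ _) _
      rw [h1, ih]
      have h := sig_cast gen j q (b' := g * val gen ((i, false) :: l))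
        (b := g * (gen i)⁻¹ * val gen l) (by rw [val, mul_assoc])
        (((edge gen (g * (gen i)⁻¹) i).symm.cast (by rw [inv_mul_cancel_right]) rfl).trans
          (wpath gen (g * (gen i)⁻¹) l)) (by rw [val, mul_assoc])
      rw [cl_trans, ← Path.Homotopic.Quotient.trans_assoc] at h
      exact h.symm

/-! ### trivial action of relators, null-homotopic loops -/

theorem exists_mk (x : FreeGroup ι) : ∃ l, x = FreeGroup.mk l := by
  obtain ⟨l, hl⟩ := Quot.exists_rep x
  exact ⟨l, hl.symm⟩

theorem app_fst (x : FreeGroup ι) (p : PP gen j) :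
    (app gen j x p).1 = p.1 * FreeGroup.lift gen x := by
  obtain ⟨l, rfl⟩ := exists_mk x
  obtain ⟨g, q⟩ := p
  rw [app_mk, ← val_eq]

/-- the elements acting trivially -/
noncomputable def triv : Subgroup (FreeGroup ι) := (rho gen j).ker

instance : (triv gen j).Normal := by unfold triv; infer_instance

theorem mem_triv {x : FreeGroup ι} : x ∈ triv gen j ↔ ∀ p, app gen j x p = p := by
  unfold triv app
  rw [MonoidHom.mem_ker]
  constructor
  · intro h p; rw [h]; rfl
  · intro h
    apply MulOpposite.unop_injective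
    exact Equiv.ext h

theorem nc_le_triv {R : Set (FreeGroup ι)} (h : ∀ x ∈ R, ∀ p, app gen j x p = p) :
    Subgroup.normalClosure R ≤ triv gen j :=
  Subgroup.normalClosure_le_normal fun x hx => (mem_triv gen j).2 (h x hx)

/-- left translation by a loop -/
noncomputable def lft (c : Qt (j (v gen 1)) (j (v gen 1))) (p : PP gen j) : PP gen j :=
  ⟨p.1, c.trans p.2⟩

theorem app_lft (c : Qt (j (v gen 1)) (j (v gen 1))) (x : FreeGroup ι) (p : PP gen j) :
    app gen j x (lft gen j c p) = lft gen j c (app gen j x p) := by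
  obtain ⟨l, rfl⟩ := exists_mk x
  obtain ⟨g, q⟩ := p
  unfold lft
  rw [app_mk, app_mk, Path.Homotopic.Quotient.trans_assoc]

/-- base point -/
noncomputable def p0 : PP gen j := ⟨1, Path.Homotopic.Quotient.refl _⟩

/-- words of value one give loops -/
theorem exists_cls (x : FreeGroup ι) (hx : FreeGroup.lift gen x = 1) :
    ∃ c : Qt (j (v gen 1)) (j (v gen 1)), app gen j x (p0 gen j) = ⟨1, c⟩ := by
  have h := app_fst gen j x (p0 gen j)
  rw [hx, mul_one] at h
  have h1 : (app gen j x (p0 gen j)).1 = 1 := h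
  clear h
  generalize app gen j x (p0 gen j) = P at h1 ⊢
  obtain ⟨g, q⟩ := P
  change g = 1 at h1
  subst h1
  exact ⟨q, rfl⟩

/-- the loop class of a word of value one -/
noncomputable def cls (x : (FreeGroup.lift gen).ker) : Qt (j (v gen 1)) (j (v gen 1)) :=
  (exists_cls gen j x.1 x.2).choose

theorem app_cls (x : (FreeGroup.lift gen).ker) : app gen j x.1 (p0 gen j) = ⟨1, cls gen j x⟩ :=
  (exists_cls gen j x.1 x.2).choose_spec

theorem app_cls' (x : (FreeGroup.lift gen).ker) (c : Qt (j (v gen 1)) (j (v gen 1))) :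
    app gen j x.1 ⟨1, c⟩ = ⟨1, c.trans (cls gen j x)⟩ := by
  have h := app_lft gen j c x.1 (p0 gen j)
  rw [app_cls] at h
  have h1 : lft gen j c (p0 gen j) = ⟨1, c⟩ := by
    unfold lft p0
    rw [Path.Homotopic.Quotient.trans_refl]
  rw [h1] at h
  exact h

theorem pair_inj {c d : Qt (j (v gen 1)) (j (v gen 1))}
    (h : (⟨1, c⟩ : PP gen j) = ⟨1, d⟩) : c = d := eq_of_heq (Sigma.mk.inj h).2

theorem cls_mul (x y : (FreeGroup.lift gen).ker) :
    cls gen j (x * y) = (cls gen j x).trans (cls gen j y) := by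
  apply pair_inj gen j
  rw [← app_cls, ← app_cls', ← app_cls]
  exact app_mul gen j x.1 y.1 _

theorem cls_mk (l : List (ι × Bool)) (h : val gen l = 1)
    (h' : FreeGroup.mk l ∈ (FreeGroup.lift gen).ker) :
    cls gen j ⟨FreeGroup.mk l, h'⟩ = cl gen j (wloop gen l h) := by
  apply pair_inj gen j
  rw [← app_cls]
  unfold p0
  rw [app_mk]
  have h1 := sig_cast gen j (Path.Homotopic.Quotient.refl _) (b' := 1) (b := 1 * val gen l)
    (by rw [h, mul_one]) (wpath gen 1 l) (by rw [h, mul_one])
  rw [← h1, Path.Homotopic.Quotient.refl_trans]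
  rfl

/-- as a homomorphism into the fundamental group -/
noncomputable def clsH : (FreeGroup.lift gen).ker →* FundamentalGroup W (j (v gen 1)) where
  toFun x := cls gen j x⁻¹
  map_one' := by
    apply pair_inj gen j
    rw [inv_one, ← app_cls]
    exact app_one gen j _
  map_mul' x y := by
    rw [mul_inv_rev, cls_mul]
    rfl

theorem clsH_apply (x : (FreeGroup.lift gen).ker) : clsH gen j x = cls gen j x⁻¹ := rfl

theorem cls_eq (x : (FreeGroup.lift gen).ker) :
    (cls gen j x : FundamentalGroup W (j (v gen 1))) = clsH gen j x⁻¹ := by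
  rw [clsH_apply, inv_inv]

theorem cls_of_triv (x : (FreeGroup.lift gen).ker) (hx : x.1 ∈ triv gen j) :
    cls gen j x = Path.Homotopic.Quotient.refl _ := by
  apply pair_inj gen j
  rw [← app_cls, (mem_triv gen j).1 hx]
  rfl

/-- **(R)** a word in the normal closure of relators acting trivially is a null-homotopic loop -/
theorem cl_wloop_of_triv (l : List (ι × Bool)) (h : val gen l = 1)
    (hx : FreeGroup.mk l ∈ triv gen j) :
    cl gen j (wloop gen l h) = Path.Homotopic.Quotient.refl _ := by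
  have h' : FreeGroup.mk l ∈ (FreeGroup.lift gen).ker := by
    rw [MonoidHom.mem_ker, ← val_eq]; exact h
  rw [← cls_mk gen j l h h']
  exact cls_of_triv gen j _ hx

/-- **(w4)** a word `ρ * k` with `ρ` acting trivially and `k` in the commutator subgroup of the
kernel gives a loop in the commutator subgroup of the fundamental group. -/
theorem cl_wloop_mem_commutator (l : List (ι × Bool)) (h : val gen l = 1) (ρ k : FreeGroup ι)
    (e : FreeGroup.mk l = ρ * k) (hρ : ρ ∈ triv gen j)
    (hk : k ∈ ⁅(FreeGroup.lift gen).ker, (FreeGroup.lift gen).ker⁆) :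
    (cl gen j (wloop gen l h) : FundamentalGroup W (j (v gen 1))) ∈
      commutator (FundamentalGroup W (j (v gen 1))) := by
  have h' : FreeGroup.mk l ∈ (FreeGroup.lift gen).ker := by
    rw [MonoidHom.mem_ker, ← val_eq]; exact h
  rw [← Subgroup.map_subtype_commutator] at hk
  obtain ⟨k', hk', rfl⟩ := hk
  have hρ' : ρ ∈ (FreeGroup.lift gen).ker := by
    have : ρ = FreeGroup.mk l * (k'⁻¹ : (FreeGroup.lift gen).ker) := by rw [e]; simp
    rw [this]
    exact mul_mem h' (SetLike.coe_mem _)
  have e2 : (⟨FreeGroup.mk l, h'⟩ : (FreeGroup.lift gen).ker) = ⟨ρ, hρ'⟩ * k' := Subtype.ext e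
  rw [← cls_mk gen j l h h', e2, cls_mul, cls_of_triv gen j ⟨ρ, hρ'⟩ hρ,
    Path.Homotopic.Quotient.refl_trans]
  rw [cls_eq gen j k']
  have h3 : (commutator (FreeGroup.lift gen).ker).map (clsH gen j) ≤
      commutator (FundamentalGroup W (j (v gen 1))) := by
    rw [commutator_def, Subgroup.map_commutator, commutator_def]
    exact Subgroup.commutator_mono le_top le_top
  exact h3 ⟨k'⁻¹, inv_mem hk', rfl⟩

/-! ### discs -/

theorem null_of_disc {z : Z2 gen} (γ : Path z z) (F : C(D 2, W))
    (hF : ∀ t : I, F (sd 2 (cr t)) = j (γ t)) :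
    cl gen j γ = Path.Homotopic.Quotient.refl _ := by
  let δ : Path (sd 2 (cr 0)) (sd 2 (cr 0)) := cpath.map (sd 2).continuous
  have h1 : δ.Homotopic (Path.refl _) := SimplyConnectedSpace.paths_homotopic _ _
  have h2 := h1.map F
  have h0 : j z = F (sd 2 (cr 0)) := by
    have := hF 0
    rw [γ.source] at this
    exact this.symm
  have e : γ.map j.continuous = (δ.map F.continuous).cast h0 h0 := by
    ext t
    exact (hF t).symm
  unfold cl
  rw [e]
  have h3 : ((δ.map F.continuous).cast h0 h0).Homotopic (((Path.refl (sd 2 (cr 0))).map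
      F.continuous).cast h0 h0) := by
    obtain ⟨H⟩ := h2
    exact ⟨H.cast rfl rfl⟩
  have h4 : (((Path.refl (sd 2 (cr 0))).map F.continuous).cast h0 h0) = Path.refl (j z) := by
    ext t
    exact h0.symm
  rw [h4] at h3
  exact Path.Homotopic.Quotient.eq.2 h3

/-! ### translates of word paths -/

theorem edge_smul (h g : G) (i : ι) (t : I) : h • edge gen g i t = edge gen (h * g) i t :=
  smul_chr h g i (d1 t)

theorem wpath_congr {g g' : G} (h : g = g') (l : List (ι × Bool)) (t : I) :
    wpath gen g l t = wpath gen g' l t := by subst h; rfl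

theorem edge_congr {g g' : G} (h : g = g') (i : ι) (t : I) :
    edge gen g i t = edge gen g' i t := by subst h; rfl



theorem wpath_smul (l : List (ι × Bool)) (h g : G) (t : I) :
    h • wpath gen g l t = wpath gen (h * g) l t := by
  induction l generalizing g t with
  | nil => rfl
  | cons a l ih =>
    obtain ⟨i, b⟩ := a
    cases b with
    | true =>
      show h • ((edge gen g i).trans (wpath gen (g * gen i) l)) t =
        ((edge gen (h * g) i).trans (wpath gen (h * g * gen i) l)) t
      rw [Path.trans_apply, Path.trans_apply]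
      split_ifs
      · exact edge_smul gen h g i _
      · rw [ih]
        exact wpath_congr gen (mul_assoc _ _ _).symm l _
    | false =>
      show h • (((edge gen (g * (gen i)⁻¹) i).symm.cast _ rfl).trans
        (wpath gen (g * (gen i)⁻¹) l)) t =
        (((edge gen (h * g * (gen i)⁻¹) i).symm.cast _ rfl).trans
        (wpath gen (h * g * (gen i)⁻¹) l)) t
      rw [Path.trans_apply, Path.trans_apply]
      split_ifs
      · show h • edge gen (g * (gen i)⁻¹) i _ = edge gen (h * g * (gen i)⁻¹) i _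
        rw [edge_smul]
        exact edge_congr gen (mul_assoc _ _ _).symm i _
      · rw [ih]
        exact wpath_congr gen (mul_assoc _ _ _).symm l _

/-- a relator word bounding discs at all vertices acts trivially -/
theorem app_of_discs (l : List (ι × Bool)) (h : val gen l = 1) (F : G → C(D 2, W))
    (hF : ∀ (g : G) (t : I), F g (sd 2 (cr t)) = j (g • wloop gen l h t)) (p : PP gen j) :
    app gen j (FreeGroup.mk l) p = p := by
  obtain ⟨g, q⟩ := p
  rw [app_mk]
  have e : v gen g = v gen (g * val gen l) := by rw [h, mul_one]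
  have h1 := sig_cast gen j q (b' := g) (b := g * val gen l) (by rw [h, mul_one])
    (wpath gen g l) e
  rw [← h1]
  have h2 : cl gen j ((wpath gen g l).cast rfl e) = Path.Homotopic.Quotient.refl _ := by
    apply null_of_disc gen j _ (F g)
    intro t
    rw [hF]
    congr 1
    show g • wpath gen 1 l t = wpath gen g l t
    rw [wpath_smul]
    exact wpath_congr gen (mul_one g) l t
  rw [h2, Path.Homotopic.Quotient.trans_refl]

theorem mk_mem_triv_of_discs (l : List (ι × Bool)) (h : val gen l = 1) (F : G → C(D 2, W))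
    (hF : ∀ (g : G) (t : I), F g (sd 2 (cr t)) = j (g • wloop gen l h t)) :
    FreeGroup.mk l ∈ triv gen j :=
  (mem_triv gen j).2 fun p => app_of_discs gen j l h F hF p

end gen

section cayley

variable {G : Type} [Group G] {ι : Type} (gen : ι → G) {κ : Type} (wd : κ → List (ι × Bool))
  (hwd : ∀ j, val gen (wd j) = 1)

/-- in the Cayley complex the relators act trivially -/
theorem relator_mem_triv (k : κ) : FreeGroup.mk (wd k) ∈ triv gen (i2 gen wd hwd) := by
  refine mk_mem_triv_of_discs gen (i2 gen wd hwd) (wd k) (hwd k)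
    (fun g => cell2 gen wd hwd g k) ?_
  intro g t
  rw [cell2_sd, circ_cr]

theorem nc_le_triv_i2 :
    Subgroup.normalClosure (Set.range fun k => FreeGroup.mk (wd k)) ≤ triv gen (i2 gen wd hwd) :=
  nc_le_triv gen (i2 gen wd hwd) (by
    rintro _ ⟨k, rfl⟩ p
    exact (mem_triv gen _).1 (relator_mem_triv gen wd hwd k) p)

/-- **(R)** word loops in the normal closure are null-homotopic in the Cayley complex -/
theorem wloop_null (l : List (ι × Bool)) (h : val gen l = 1)
    (hx : FreeGroup.mk l ∈ Subgroup.normalClosure (Set.range fun k => FreeGroup.mk (wd k))) :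
    ((wloop gen l h).map (i2 gen wd hwd).continuous).Homotopic (Path.refl _) :=
  Path.Homotopic.Quotient.eq.1 (cl_wloop_of_triv gen (i2 gen wd hwd) l h
    (nc_le_triv_i2 gen wd hwd hx))

/-! ### inside `Sk J` -/

variable (J : Set κ)

/-- the Cayley graph in `Sk J` -/
noncomputable def iJ : C(Z2 gen, Sk gen wd hwd J) :=
  ⟨fun z => ⟨i2 gen wd hwd z, Or.inl ⟨z, rfl⟩⟩,
    Continuous.subtype_mk (i2 gen wd hwd).continuous _⟩

/-- the 2-cells of type `k ∈ J` in `Sk J` -/
noncomputable def cJ (g : G) (k : κ) (hk : k ∈ J) : C(D 2, Sk gen wd hwd J) :=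
  ⟨fun x => ⟨cell2 gen wd hwd g k x, Or.inr (mem_iUnion.2 ⟨g, mem_iUnion₂.2 ⟨k, hk, x, rfl⟩⟩)⟩,
    Continuous.subtype_mk (cell2 gen wd hwd g k).continuous _⟩

theorem relator_mem_triv_J (k : κ) (hk : k ∈ J) :
    FreeGroup.mk (wd k) ∈ triv gen (iJ gen wd hwd J) := by
  refine mk_mem_triv_of_discs gen (iJ gen wd hwd J) (wd k) (hwd k)
    (fun g => cJ gen wd hwd J g k hk) ?_
  intro g t
  apply Subtype.ext
  show cell2 gen wd hwd g k (sd 2 (cr t)) = i2 gen wd hwd (g • wloop gen (wd k) (hwd k) t)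
  rw [cell2_sd, circ_cr]

theorem nc_le_triv_J :
    Subgroup.normalClosure ((fun k => FreeGroup.mk (wd k)) '' J) ≤
      triv gen (iJ gen wd hwd J) :=
  nc_le_triv gen _ (by
    rintro _ ⟨k, hk, rfl⟩ p
    exact (mem_triv gen _).1 (relator_mem_triv_J gen wd hwd J k hk) p)

/-- **(w4)** general form -/
theorem wloop_mem_commutator (l : List (ι × Bool)) (h : val gen l = 1) (ρ k : FreeGroup ι)
    (e : FreeGroup.mk l = ρ * k)
    (hρ : ρ ∈ Subgroup.normalClosure ((fun k => FreeGroup.mk (wd k)) '' J))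
    (hk : k ∈ ⁅(FreeGroup.lift gen).ker, (FreeGroup.lift gen).ker⁆) :
    (Path.Homotopic.Quotient.mk ((wloop gen l h).map (iJ gen wd hwd J).continuous) :
      FundamentalGroup (Sk gen wd hwd J) (iJ gen wd hwd J (v gen 1))) ∈
      commutator (FundamentalGroup (Sk gen wd hwd J) (iJ gen wd hwd J (v gen 1))) :=
  cl_wloop_mem_commutator gen (iJ gen wd hwd J) l h ρ k e (nc_le_triv_J gen wd hwd J hρ) hk

end cayley

end Crest.Agent.R251.Wl
end

-- ▼ part R251/Wl19b
section

/-! # Row 251: the loop of the `U`-cell lies in the commutator subgroup of `π₁(Kr)` -/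

set_option autoImplicit false

open Set Metric Topology unitInterval
open Crest.Agent.R185.Att Crest.Agent.R185.Base

namespace Crest.Agent.R251.Wl
open Crest.Agent.R251.Mod
open Crest.Agent.R251

theorem ker_lift_gn : (FreeGroup.lift gn).ker = Alg.Rel := by
  ext x
  rw [MonoidHom.mem_ker, lift_gn_eq_one_iff]

/-- the Cayley graph in `Kr` -/
noncomputable def iK : C(Z2 gn, Kr) := iJ gn wdd hwdd {0}


/-- **(w4)** -/
theorem U_mem_commutator :
    (Path.Homotopic.Quotient.mk ((wloop gn (wdd 1) (hwdd 1)).map iK.continuous) :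
      FundamentalGroup Kr (iK (v gn 1))) ∈ commutator (FundamentalGroup Kr (iK (v gn 1))) := by
  obtain ⟨ρ, hρ, k, hk, e⟩ := Alg.exists_wU_eq
  refine wloop_mem_commutator gn wdd hwdd {0} (wdd 1) (hwdd 1) ρ k ?_ ?_ ?_
  · rw [mk_wdd]; exact e
  · rw [image_singleton, mk_wdd]; exact hρ
  · rw [ker_lift_gn]; exact hk


end Crest.Agent.R251.Wl
end

-- ▼ part R251/SC796
section

/-!
# Row 251, block B2(b) (helper796): homotopy classes of paths from an open cover

`gen`: a class of homotopy classes of paths which contains the (corrected) pieces of an open cover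
contains everything.
-/

set_option autoImplicit false

open Set unitInterval Topology

namespace Crest.Agent.R251.SC

open Path.Homotopic.Quotient

/-- homotopy classes of paths -/
abbrev PQ {X : Type*} [TopologicalSpace X] (x y : X) : Type _ := Path.Homotopic.Quotient x y

section gen

variable {W : Type*} [TopologicalSpace W]

/-- auxiliary: `γ` with free endpoints -/
theorem gen_aux {ι : Sort*} (c : ι → Set W) (hc : ∀ i, IsOpen (c i)) (hcov : ∀ p, ∃ i, p ∈ c i)
    (A : ∀ p q : W, PQ p q → Prop) (hA : ∀ p, ∃ q, ∃ δ : PQ p q, A p q δ)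
    (S : ∀ x y : W, PQ x y → Prop)
    (hS : ∀ x y z (a : PQ x y) (b : PQ y z), S x y a → S y z b → S x z (a.trans b))
    (h : ∀ i x y (γ : Path x y), (∀ s, γ s ∈ c i) → ∀ x' y' (δ : PQ x x') (ε : PQ y y'),
      A x x' δ → A y y' ε → S x' y' ((symm δ).trans ((mk γ).trans ε)))
    (f : C(I, W)) {x' y' : W} (δ : PQ (f 0) x') (ε : PQ (f 1) y') (hδ : A _ _ δ) (hε : A _ _ ε) :
    S x' y' ((symm δ).trans ((mk (⟨f, rfl, rfl⟩ : Path (f 0) (f 1))).trans ε)) := by
  obtain ⟨t, t0, tm, ⟨n, hn⟩, ht⟩ := exists_monotone_Icc_subset_open_cover_unitInterval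
    (c := fun i => f ⁻¹' c i) (fun i => (hc i).preimage f.continuous)
    (fun s _ => by
      obtain ⟨i, hi⟩ := hcov (f s)
      exact mem_iUnion.2 ⟨i, hi⟩)
  set γ : Path (f 0) (f 1) := ⟨f, rfl, rfl⟩ with hγ
  have key : ∀ k : ℕ, ∀ (z : W) (ζ : PQ (γ (t k)) z), A _ _ ζ → ∀ (w : W) (ω : PQ (γ (t 0)) w),
      A _ _ ω → S w z ((symm ω).trans ((mk (γ.subpath (t 0) (t k))).trans ζ)) := by
    intro k
    induction k with
    | zero =>
      intro z ζ hζ w ω hω
      obtain ⟨i, hi⟩ := hcov (γ (t 0))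
      have := h i (γ (t 0)) (γ (t 0)) (γ.subpath (t 0) (t 0)) (fun s => by
        rw [Path.subpath_self]; exact hi) w z ω ζ hω hζ
      exact this
    | succ k ih =>
      intro z ζ hζ w ω hω
      obtain ⟨m, μ, hμ⟩ := hA (γ (t k))
      have h1 := ih m μ hμ w ω hω
      obtain ⟨i, hi⟩ := ht k
      have h2 := h i (γ (t k)) (γ (t (k + 1))) (γ.subpath (t k) (t (k + 1))) (fun s => by
        have : γ.subpath (t k) (t (k + 1)) s ∈ range (γ.subpath (t k) (t (k + 1))) := ⟨s, rfl⟩
        rw [Path.range_subpath_of_le _ _ _ (tm (Nat.le_succ k))] at this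
        obtain ⟨u, hu, hu2⟩ := this
        rw [← hu2]
        exact hi hu) m z μ ζ hμ hζ
      have h3 := hS _ _ _ _ _ h1 h2
      have e : mk (γ.subpath (t 0) (t (k + 1))) =
          (mk (γ.subpath (t 0) (t k))).trans (mk (γ.subpath (t k) (t (k + 1)))) := by
        rw [← mk_trans, Path.Homotopic.Quotient.eq]
        exact ⟨(Path.Homotopy.subpathTransSubpath γ _ _ _).symm⟩
      rw [e]
      have e2 : (symm ω).trans (((mk (γ.subpath (t 0) (t k))).trans
          (mk (γ.subpath (t k) (t (k + 1))))).trans ζ) =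
        ((symm ω).trans ((mk (γ.subpath (t 0) (t k))).trans μ)).trans
          ((symm μ).trans ((mk (γ.subpath (t k) (t (k + 1)))).trans ζ)) := by
        simp only [trans_assoc]
        congr 2
        rw [← trans_assoc μ, trans_symm, refl_trans]
      rw [e2]
      exact h3
  have k1 := key n
  rw [hn n le_rfl, t0] at k1
  have k2 := k1 y' ε hε x' δ hδ
  rw [Path.subpath_zero_one] at k2
  exact k2

/-- a class of homotopy classes of paths which contains the (corrected) pieces of an open cover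
contains all (corrected) paths -/
theorem gen {ι : Sort*} (c : ι → Set W) (hc : ∀ i, IsOpen (c i)) (hcov : ∀ p, ∃ i, p ∈ c i)
    (A : ∀ p q : W, PQ p q → Prop) (hA : ∀ p, ∃ q, ∃ δ : PQ p q, A p q δ)
    (S : ∀ x y : W, PQ x y → Prop)
    (hS : ∀ x y z (a : PQ x y) (b : PQ y z), S x y a → S y z b → S x z (a.trans b))
    (h : ∀ i x y (γ : Path x y), (∀ s, γ s ∈ c i) → ∀ x' y' (δ : PQ x x') (ε : PQ y y'),
      A x x' δ → A y y' ε → S x' y' ((symm δ).trans ((mk γ).trans ε)))
    {x y : W} (γ : Path x y) {x' y' : W} (δ : PQ x x') (ε : PQ y y') (hδ : A _ _ δ) (hε : A _ _ ε) :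
    S x' y' ((symm δ).trans ((mk γ).trans ε)) := by
  obtain ⟨f, rfl, rfl⟩ := γ
  exact gen_aux c hc hcov A hA S hS h f δ ε hδ hε

end gen

end Crest.Agent.R251.SC
end

-- ▼ part R251/SC796P
section

/-!
# Row 251, block B2(b) (helper796): pushing paths off the cells of dimension at least two

`push`: every path of `GAtt G φ` (`m ≥ 2`) with endpoints in `Z` is homotopic to a path of `Z`.
-/

set_option autoImplicit false
set_option linter.unusedSectionVars false

open Set unitInterval Topology Metric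

namespace Crest.Agent.R251.SC

open Path.Homotopic.Quotient
open Crest.Agent.R185.Att

/-- radial expansion of the cube -/
noncomputable def ex (m : ℕ) : C(D m × I, D m) where
  toFun p := ⟨(max ‖(p.1 : Fin m → ℝ)‖ (1 - 3 / 4 * (p.2 : ℝ)))⁻¹ • (p.1 : Fin m → ℝ), by
    have h1 : 0 < 1 - 3 / 4 * (p.2 : ℝ) := by linarith [p.2.2.2]
    have h2 : 0 < max ‖(p.1 : Fin m → ℝ)‖ (1 - 3 / 4 * (p.2 : ℝ)) := lt_max_of_lt_right h1
    rw [mem_closedBall_zero_iff, norm_smul, norm_inv, Real.norm_of_nonneg h2.le,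
      inv_mul_le_iff₀ h2, mul_one]
    exact le_max_left _ _⟩
  continuous_toFun := by
    have hx : Continuous fun p : D m × I => (p.1 : Fin m → ℝ) :=
      continuous_subtype_val.comp continuous_fst
    have ht : Continuous fun p : D m × I => 1 - 3 / 4 * (p.2 : ℝ) :=
      continuous_const.sub (continuous_const.mul (continuous_subtype_val.comp continuous_snd))
    refine Continuous.subtype_mk (Continuous.smul (Continuous.inv₀ (hx.norm.max ht) ?_) hx) _
    intro p
    have h1 : 0 < 1 - 3 / 4 * (p.2 : ℝ) := by linarith [p.2.2.2]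
    exact (lt_max_of_lt_right h1).ne'

theorem ex_coe {m : ℕ} (x : D m) (t : I) : (ex m (x, t) : Fin m → ℝ) =
    (max ‖(x : Fin m → ℝ)‖ (1 - 3 / 4 * (t : ℝ)))⁻¹ • (x : Fin m → ℝ) := rfl

theorem ex_sd {m : ℕ} (x : S m) (t : I) : ex m (sd m x, t) = sd m x := by
  apply Subtype.ext
  rw [ex_coe]
  have h : max ‖((sd m x : D m) : Fin m → ℝ)‖ (1 - 3 / 4 * (t : ℝ)) = 1 := by
    rw [sd_coe, x.norm_eq]
    exact max_eq_left (by linarith [t.2.1])
  rw [h, inv_one, one_smul]

theorem ex_zero {m : ℕ} (x : D m) : ex m (x, 0) = x := by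
  apply Subtype.ext
  rw [ex_coe]
  have h : max ‖(x : Fin m → ℝ)‖ (1 - 3 / 4 * ((0 : I) : ℝ)) = 1 := by
    rw [Icc.coe_zero, mul_zero, sub_zero]
    exact max_eq_right x.norm_le
  rw [h, inv_one, one_smul]

theorem ex_one_norm {m : ℕ} (x : D m) (hx : 1 / 4 < ‖(x : Fin m → ℝ)‖) :
    ‖(ex m (x, 1) : Fin m → ℝ)‖ = 1 := by
  rw [ex_coe]
  have h : max ‖(x : Fin m → ℝ)‖ (1 - 3 / 4 * ((1 : I) : ℝ)) = ‖(x : Fin m → ℝ)‖ := by
    rw [Icc.coe_one]
    exact max_eq_left (by linarith)
  have h0 : 0 < ‖(x : Fin m → ℝ)‖ := by linarith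
  rw [h, norm_smul, norm_inv, norm_norm, inv_mul_cancel₀ h0.ne']

section

variable {G : Type} [Group G] {Z : Type} [TopologicalSpace Z] [MulAction G Z]
  {m : ℕ} {C : Type} {φ : C → C(S m, Z)}

/-- the homotopy, radial expansion of the cells -/
noncomputable def Hf (p : GAtt G φ × I) : GAtt G φ :=
  Sum.elim (fun z => inZ φ z) (fun q => chr φ q.1 q.2.1 (ex m (bd m q.2.2, p.2))) p.1

theorem Hf_inZ (z : Z) (t : I) : Hf (inZ φ z, t) = (inZ φ z : GAtt G φ) := rfl

theorem Hf_inB (g : G) (c : C) (x : B m) (t : I) :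
    Hf (inB φ g c x, t) = chr φ g c (ex m (bd m x, t)) := rfl

theorem Hf_chr (g : G) (c : C) (x : D m) (t : I) :
    Hf (chr φ g c x, t) = chr φ g c (ex m (x, t)) := by
  induction x using D.cases' with
  | hB x => rw [chr_bd, Hf_inB]
  | hS x => rw [chr_sd, ex_sd, chr_sd, Hf_inZ]

theorem continuous_Hf : Continuous (Hf : GAtt G φ × I → GAtt G φ) := by
  rw [continuous_prod_iff]
  constructor
  · exact continuous_inZ.comp continuous_fst
  · intro g c
    have : (fun p : D m × I => (Hf (chr φ g c p.1, p.2) : GAtt G φ)) =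
        fun p => chr φ g c (ex m p) := by
      funext p
      exact Hf_chr g c p.1 p.2
    rw [this]
    exact (continuous_chr g c).comp (ex m).continuous

theorem Hf_zero (p : GAtt G φ) : Hf (p, 0) = p := by
  induction p using GAtt.cases' with
  | hZ z => rfl
  | hB g c x => rw [Hf_inB, ex_zero, chr_bd]

variable (φ) in
/-- the end of the expansion -/
noncomputable def Rm : C(GAtt G φ, GAtt G φ) := ⟨fun p => Hf (p, 1), continuous_Hf.comp (by fun_prop)⟩

theorem Rm_apply (p : GAtt G φ) : Rm φ p = Hf (p, 1) := rfl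

variable (φ) in
/-- the homotopy from the identity to `Rm` -/
noncomputable def HH : ContinuousMap.Homotopy (ContinuousMap.id (GAtt G φ)) (Rm φ) where
  toFun p := Hf (p.2, p.1)
  continuous_toFun := continuous_Hf.comp (by fun_prop)
  map_zero_left p := Hf_zero p
  map_one_left p := rfl


/-- the points far from the centres of the cells -/
def far (φ : C → C(S m, Z)) : Set (GAtt G φ) :=
  {p | ∀ g c (x : B m), p = inB φ g c x → 1 / 4 < ‖(x : Fin m → ℝ)‖}

/-- the points near the centre of a cell -/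
def near (φ : C → C(S m, Z)) (g : G) (c : C) : Set (GAtt G φ) :=
  inB φ g c '' {x : B m | ‖(x : Fin m → ℝ)‖ < 1 / 2}

theorem inZ_mem_far (z : Z) : (inZ φ z : GAtt G φ) ∈ far φ := fun _ _ _ h => absurd h inZ_ne_inB

theorem inB_mem_far {g : G} {c : C} {x : B m} :
    (inB φ g c x : GAtt G φ) ∈ far φ ↔ 1 / 4 < ‖(x : Fin m → ℝ)‖ := by
  constructor
  · intro h; exact h g c x rfl
  · intro h g' c' x' h'
    obtain ⟨rfl, rfl, rfl⟩ := inB_inj.1 h'
    exact h

theorem isOpen_far : IsOpen (far φ : Set (GAtt G φ)) := by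
  rw [Crest.Agent.R185.Att.isOpen_iff]
  constructor
  · convert isOpen_univ
    ext z
    simp only [mem_preimage, mem_univ, iff_true]
    exact inZ_mem_far z
  · intro g c
    have : chr φ g c ⁻¹' (far φ) = {x : D m | 1 / 4 < ‖(x : Fin m → ℝ)‖} := by
      ext x
      induction x using D.cases' with
      | hB x => rw [mem_preimage, chr_bd, inB_mem_far]; rfl
      | hS x =>
        rw [mem_preimage, chr_sd]
        simp only [mem_ofPred_eq, sd_coe, x.norm_eq]
        exact ⟨fun _ => by norm_num, fun _ => inZ_mem_far _⟩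
    rw [this]
    exact isOpen_lt continuous_const (by fun_prop)

theorem isOpen_near (g : G) (c : C) : IsOpen (near φ g c) :=
  isOpen_inB_image (isOpen_lt (by fun_prop) continuous_const)

theorem exists_Rm {p : GAtt G φ} (hp : p ∈ far φ) : Rm φ p ∈ range (inZ φ : Z → GAtt G φ) := by
  induction p using GAtt.cases' with
  | hZ z => exact ⟨z, rfl⟩
  | hB g c x =>
    rw [Rm_apply, Hf_inB]
    have h := ex_one_norm (bd m x) (inB_mem_far.1 hp)
    have h2 : ex m (bd m x, 1) = sd m ⟨_, mem_sphere_zero_iff_norm.2 h⟩ := rfl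
    rw [h2, chr_sd]
    exact ⟨_, rfl⟩

theorem continuous_inB (g : G) (c : C) : Continuous (inB φ g c : B m → GAtt G φ) := by
  have : (inB φ g c : B m → GAtt G φ) = chr φ g c ∘ bd m := by
    funext x; exact (chr_bd g c x).symm
  rw [this]
  exact (continuous_chr g c).comp (bd m).continuous

theorem isOpenEmbedding_inB (g : G) (c : C) : IsOpenEmbedding (inB φ g c : B m → GAtt G φ) :=
  IsOpenEmbedding.of_continuous_injective_isOpenMap (continuous_inB g c)
    (fun _ _ h => (inB_inj.1 h).2.2) (fun _ hV => isOpen_inB_image hV)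

/-- lift a path along an embedding -/
theorem lift_path {X Y : Type*} [TopologicalSpace X] [TopologicalSpace Y] {f : X → Y}
    (hf : IsEmbedding f) {a b : X} (γ : Path (f a) (f b)) (h : ∀ s, γ s ∈ range f) :
    ∃ γ' : Path a b, γ'.map hf.continuous = γ := by
  choose g hg using h
  refine ⟨⟨⟨g, ?_⟩, ?_, ?_⟩, ?_⟩
  · rw [hf.isInducing.continuous_iff]
    have : f ∘ g = γ := funext hg
    rw [this]
    exact γ.continuous
  · apply hf.injective
    show f (g 0) = f a
    rw [hg, γ.source]
  · apply hf.injective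
    show f (g 1) = f b
    rw [hg, γ.target]
  · ext s
    exact hg s

instance : ContractibleSpace (B m) :=
  (convex_ball (0 : Fin m → ℝ) 1).contractibleSpace ⟨0, by simp⟩

/-- paths in the annulus -/
theorem annulus (hm : 2 ≤ m) (a b : B m) (ha : 1 / 4 < ‖(a : Fin m → ℝ)‖)
    (hb : 1 / 4 < ‖(b : Fin m → ℝ)‖) :
    ∃ η : Path a b, ∀ s, 1 / 4 < ‖(η s : Fin m → ℝ)‖ := by
  have hr : 1 < Module.rank ℝ (Fin m → ℝ) := by
    rw [rank_fin_fun]
    exact_mod_cast hm
  have hpc := isPathConnected_compl_singleton_of_one_lt_rank hr (0 : Fin m → ℝ)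
  have ha0 : (a : Fin m → ℝ) ∈ ({0}ᶜ : Set (Fin m → ℝ)) := by
    simp only [mem_compl_iff, mem_singleton_iff]
    intro h; rw [h, norm_zero] at ha; linarith
  have hb0 : (b : Fin m → ℝ) ∈ ({0}ᶜ : Set (Fin m → ℝ)) := by
    simp only [mem_compl_iff, mem_singleton_iff]
    intro h; rw [h, norm_zero] at hb; linarith
  obtain ⟨p, hp⟩ := hpc.joinedIn _ ha0 _ hb0
  have hp0 : ∀ s, 0 < ‖p s‖ := fun s => norm_pos_iff.2 (hp s)
  set r1 := min ‖(a : Fin m → ℝ)‖ ‖(b : Fin m → ℝ)‖ with hr1
  set r2 := max ‖(a : Fin m → ℝ)‖ ‖(b : Fin m → ℝ)‖ with hr2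
  have h14 : 1 / 4 < r1 := lt_min ha hb
  have h1 : r2 < 1 := max_lt a.norm_lt b.norm_lt
  have h12 : r1 ≤ r2 := (min_le_left _ _).trans (le_max_left _ _)
  let ν : (Fin m → ℝ) → (Fin m → ℝ) := fun x => (max r1 (min ‖x‖ r2) / ‖x‖) • x
  have hν : ∀ s, ‖ν (p s)‖ = max r1 (min ‖p s‖ r2) := by
    intro s
    have h0 : 0 ≤ max r1 (min ‖p s‖ r2) := le_max_of_le_left (by linarith)
    show ‖(max r1 (min ‖p s‖ r2) / ‖p s‖) • p s‖ = _
    rw [norm_smul, Real.norm_of_nonneg (div_nonneg h0 (hp0 s).le), div_mul_cancel₀ _ (hp0 s).ne']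
  have hνc : Continuous fun s => ν (p s) := by
    refine Continuous.smul (Continuous.div (by fun_prop) (by fun_prop) fun s => (hp0 s).ne') p.continuous
  have hfix : ∀ x : Fin m → ℝ, r1 ≤ ‖x‖ → ‖x‖ ≤ r2 → 0 < ‖x‖ → ν x = x := by
    intro x h1 h2 h3
    show (max r1 (min ‖x‖ r2) / ‖x‖) • x = x
    rw [min_eq_left h2, max_eq_right h1, div_self h3.ne', one_smul]
  refine ⟨⟨⟨fun s => ⟨ν (p s), ?_⟩, ?_⟩, ?_, ?_⟩, ?_⟩
  · rw [mem_ball_zero_iff, hν]
    exact max_lt (by linarith) (lt_of_le_of_lt (min_le_right _ _) h1)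
  · exact Continuous.subtype_mk hνc _
  · apply Subtype.ext
    show ν (p 0) = a
    rw [p.source]
    exact hfix _ (min_le_left _ _) (le_max_left _ _) (norm_pos_iff.2 ha0)
  · apply Subtype.ext
    show ν (p 1) = b
    rw [p.target]
    exact hfix _ (min_le_right _ _) (le_max_right _ _) (norm_pos_iff.2 hb0)
  · intro s
    show 1 / 4 < ‖ν (p s)‖
    rw [hν]
    exact lt_of_lt_of_le h14 (le_max_left _ _)

/-- connecting paths: nothing at the far points, a path to `x₀` in the cell otherwise -/
inductive Conn (x₀ : B m) : ∀ p q : GAtt G φ, PQ p q → Prop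
  | refl (p : GAtt G φ) (hp : p ∈ far φ) : Conn x₀ p p (Path.Homotopic.Quotient.refl p)
  | cell (g : G) (c : C) (x : B m) (hx : ‖(x : Fin m → ℝ)‖ ≤ 1 / 4) (γ : Path x x₀) :
      Conn x₀ (inB φ g c x) (inB φ g c x₀) (mk (γ.map (continuous_inB g c)))

/-- classes represented by far paths -/
def FarCl (φ : C → C(S m, Z)) (x y : GAtt G φ) (κ : PQ x y) : Prop :=
  ∃ γ : Path x y, mk γ = κ ∧ ∀ s, γ s ∈ far φ

theorem FarCl.trans {x y z : GAtt G φ} {a : PQ x y} {b : PQ y z} (ha : FarCl φ x y a)
    (hb : FarCl φ y z b) : FarCl φ x z (a.trans b) := by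
  obtain ⟨γ, rfl, h1⟩ := ha
  obtain ⟨γ', rfl, h2⟩ := hb
  refine ⟨γ.trans γ', mk_trans _ _, fun s => ?_⟩
  rw [Path.trans_apply]
  split_ifs
  · exact h1 _
  · exact h2 _

/-- a connecting path inside the near part of a cell -/
theorem Conn.cases_near {x₀ : B m} (h0 : 1 / 4 < ‖(x₀ : Fin m → ℝ)‖) {g : G} {c : C}
    {x x' : GAtt G φ} {δ : PQ x x'} (h : Conn x₀ x x' δ) (hx : x ∈ near φ g c) :
    ∃ (a a' : B m) (hxa : x = inB φ g c a) (hxa' : x' = inB φ g c a') (ρ : Path a a'),
      1 / 4 < ‖(a' : Fin m → ℝ)‖ ∧ δ = (mk (ρ.map (continuous_inB g c))).cast hxa hxa' := by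
  cases h with
  | refl _ hp =>
    obtain ⟨a, ha, rfl⟩ := hx
    refine ⟨a, a, rfl, rfl, Path.refl a, inB_mem_far.1 hp, ?_⟩
    rw [cast_rfl_rfl]
    rfl
  | cell g' c' y hy γ =>
    obtain ⟨a, ha, hX⟩ := hx
    obtain ⟨rfl, rfl, rfl⟩ := inB_inj.1 hX
    exact ⟨a, x₀, rfl, rfl, γ, h0, (cast_rfl_rfl _).symm⟩

/-- a connecting path at a far point is constant -/
theorem Conn.cases_far {x₀ : B m} {x x' : GAtt G φ} {δ : PQ x x'} (h : Conn x₀ x x' δ)
    (hx : x ∈ far φ) :
    ∃ e : x' = x, δ = (Path.Homotopic.Quotient.refl x).cast rfl e := by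
  cases h with
  | refl _ hp => exact ⟨rfl, (cast_rfl_rfl _).symm⟩
  | cell g' c' y hy γ => exact absurd (inB_mem_far.1 hx) (not_lt.2 hy)

/-- every path between far points is homotopic to a far path -/
theorem farCl (hm : 2 ≤ m) {x y : GAtt G φ} (hx : x ∈ far φ) (hy : y ∈ far φ) (γ : Path x y) :
    FarCl φ x y (mk γ) := by
  -- the auxiliary point
  have hm0 : 0 < m := by omega
  let x₀ : B m := ⟨fun _ => 3 / 8, by
    rw [mem_ball_zero_iff, pi_norm_lt_iff one_pos]
    intro _; rw [Real.norm_of_nonneg (by norm_num)]; norm_num⟩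
  have h0 : 1 / 4 < ‖(x₀ : Fin m → ℝ)‖ := by
    have h1 := norm_le_pi_norm (x₀ : Fin m → ℝ) ⟨0, hm0⟩
    have h2 : ‖(x₀ : Fin m → ℝ) ⟨0, hm0⟩‖ = 3 / 8 := by
      show ‖(3 / 8 : ℝ)‖ = _
      rw [Real.norm_of_nonneg (by norm_num)]
    rw [h2] at h1
    linarith
  have key := gen (W := GAtt G φ) (ι := Option (G × C))
    (fun i => i.elim (far φ) (fun p => near φ p.1 p.2))
    (by
      rintro (_ | ⟨g, c⟩)
      · exact isOpen_far
      · exact isOpen_near g c)
    (by
      intro p
      induction p using GAtt.cases' with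
      | hZ z => exact ⟨none, inZ_mem_far z⟩
      | hB g c x =>
        by_cases h : 1 / 4 < ‖(x : Fin m → ℝ)‖
        · exact ⟨none, inB_mem_far.2 h⟩
        · refine ⟨some (g, c), x, ?_, rfl⟩
          show ‖(x : Fin m → ℝ)‖ < 1 / 2
          linarith [not_lt.1 h])
    (fun p q δ => Conn x₀ p q δ)
    (by
      intro p
      induction p using GAtt.cases' with
      | hZ z => exact ⟨_, _, Conn.refl _ (inZ_mem_far z)⟩
      | hB g c x =>
        by_cases h : 1 / 4 < ‖(x : Fin m → ℝ)‖
        · exact ⟨_, _, Conn.refl _ (inB_mem_far.2 h)⟩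
        · exact ⟨_, _, Conn.cell g c x (not_lt.1 h) (PathConnectedSpace.somePath x x₀)⟩)
    (FarCl φ) (fun _ _ _ _ _ => FarCl.trans)
    (by
      rintro (_ | ⟨g, c⟩) x y γ hγ x' y' δ ε hδ hε
      · -- far piece
        have hx : x ∈ far φ := by rw [← γ.source]; exact hγ 0
        have hy : y ∈ far φ := by rw [← γ.target]; exact hγ 1
        obtain ⟨rfl, rfl⟩ := hδ.cases_far hx
        obtain ⟨rfl, rfl⟩ := hε.cases_far hy
        refine ⟨γ, ?_, hγ⟩
        simp only [cast_rfl_rfl, trans_refl]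
        have : (Path.Homotopic.Quotient.refl x').symm = Path.Homotopic.Quotient.refl x' := by
          rw [← mk_refl, ← mk_symm, Path.refl_symm]
        rw [this, refl_trans]
      · -- near piece
        have hx : x ∈ near φ g c := by rw [← γ.source]; exact hγ 0
        have hy : y ∈ near φ g c := by rw [← γ.target]; exact hγ 1
        obtain ⟨a, a', rfl, rfl, ρ, ha', rfl⟩ := hδ.cases_near h0 hx
        obtain ⟨b, b', rfl, rfl, ρ', hb', rfl⟩ := hε.cases_near h0 hy
        obtain ⟨γ', rfl⟩ := lift_path (isOpenEmbedding_inB (φ := φ) g c).isEmbedding γ (fun s => by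
          obtain ⟨u, -, hu⟩ := hγ s
          exact ⟨u, hu⟩)
        obtain ⟨η, hη⟩ := annulus hm a' b' ha' hb'
        refine ⟨η.map (continuous_inB g c), ?_, fun s => inB_mem_far.2 (hη s)⟩
        rw [cast_rfl_rfl, cast_rfl_rfl]
        have h1 : (mk η : PQ a' b') = (mk ρ).symm.trans ((mk γ').trans (mk ρ')) :=
          Subsingleton.elim _ _
        have h2 := congrArg (fun κ : PQ a' b' => κ.map ⟨_, continuous_inB (φ := φ) g c⟩) h1
        have e1 : mk (η.map (continuous_inB (φ := φ) g c)) =
          (mk η : PQ a' b').map ⟨_, continuous_inB (φ := φ) g c⟩ := rfl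
        rw [e1, h2]
        have e2 : (mk ρ).symm.trans ((mk γ').trans (mk ρ')) =
          mk (ρ.symm.trans (γ'.trans ρ')) := rfl
        rw [e2]
        show mk ((ρ.symm.trans (γ'.trans ρ')).map (continuous_inB (φ := φ) g c)) = _
        rw [Path.map_trans, Path.map_trans]
        rfl)
    γ (Path.Homotopic.Quotient.refl x) (Path.Homotopic.Quotient.refl y) (Conn.refl _ hx) (Conn.refl _ hy)
  have : (Path.Homotopic.Quotient.refl x).symm = Path.Homotopic.Quotient.refl x := by
    rw [← mk_refl, ← mk_symm, Path.refl_symm]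
  rw [this, refl_trans, trans_refl] at key
  exact key

theorem push_aux {z z' : Z} (γ₁ γR : Path (inZ φ z : GAtt G φ) (inZ φ z'))
    (hR : ∀ s, γR s = Hf (γ₁ s, 1)) : γ₁.Homotopic γR := by
  refine ⟨⟨⟨⟨fun p => Hf (γ₁ p.2, p.1), ?_⟩, ?_, ?_⟩, ?_⟩⟩
  · exact continuous_Hf.comp ((γ₁.continuous.comp continuous_snd).prodMk continuous_fst)
  · intro s
    exact Hf_zero _
  · intro s
    exact (hR s).symm
  · intro t s hs
    rcases hs with rfl | hs
    · show Hf (γ₁ 0, t) = γ₁ 0
      rw [γ₁.source]; rfl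
    · rw [mem_singleton_iff] at hs
      subst hs
      show Hf (γ₁ 1, t) = γ₁ 1
      rw [γ₁.target]; rfl

/-- **pushing**: every path between points of `Z` is homotopic to a path of `Z` -/
theorem push (hm : 2 ≤ m) [ContinuousConstSMul G Z] {z z' : Z}
    (γ : Path (inZ φ z : GAtt G φ) (inZ φ z')) :
    ∃ γ₀ : Path z z', (γ₀.map continuous_inZ).Homotopic γ := by
  obtain ⟨γ₁, h1, h2⟩ := farCl hm (inZ_mem_far z) (inZ_mem_far z') γ
  let γR : Path (inZ φ z : GAtt G φ) (inZ φ z') :=
    ⟨⟨fun s => Hf (γ₁ s, 1), continuous_Hf.comp (γ₁.continuous.prodMk continuous_const)⟩, by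
      show Hf (γ₁ 0, 1) = _
      rw [γ₁.source]; rfl, by
      show Hf (γ₁ 1, 1) = _
      rw [γ₁.target]; rfl⟩
  have hR : ∀ s, γR s ∈ range (inZ φ : Z → GAtt G φ) := fun s => exists_Rm (h2 s)
  obtain ⟨γ₀, hγ₀⟩ := lift_path (isClosedEmbedding_inZ (φ := φ) (G := G)).isEmbedding γR hR
  refine ⟨γ₀, ?_⟩
  rw [hγ₀]
  exact (push_aux γ₁ γR fun s => rfl).symm.trans (Path.Homotopic.Quotient.eq.1 h1)

/-- every point is joined to a point of `Z` -/
theorem joined_inZ (hm : 1 ≤ m) (p : GAtt G φ) : ∃ z : Z, Joined p (inZ φ z) := by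
  induction p using GAtt.cases' with
  | hZ z => exact ⟨z, Joined.refl _⟩
  | hB g c x =>
    let y : S m := ⟨fun _ => 1, by
      rw [mem_sphere_zero_iff_norm]
      haveI : Nonempty (Fin m) := ⟨⟨0, hm⟩⟩
      rw [pi_norm_const, norm_one]⟩
    refine ⟨g • φ c y, ?_⟩
    have h : Joined (bd m x) (sd m y) := PathConnectedSpace.joined _ _
    have h2 := h.map (continuous_chr (φ := φ) g c)
    rwa [chr_bd, chr_sd] at h2

theorem pathConnected (hm : 1 ≤ m) [PathConnectedSpace Z] : PathConnectedSpace (GAtt G φ) := by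
  obtain ⟨z₀⟩ := PathConnectedSpace.nonempty (X := Z)
  refine ⟨⟨inZ φ z₀⟩, fun x y => ?_⟩
  obtain ⟨z, hz⟩ := joined_inZ hm x
  obtain ⟨z', hz'⟩ := joined_inZ hm y
  exact hz.trans (((PathConnectedSpace.joined z z').map continuous_inZ).trans hz'.symm)

/-- **simple connectivity criterion**: it is enough to kill the loops of `Z` at one point -/
theorem sc_att (hm : 2 ≤ m) [ContinuousConstSMul G Z] [PathConnectedSpace Z] (z₀ : Z)
    (h : ∀ γ : Path z₀ z₀, (γ.map (continuous_inZ (φ := φ) (G := G))).Homotopic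
      (Path.refl (inZ φ z₀))) : SimplyConnectedSpace (GAtt G φ) := by
  haveI := pathConnected (φ := φ) (G := G) (by omega : 1 ≤ m)
  rw [simply_connected_iff_loops_nullhomotopic]
  refine ⟨inferInstance, fun x γ => ?_⟩
  let δ : Path (inZ φ z₀) x := PathConnectedSpace.somePath _ _
  obtain ⟨γ₀, hγ₀⟩ := push hm (δ.trans (γ.trans δ.symm))
  have h1 := (Path.Homotopic.Quotient.eq.2 hγ₀).symm.trans (Path.Homotopic.Quotient.eq.2 (h γ₀))
  rw [mk_trans, mk_trans, mk_symm, mk_refl] at h1
  rw [← Path.Homotopic.Quotient.eq, mk_refl]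
  calc (mk γ) = (mk δ).symm.trans (((mk δ).trans ((mk γ).trans (mk δ).symm)).trans (mk δ)) := by
        simp only [trans_assoc, symm_trans, trans_refl]
        rw [← trans_assoc, symm_trans, refl_trans]
    _ = Path.Homotopic.Quotient.refl x := by
        rw [h1, refl_trans, symm_trans]

/-- attaching cells of dimension at least two preserves simple connectivity -/
theorem sc_of_sc (hm : 2 ≤ m) [ContinuousConstSMul G Z] [SimplyConnectedSpace Z] :
    SimplyConnectedSpace (GAtt G φ) := by
  obtain ⟨z₀⟩ := PathConnectedSpace.nonempty (X := Z)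
  exact sc_att hm z₀ fun γ => (SimplyConnectedSpace.paths_homotopic γ (Path.refl z₀)).map
    ⟨_, continuous_inZ⟩

end

end Crest.Agent.R251.SC
end

-- ▼ part R251/SC19

/-! # Row 251: the Cayley complex and the 3-complex are simply connected -/

set_option autoImplicit false

open Set Metric Topology unitInterval
open Crest.Agent.R185.Att Crest.Agent.R185.Base

namespace Crest.Agent.R251.SC19
open Crest.Agent.R251.Mod Crest.Agent.R251.Wl
open Crest.Agent.R251

/-- general form -/
theorem simplyConnected_Z3 {G : Type} [Group G] {ι : Type} (gen : ι → G) {κ : Type}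
    (wd : κ → List (ι × Bool)) (hwd : ∀ j, val gen (wd j) = 1)
    (hgen : ∀ g : G, ∃ l, val gen l = g)
    (hker : ∀ l, val gen l = 1 →
      FreeGroup.mk l ∈ Subgroup.normalClosure (Set.range fun k => FreeGroup.mk (wd k))) :
    SimplyConnectedSpace (Z3 gen wd hwd) := by
  have := Cay.pathConnected_of_generate gen hgen
  refine SC.sc_att (φ := φ2 gen wd hwd) le_rfl (v gen 1) fun γ => ?_
  obtain ⟨l, e, hl⟩ := Cay.exists_wloop gen γ
  exact (hl.map ⟨_, continuous_inZ⟩).trans (wloop_null gen wd hwd l e (hker l e))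

instance pathConnected_EE1 : PathConnectedSpace EE1 :=
  Cay.pathConnected_of_generate gn fun g => by
    obtain ⟨x, rfl⟩ := PresentedGroup.mk_surjective _ g
    obtain ⟨l, rfl⟩ := exists_mk x
    exact ⟨l, val_gn l⟩

instance simplyConnected_EE2 : SimplyConnectedSpace EE2 :=
  simplyConnected_Z3 gn wdd hwdd (fun g => by
    obtain ⟨x, rfl⟩ := PresentedGroup.mk_surjective _ g
    obtain ⟨l, rfl⟩ := exists_mk x
    exact ⟨l, val_gn l⟩) mk_mem_nc_of_val

instance simplyConnected_EE3 (f : C(S 3, EE2)) : SimplyConnectedSpace (EE3 f) :=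
  SC.sc_of_sc (φ := φ3 f) (by norm_num)

end Crest.Agent.R251.SC19
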