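import Mathlib.AlgebraicTopology.FundamentalGroupoid.SimplyConnected
import Mathlib.Topology.Subpath
import Mathlib.Topology.UnitInterval
import Mathlib.Topology.LocallyConstant.Basic
import Mathlib.Topology.Algebra.Algebra

/-! Row 251, line B, block (i) (helper613): a generic criterion for simple connectivity.

A space `E` is simply connected if there is a choice `Φ y` of a class of paths from `y₀` to every
point `y` which is compatible with the paths contained in one member of an open cover. -/

set_option autoImplicit false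

open Set unitInterval

noncomputable section

namespace Crest.Agent.R251.SCB

variable {E : Type*} [TopologicalSpace E] {y₀ : E}

/-- classes of paths -/
abbrev PC (x y : E) : Type _ := Path.Homotopic.Quotient x y

/-- the class of a path -/
abbrev cl {x y : E} (γ : Path x y) : PC x y := Path.Homotopic.Quotient.mk γ

local infixl:70 " ⬝ " => Path.Homotopic.Quotient.trans

/-- `Φ` is compatible with every path contained in one member of the cover. -/
def Compat {κ : Type*} (V : κ → Set E) (Φ : ∀ y : E, PC y₀ y) : Prop :=
  ∀ i (y y' : E) (γ : Path y y'), (∀ t, γ t ∈ V i) → Φ y' = Φ y ⬝ cl γ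

theorem cl_subpath_trans {a b : E} (γ : Path a b) (t₀ t₁ t₂ : I) :
    cl (γ.subpath t₀ t₁) ⬝ cl (γ.subpath t₁ t₂) = cl (γ.subpath t₀ t₂) :=
  Quotient.sound ⟨Path.Homotopy.subpathTransSubpath γ t₀ t₁ t₂⟩


theorem trans_cl_refl {a b : E} (p : PC a b) : p ⬝ cl (Path.refl b) = p := by
  induction p using Quotient.inductionOn with
  | h p => exact Quotient.sound ⟨Path.Homotopy.transRefl p⟩

theorem left_cancel {a b c : E} {p : PC a b} {q r : PC b c} (h : p ⬝ q = p ⬝ r) : q = r := by
  have h1 := congrArg (fun u => p.symm ⬝ u) h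
  simpa only [← Path.Homotopic.Quotient.trans_assoc, Path.Homotopic.Quotient.symm_trans,
    Path.Homotopic.Quotient.refl_trans] using h1


/-- compatibility along every path -/
theorem Compat.path {κ : Type*} {V : κ → Set E} {Φ : ∀ y : E, PC y₀ y} (h : Compat V Φ)
    (hV : ∀ i, IsOpen (V i)) (hc : ∀ y, ∃ i, y ∈ V i) {a b : E} (γ : Path a b) :
    Φ b = Φ a ⬝ cl γ := by
  obtain ⟨t, h0, hmono, ⟨n, hn⟩, hsub⟩ :=
    exists_monotone_Icc_subset_open_cover_unitInterval (c := fun i => γ ⁻¹' V i)
      (fun i => (hV i).preimage γ.continuous) (fun s _ => by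
        obtain ⟨i, hi⟩ := hc (γ s)
        exact mem_iUnion.2 ⟨i, hi⟩)
  have key : ∀ m : ℕ, Φ (γ (t m)) = Φ (γ (t 0)) ⬝ cl (γ.subpath (t 0) (t m)) := by
    intro m
    induction m with
    | zero => rw [Path.subpath_self, trans_cl_refl]
    | succ m ih =>
      obtain ⟨i, hi⟩ := hsub m
      have h1 := h i _ _ (γ.subpath (t m) (t (m + 1))) (fun s => by
        have h2 : γ.subpath (t m) (t (m + 1)) s ∈ range (γ.subpath (t m) (t (m + 1))) :=
          mem_range_self s
        rw [Path.range_subpath_of_le _ _ _ (hmono (Nat.le_succ m))] at h2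
        obtain ⟨u, hu, hu'⟩ := h2
        rw [← hu']
        exact hi hu)
      rw [h1, ih, Path.Homotopic.Quotient.trans_assoc, cl_subpath_trans]
  have h1 := key n
  rw [hn n le_rfl, h0] at h1
  have h2 : ∀ (a' b' : E) (ha : a' = a) (hb : b' = b) (p : Path a' b') (q : Path a b),
      (∀ s, p s = q s) → Φ b' = Φ a' ⬝ cl p → Φ b = Φ a ⬝ cl q := by
    rintro a' b' rfl rfl p q hpq hp
    have : p = q := Path.ext (funext hpq)
    rw [← this]; exact hp
  refine h2 _ _ γ.source γ.target _ γ (fun s => ?_) h1
  rw [Path.subpath_zero_one]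
  rfl

/-- **simple connectivity from a compatible choice of path classes** -/
theorem simplyConnected_of {κ : Type*} {V : κ → Set E} {Φ : ∀ y : E, PC y₀ y}
    (h : Compat V Φ) (hV : ∀ i, IsOpen (V i)) (hc : ∀ y, ∃ i, y ∈ V i) :
    SimplyConnectedSpace E := by
  rw [simply_connected_iff_paths_homotopic]
  have hpc : PathConnectedSpace E :=
    { nonempty := ⟨y₀⟩
      joined := fun x y => by
        obtain ⟨p⟩ : Nonempty (Path y₀ x) := ⟨(Φ x).out⟩
        obtain ⟨q⟩ : Nonempty (Path y₀ y) := ⟨(Φ y).out⟩
        exact ⟨p.symm.trans q⟩ }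
  refine ⟨hpc, fun x y => ⟨fun p q => ?_⟩⟩
  induction p using Quotient.inductionOn with
  | h p =>
    induction q using Quotient.inductionOn with
    | h q =>
      have h1 := h.path hV hc p
      have h2 := h.path hV hc q
      have h3 : Φ x ⬝ cl p = Φ x ⬝ cl q := h1.symm.trans h2
      exact left_cancel h3

/-! ### squares -/

instance contractibleII : ContractibleSpace (I × I) := by
  rw [contractible_iff_id_nullhomotopic]
  refine ⟨(0, 0), ⟨?_⟩⟩
  exact
    { toFun := fun z => (σ z.1 * z.2.1, σ z.1 * z.2.2)
      continuous_toFun := by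
        have h1 : Continuous fun z : I × I × I => σ z.1 := continuous_symm.comp continuous_fst
        exact (h1.mul (continuous_fst.comp continuous_snd)).prodMk
          (h1.mul (continuous_snd.comp continuous_snd))
      map_zero_left := fun z => by simp
      map_one_left := fun z => by simp }


/-! ### second form: contractible pieces -/

/-- An open cover of `E` such that every `V i` is the disjoint union of open pieces (labelled by
`lab i`), together with a contraction in `E` of every piece to its centre. -/
structure Pieces (E : Type*) [TopologicalSpace E] (κ : Type*) where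
  V : κ → Set E
  isOpen_V : ∀ i, IsOpen (V i)
  cover : ∀ y, ∃ i, y ∈ V i
  L : κ → Type*
  lab : ∀ i, V i → L i
  loc : ∀ i, IsLocallyConstant (lab i)
  ctr : ∀ i, L i → E
  H : ∀ i, C(V i × I, E)
  H_zero : ∀ i y, H i (y, 0) = y
  H_one : ∀ i y, H i (y, 1) = ctr i (lab i y)

namespace Pieces

variable {κ : Type*} (P : Pieces E κ)




end Pieces

end Crest.Agent.R251.SCB
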